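import Vale.Agent.P204.Full.Potential.Spec
import Mathlib.MeasureTheory.Measure.Haar.NormedSpace

/-!
# P204 Split: the mollifier
-/

open scoped ContDiff
open MeasureTheory Vale.Agent.P204.Full.Potential

noncomputable section

namespace Vale.Agent.P204.Full.Split

lemma moll_smooth (d : ℝ) : ContDiff ℝ ∞ (moll d) :=
  (contDiff_const.mul (coreBump.contDiff_normed.comp (contDiff_const_smul _))).mul contDiff_const

lemma moll_nonneg (d : ℝ) (z : R4) : 0 ≤ moll d z := by
  have h1 : 0 ≤ coreBump.normed volume ((2 * d⁻¹) • z) := coreBump.nonneg_normed _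
  have h2 : 0 ≤ (d ^ 4)⁻¹ := by positivity
  unfold moll
  positivity

variable {d : ℝ}

lemma moll_supp (hd : 0 < d) {z : R4} (h : moll d z ≠ 0) : ‖z‖ < d := by
  have h1 : (2 * d⁻¹) • z ∈ Function.support (coreBump.normed volume) := by
    intro h0
    exact h (by simp [moll, h0])
  rw [coreBump.support_normed_eq, Metric.mem_ball, dist_zero_right, norm_smul, Real.norm_eq_abs,
    abs_of_pos (by positivity)] at h1
  have h2 : 2 * d⁻¹ * ‖z‖ < 2 := h1
  have e : ‖z‖ = d / 2 * (2 * d⁻¹ * ‖z‖) := by field_simp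
  have h3 : d / 2 * (2 * d⁻¹ * ‖z‖) < d / 2 * 2 := mul_lt_mul_of_pos_left h2 (by positivity)
  linarith

lemma moll_tsupport (hd : 0 < d) : tsupport (moll d) ⊆ Metric.closedBall 0 d :=
  closure_minimal (fun _ h => mem_closedBall_zero_iff.2 (moll_supp hd h).le)
    Metric.isClosed_closedBall

lemma moll_hcs (hd : 0 < d) : HasCompactSupport (moll d) :=
  (isCompact_closedBall 0 d).of_isClosed_subset (isClosed_tsupport _) (moll_tsupport hd)

lemma moll_integral (hd : 0 < d) : ∫ z, moll d z = 1 := by
  simp only [moll]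
  rw [integral_mul_const, integral_const_mul,
    Measure.integral_comp_smul_of_nonneg volume _ _ (hR := by positivity),
    coreBump.integral_normed, finrank_euclideanSpace_fin, smul_eq_mul]
  field_simp
  norm_num

/-- The mollifier is dominated by each kernel. -/
lemma moll_le_ker : ∃ C : ℝ, 0 ≤ C ∧ ∀ d : ℝ, 0 < d → ∀ z : R4,
    d ^ 2 * moll d z ≤ C * ker 2 d z ∧ d * moll d z ≤ C * ker 3 d z := by
  set B := 1 / volume.real (Metric.closedBall (0 : R4) coreBump.rIn) with hBdef
  have hB0 : 0 ≤ B := by positivity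
  refine ⟨B * 16 * 8, by positivity, fun d hd z => ?_⟩
  rcases eq_or_ne (moll d z) 0 with h | h
  · have h0 : 0 ≤ B * 16 * 8 := by positivity
    simp only [h, mul_zero, ker]
    exact ⟨by positivity, by positivity⟩
  · have hz := moll_supp hd h
    have hm : moll d z ≤ (d ^ 4)⁻¹ * B * 16 := by
      unfold moll
      gcongr
      exact coreBump.normed_le_div_measure_closedBall_rIn (μ := volume) _
    have hk : ∀ a : ℕ, ((2 * d) ^ a)⁻¹ ≤ ker a d z := fun a => by
      unfold ker
      gcongr
      linarith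
    constructor
    · calc d ^ 2 * moll d z ≤ d ^ 2 * ((d ^ 4)⁻¹ * B * 16) := by gcongr
        _ = B * 16 * 4 * ((2 * d) ^ 2)⁻¹ := by field_simp; ring
        _ ≤ B * 16 * 8 * ker 2 d z :=
            mul_le_mul (by linarith) (hk 2) (by positivity) (by positivity)
    · calc d * moll d z ≤ d * ((d ^ 4)⁻¹ * B * 16) := by gcongr
        _ = B * 16 * 8 * ((2 * d) ^ 3)⁻¹ := by field_simp; ring
        _ ≤ B * 16 * 8 * ker 3 d z := by gcongr; exact hk 3

end Vale.Agent.P204.Full.Split
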