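import Vale.Agent.P204.Full.Base.Flat
import Vale.Agent.P204.Full.Common.Inst
import Mathlib.Analysis.Calculus.ContDiff.RCLike

/-!
# P204 Split: smoothness of `y ↦ L (φ (y - ·))` for a functional `L` continuous in the sup norm
-/

open scoped ContDiff Topology
open Filter

noncomputable section

namespace Vale.Agent.P204.Full.Split

/-- Functionals on smooth functions, bounded by the sup norm. -/
structure SupBdd (L : (R4 → ℝ) → ℝ) : Prop where
  add : ∀ f g, ContDiff ℝ ∞ f → ContDiff ℝ ∞ g → L (fun z => f z + g z) = L f + L g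
  smul : ∀ (a : ℝ) f, ContDiff ℝ ∞ f → L (fun z => a * f z) = a * L f
  bound : ∃ C : ℝ, 0 ≤ C ∧ ∀ f (a : ℝ), ContDiff ℝ ∞ f → (∀ z, |f z| ≤ a) → |L f| ≤ C * a

lemma SupBdd.sum {L : (R4 → ℝ) → ℝ} (hL : SupBdd L) {ι : Type*} (s : Finset ι) (a : ι → ℝ)
    (f : ι → R4 → ℝ) (hf : ∀ l, ContDiff ℝ ∞ (f l)) :
    L (fun z => ∑ l ∈ s, a l * f l z) = ∑ l ∈ s, a l * L (f l) := by
  classical
  induction s using Finset.induction_on with
  | empty =>
    have h := hL.smul 0 (fun _ => 0) contDiff_const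
    simp only [zero_mul] at h
    simpa using h
  | insert l s hl ih =>
    simp only [Finset.sum_insert hl]
    rw [hL.add (fun z => a l * f l z) (fun z => ∑ k ∈ s, a k * f k z)
      (contDiff_const.mul (hf l)) (ContDiff.sum fun k _ => contDiff_const.mul (hf k)),
      hL.smul _ _ (hf l), ih]

/-- Second order Taylor bound of a test function. -/
lemma taylor_bound {φ : R4 → ℝ} (hφ : ContDiff ℝ ∞ φ) (hc : HasCompactSupport φ) :
    ∃ C : ℝ, 0 ≤ C ∧ ∀ w v, |φ (w + v) - φ w - fderiv ℝ φ w v| ≤ C * ‖v‖ ^ 2 := by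
  have h1 : ContDiff ℝ 1 (fderiv ℝ φ) := hφ.fderiv_right (WithTop.coe_le_coe.2 le_top)
  obtain ⟨K, hK⟩ := h1.lipschitzWith_of_hasCompactSupport (hc.fderiv ℝ) one_ne_zero
  refine ⟨K, K.2, fun w v => ?_⟩
  have h := (convex_closedBall w ‖v‖).norm_image_sub_le_of_norm_fderiv_le' (𝕜 := ℝ) (f := φ)
    (C := K * ‖v‖) (φ := fderiv ℝ φ w)
    (fun x _ => (hφ.differentiable (by simp)).differentiableAt)
    (fun x hx => (hK.norm_sub_le x w).trans (mul_le_mul_of_nonneg_left (by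
      rwa [Metric.mem_closedBall, dist_eq_norm] at hx) K.2))
    (Metric.mem_closedBall_self (norm_nonneg v))
    (show w + v ∈ Metric.closedBall w ‖v‖ by simp [dist_eq_norm])
  rw [add_sub_cancel_left, Real.norm_eq_abs] at h
  linarith [sq ‖v‖]

/-- `y ↦ L (φ (y - ·))`. -/
def convL (L : (R4 → ℝ) → ℝ) (φ : R4 → ℝ) (y : R4) : ℝ := L fun z => φ (y - z)

/-- The partial derivative of a test function. -/
def pd (φ : R4 → ℝ) (a : Fin 4) (w : R4) : ℝ := fderiv ℝ φ w (bvec a)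

lemma contDiff_pd {φ : R4 → ℝ} (hφ : ContDiff ℝ ∞ φ) (a : Fin 4) : ContDiff ℝ ∞ (pd φ a) :=
  (hφ.fderiv_right (by simp)).clm_apply contDiff_const

lemma hcs_pd {φ : R4 → ℝ} (hc : HasCompactSupport φ) (a : Fin 4) :
    HasCompactSupport (pd φ a) := HasCompactSupport.comp_left (g := fun A : R4 →L[ℝ] ℝ => A (bvec a)) (hc.fderiv ℝ) rfl

lemma fderiv_eq_pd (φ : R4 → ℝ) (w v : R4) : fderiv ℝ φ w v = ∑ a, v a * pd φ a w := by
  conv_lhs => rw [Base.vec_expand v]
  simp [map_sum, pd]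

lemma hasFDerivAt_convL {L : (R4 → ℝ) → ℝ} (hL : SupBdd L) {φ : R4 → ℝ} (hφ : ContDiff ℝ ∞ φ)
    (hc : HasCompactSupport φ) (y : R4) :
    HasFDerivAt (convL L φ)
      (∑ a, convL L (pd φ a) y • (EuclideanSpace.proj a : R4 →L[ℝ] ℝ)) y := by
  obtain ⟨C, hC0, hC⟩ := taylor_bound hφ hc
  obtain ⟨B, hB0, hB⟩ := hL.bound
  have hsub : ∀ (u : R4) {f : R4 → ℝ}, ContDiff ℝ ∞ f → ContDiff ℝ ∞ fun z => f (u - z) :=
    fun u f hf => hf.comp (contDiff_const.sub contDiff_id)
  rw [hasFDerivAt_iff_isLittleO_nhds_zero]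
  refine Asymptotics.IsBigO.trans_isLittleO
    (g := fun v : R4 => ‖v‖ ^ 2) ?_ (Asymptotics.isLittleO_norm_pow_id one_lt_two)
  refine Asymptotics.IsBigO.of_bound (B * C) (Eventually.of_forall fun v => ?_)
  set f : R4 → ℝ := fun z => φ (y + v - z) - φ (y - z) - ∑ a, v a * pd φ a (y - z) with hf
  have hs : ContDiff ℝ ∞ fun z => ∑ a, v a * pd φ a (y - z) :=
    ContDiff.sum fun a _ => contDiff_const.mul (hsub y (contDiff_pd hφ a))
  have hfs : ContDiff ℝ ∞ f := ((hsub (y + v) hφ).sub (hsub y hφ)).sub hs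
  have e : convL L φ (y + v) =
      L f + convL L φ y + ∑ a, v a * convL L (pd φ a) y := by
    unfold convL
    rw [← hL.sum Finset.univ (fun a => v a) (fun a z => pd φ a (y - z))
      fun a => hsub y (contDiff_pd hφ a), ← hL.add _ _ hfs (hsub y hφ),
      ← hL.add _ _ (hfs.add (hsub y hφ)) hs]
    refine congrArg L (funext fun z => ?_)
    simp only [hf]
    ring
  have e2 : convL L φ (y + v) - convL L φ y -
      (∑ a, convL L (pd φ a) y • (EuclideanSpace.proj a : R4 →L[ℝ] ℝ)) v = L f := by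
    rw [e]
    simp only [sum_apply, smul_apply, PiLp.proj_apply, smul_eq_mul, mul_comm]
    ring
  rw [e2, Real.norm_eq_abs, Real.norm_eq_abs, abs_of_nonneg (sq_nonneg ‖v‖), mul_assoc]
  refine hB f _ hfs fun z => ?_
  rw [hf]
  beta_reduce
  rw [← fderiv_eq_pd, show y + v - z = y - z + v by abel]
  exact hC _ _

/-- Smoothness of the pairing. -/
lemma contDiff_convL {L : (R4 → ℝ) → ℝ} (hL : SupBdd L) {φ : R4 → ℝ} (hφ : ContDiff ℝ ∞ φ)
    (hc : HasCompactSupport φ) : ContDiff ℝ ∞ (convL L φ) := by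
  rw [contDiff_infty]
  intro n
  induction n generalizing φ with
  | zero =>
    rw [Nat.cast_zero, contDiff_zero]
    exact continuous_iff_continuousAt.2 fun y => (hasFDerivAt_convL hL hφ hc y).continuousAt
  | succ n ih =>
    rw [Nat.cast_succ, contDiff_succ_iff_fderiv]
    refine ⟨fun y => (hasFDerivAt_convL hL hφ hc y).differentiableAt, by simp, ?_⟩
    rw [show fderiv ℝ (convL L φ) = fun y =>
      ∑ a, convL L (pd φ a) y • (EuclideanSpace.proj a : R4 →L[ℝ] ℝ) from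
      funext fun y => (hasFDerivAt_convL hL hφ hc y).fderiv]
    exact ContDiff.sum fun a _ => (ih (contDiff_pd hφ a) (hcs_pd hc a)).smul contDiff_const

end Vale.Agent.P204.Full.Split
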