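import Vale.Agent.P204.Full.Split.Chart

/-!
# P204 Split: the quadratic potentials of different charts are comparable
-/

open scoped Manifold ContDiff Topology
open MeasureTheory Set Filter Vale.Agent.P204.Full.Potential

noncomputable section

namespace Vale.Agent.P204.Full.Split

universe u

variable {X : Type u} [TopologicalSpace X] [T2Space X] [CompactSpace X] [ChartedSpace R4 X]
  [IsManifold 𝓘(ℝ, R4) ∞ X] [MeasurableSpace X] [BorelSpace X] {G : Geo X}

lemma continuous_cut_ker {d : ℝ} (hd : 0 < d) (y : R4) :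
    Continuous fun z => cutB z * Potential.ker 2 d (y - z) :=
  cutB.continuous.mul ((continuous_ker hd 2).comp (continuous_const.sub continuous_id))

lemma in3_cut_ker (d : ℝ) (y : R4) : In3 fun z => cutB z * Potential.ker 2 d (y - z) :=
  fun z hz => by simp [cut_in3 z hz]

omit [CompactSpace X] in
lemma potU_eq (D : Pair G) (i : Fin G.n) {d : ℝ} (hd : 0 < d) (y : R4) :
    potU D i d y = ∫ p, push0 G i (fun z => cutB z * Potential.ker 2 d (y - z)) p ∂D.mu :=
  integral_nuC i D.mu ((continuous_ker hd 2).comp (continuous_const.sub continuous_id))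

/-- Two charts see comparable potentials. -/
theorem potU_compare : ∃ C : ℝ, 1 ≤ C ∧ ∀ (D : Pair G) (i j : Fin G.n) (d : ℝ) (x : X), 0 < d →
    x ∈ (G.c i).source → ‖G.c i x‖ ≤ 5 / 2 → x ∈ (G.c j).source → ‖G.c j x‖ ≤ 5 / 2 →
      potU D i d (G.c i x) ≤ C * (potU D j d (G.c j x) + D.mu.real univ) := by
  obtain ⟨L, r0, hL, hr0, hstep⟩ := Base.coord_step G
  set r1 := min r0 (3 / 8 / L) with hr1
  have hr1p : 0 < r1 := lt_min hr0 (by positivity)
  refine ⟨L ^ 2 + (r1 ^ 2)⁻¹, le_add_of_le_of_nonneg (one_le_pow₀ hL) (by positivity),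
    fun D i j d x hd hxi hxin hxj hxjn => ?_⟩
  have := D.finite_mu
  set C := L ^ 2 + (r1 ^ 2)⁻¹ with hC
  have hC0 : 0 ≤ C := by positivity
  have hint : ∀ (k : Fin G.n), Integrable
      (fun p => push0 G k (fun z => cutB z * Potential.ker 2 d (G.c k x - z)) p) D.mu := fun k =>
    Point.integrable_of_cont G D.toPosCur
      (continuous_push0 G k (continuous_cut_ker hd _) (in3_cut_ker d _))
  rw [potU_eq D i hd, potU_eq D j hd,
    show C * ((∫ p, push0 G j (fun z => cutB z * Potential.ker 2 d (G.c j x - z)) p ∂D.mu) +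
      D.mu.real univ) = ∫ p, C * (push0 G j (fun z => cutB z * Potential.ker 2 d (G.c j x - z)) p + 1)
        ∂D.mu by
      rw [integral_const_mul, integral_add (hint j) (integrable_const 1), integral_const,
        smul_eq_mul, mul_one]]
  refine integral_mono (hint i) (((hint j).add (integrable_const 1)).const_mul C) fun z => ?_
  have hj0 : 0 ≤ push0 G j (fun w => cutB w * Potential.ker 2 d (G.c j x - w)) z :=
    push0_nonneg G j (fun w => mul_nonneg cutB.nonneg (ker_nonneg hd 2 _)) z
  set P := push0 G j (fun w => cutB w * Potential.ker 2 d (G.c j x - w)) z with hP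
  by_cases hz : push0 G i (fun w => cutB w * Potential.ker 2 d (G.c i x - w)) z = 0
  · show push0 G i _ z ≤ C * (P + 1)
    rw [hz]
    positivity
  obtain ⟨hzi, hzn⟩ := (Base.mem_K G (by norm_num)).1 (push0_ne G i (in3_cut_ker d _) hz)
  show push0 G i _ z ≤ C * (P + 1)
  rw [push0_pos G i _ hzi]
  set r := ‖G.c i z - G.c i x‖ with hr
  have hr0' : 0 ≤ r := norm_nonneg _
  have hker : cutB (G.c i z) * Potential.ker 2 d (G.c i x - G.c i z) ≤ ((r + d) ^ 2)⁻¹ := by
    refine (mul_le_of_le_one_left (ker_nonneg hd 2 _) cutB.le_one).trans_eq ?_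
    rw [Potential.ker, norm_sub_rev]
  refine hker.trans ?_
  rcases le_or_gt r r1 with hle | hgt
  · obtain ⟨hzj, hzjn⟩ := hstep i j x z r (hle.trans (min_le_left _ _)) hxi (hxin.trans (by norm_num))
      hxj (hxjn.trans (by norm_num)) hzi le_rfl
    have hLr : L * r ≤ 3 / 8 := by
      have h := mul_le_mul_of_nonneg_left (hle.trans (min_le_right _ _)) (by linarith : (0 : ℝ) ≤ L)
      rwa [mul_div_cancel₀ _ (by linarith : L ≠ 0)] at h
    have h23 : ‖G.c j z‖ ≤ 23 / 8 := by
      linarith [norm_sub_norm_le (G.c j z) (G.c j x)]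
    have hP' : ((L * (r + d)) ^ 2)⁻¹ ≤ P := by
      rw [hP, push0_pos G j _ hzj, cut_one h23, one_mul, Potential.ker, norm_sub_rev]
      gcongr
      nlinarith
    calc ((r + d) ^ 2)⁻¹ = L ^ 2 * ((L * (r + d)) ^ 2)⁻¹ := by
          rw [mul_pow, mul_inv, ← mul_assoc, mul_inv_cancel₀ (by positivity), one_mul]
      _ ≤ L ^ 2 * P := by gcongr
      _ ≤ C * (P + 1) := mul_le_mul (by rw [hC]; exact le_add_of_nonneg_right (by positivity))
          (by linarith) hj0 hC0
  · calc ((r + d) ^ 2)⁻¹ ≤ (r1 ^ 2)⁻¹ := by gcongr; linarith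
      _ ≤ C * 1 := by rw [hC, mul_one]; exact le_add_of_nonneg_left (by positivity)
      _ ≤ C * (P + 1) := by gcongr; linarith

end Vale.Agent.P204.Full.Split
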