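import Vale.Agent.P204.Full.Split.Cutoff
import Vale.Agent.P204.Full.Split.Compare
import Vale.Agent.P204.Full.Final.Norm
import Vale.Agent.P204.Full.Base.Main

/-!
# P204 Split: the transition band of the global cut-off
-/

open scoped Manifold ContDiff Topology
open MeasureTheory Set Filter Vale.Agent.P204.Full.Potential

noncomputable section

namespace Vale.Agent.P204.Full.Split

universe u

variable {X : Type u} [TopologicalSpace X] [ChartedSpace R4 X] [IsManifold 𝓘(ℝ, R4) ∞ X]
  [MeasurableSpace X] {G : Geo X} {D : Pair G} {h : X → ℝ} {C d : ℝ}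

/-- The part of the transition band seen in one chart. -/
def bandI (D : Pair G) (i : Fin G.n) (d K k : ℝ) : Set X :=
  Base.K G i (5 / 2) ∩ {x | k ≤ K * potU D i d (G.c i x) ∧ potU D i d (G.c i x) ≤ K * k}

/-- The transition band. -/
def band (D : Pair G) (d K k : ℝ) : Set X := ⋃ i, bandI D i d K k

/-- The global cut-off. -/
def cutW (Q : ∀ i, Loc D h i C d) (k : ℝ) (x : X) : ℝ := ∑ i, push0 G i ((Q i).rw' k) x

variable [T2Space X] [CompactSpace X] [BorelSpace X]

/-- The hypotheses on the width of the band. -/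
structure Wide (D : Pair G) (C Cc K k : ℝ) : Prop where
  wide : C * (C + 3) ≤ K
  comp : Cc * (1 + D.mu.real univ) ≤ K
  large : K ≤ k

lemma measurableSet_band (D : Pair G) {d : ℝ} (hd : 0 < d) (K k : ℝ) :
    MeasurableSet (band D d K k) := by
  refine MeasurableSet.iUnion fun i => ?_
  have := D.finite_mu
  have := isFinite_nuC (G := G) i D.mu
  have hU : Continuous (potU D i d) := continuous_potM hd 2 _
  have hc : ContinuousOn (fun x => potU D i d (G.c i x)) (Base.K G i (5 / 2)) :=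
    hU.comp_continuousOn ((G.c i).continuousOn.mono fun x hx =>
      ((Base.mem_K G (by norm_num)).1 hx).1)
  refine IsClosed.measurableSet ?_
  have h1 := hc.preimage_isClosed_of_isClosed (Base.isClosed_K G i (by norm_num))
    ((isClosed_Ici (a := k)).preimage (continuous_const_mul K) |>.inter (isClosed_Iic (a := K * k)))
  exact h1

omit [T2Space X] [CompactSpace X] [BorelSpace X] in
lemma loc_regime {i : Fin G.n} (Q : Loc D h i C d) {Cc K k : ℝ} (hw : Wide D C Cc K k)
    {y : R4} (hy : ‖y‖ ≤ 5 / 2) :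
    (K * potU D i d y < k → Q.tt k y ≤ 1 / 2) ∧ (K * k < potU D i d y → 3 ≤ Q.tt k y) := by
  have hC := Q.one_le
  have := D.finite_mu
  have hU : 0 ≤ potU D i d y := potM_nonneg Q.d_pos 2 _ y
  have hK4 : 4 * C ≤ K := le_trans (by nlinarith) hw.wide
  have hK : 0 < K := by linarith
  have hk : 0 < k := lt_of_lt_of_le hK hw.large
  constructor
  · intro hlow
    rw [Loc.tt, ← neg_div, div_le_iff₀ hk]
    have h1 := Q.lower y hy
    have h2 : 4 * C * potU D i d y ≤ k :=
      (mul_le_mul_of_nonneg_right hK4 hU).trans hlow.le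
    linarith [hw.large]
  · intro hhigh
    rw [Loc.tt, ← neg_div, le_div_iff₀ hk]
    have h1 := Q.upper y hy
    have h2 : C * (C + 3) * k ≤ potU D i d y :=
      (mul_le_mul_of_nonneg_right hw.wide hk.le).trans hhigh.le
    have h3 : (C + 3) * k ≤ C⁻¹ * potU D i d y := by
      rw [le_inv_mul_iff₀ (by linarith)]
      linarith
    have h4 : C ≤ C * k := le_mul_of_one_le_right (by linarith) (by linarith [hw.large])
    linarith

omit [CompactSpace X] [BorelSpace X] in
lemma cutW_smooth (Q : ∀ i, Loc D h i C d) (k : ℝ) :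
    ContMDiff 𝓘(ℝ, R4) 𝓘(ℝ, ℝ) ∞ (cutW Q k) :=
  contMDiff_finsetSum fun i _ => smooth_push0 G i ((Q i).rw'_cd k) fun y hy => by
    simp [Loc.rw', rc_in3 i y hy]

omit [T2Space X] [CompactSpace X] [BorelSpace X] in
lemma push0_rw' {i : Fin G.n} (Q : Loc D h i C d) (k : ℝ) (x : X) :
    push0 G i (Q.rw' k) x = G.rho i x * step (Q.tt k (G.c i x)) := by
  rw [← push0_rc i x]
  by_cases hx : x ∈ (G.c i).source
  · rw [push0_pos G i _ hx, push0_pos G i _ hx, Loc.rw']
  · rw [push0_neg G i _ hx, push0_neg G i _ hx, zero_mul]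

omit [T2Space X] [CompactSpace X] [BorelSpace X] in
lemma cutW_mem (Q : ∀ i, Loc D h i C d) (k : ℝ) (x : X) : 0 ≤ cutW Q k x ∧ cutW Q k x ≤ 1 := by
  simp only [cutW, push0_rw']
  refine ⟨Finset.sum_nonneg fun i _ => mul_nonneg (Base.rho_nonneg G i x) (step_mem _).1, ?_⟩
  rw [← Base.rho_sum G x]
  exact Finset.sum_le_sum fun i _ => mul_le_of_le_one_right (Base.rho_nonneg G i x) (step_mem _).2

omit [T2Space X] [CompactSpace X] [BorelSpace X] in
lemma cutW_const (Q : ∀ i, Loc D h i C d) (k : ℝ) (x : X) {c : ℝ}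
    (hc : ∀ i, x ∈ (G.c i).source → ‖G.c i x‖ ≤ 2 → step ((Q i).tt k (G.c i x)) = c) :
    cutW Q k x = c := by
  simp only [cutW, push0_rw']
  calc ∑ i, G.rho i x * step ((Q i).tt k (G.c i x)) = ∑ i, G.rho i x * c := by
        refine Finset.sum_congr rfl fun i _ => ?_
        rcases eq_or_ne (G.rho i x) 0 with hr | hr
        · rw [hr, zero_mul, zero_mul]
        · rw [hc i (Base.rho_supp G i x hr).1 (Base.rho_supp G i x hr).2.le]
    _ = c := by rw [← Finset.sum_mul, Base.rho_sum, one_mul]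

omit [T2Space X] [CompactSpace X] [BorelSpace X] in
/-- Where the potentials are large the cut-off is one. -/
lemma cutW_one (Q : ∀ i, Loc D h i C d) {Cc K k : ℝ} (hw : Wide D C Cc K k) {x : X}
    (hx : ∀ i, x ∈ (G.c i).source → ‖G.c i x‖ ≤ 2 → K * k < potU D i d (G.c i x)) :
    cutW Q k x = 1 :=
  cutW_const Q k x fun i hi hn =>
    step_one (by linarith [(loc_regime (Q i) hw (hn.trans (by norm_num))).2 (hx i hi hn)])

omit [T2Space X] [CompactSpace X] [BorelSpace X] in
/-- Off the band all the cut-offs agree. -/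
lemma band_agree (Q : ∀ i, Loc D h i C d) {Cc K k : ℝ} (hw : Wide D C Cc K k) (hd : 0 < d)
    (hCc : ∀ (i j : Fin G.n) (x : X), x ∈ (G.c i).source → ‖G.c i x‖ ≤ 5 / 2 →
      x ∈ (G.c j).source → ‖G.c j x‖ ≤ 5 / 2 →
      potU D i d (G.c i x) ≤ Cc * (potU D j d (G.c j x) + D.mu.real univ))
    (hCc1 : 1 ≤ Cc) (hC : 1 ≤ C) {x : X} (hx : x ∉ band D d K k) :
    ∃ c : ℝ, ∀ i, x ∈ (G.c i).source → ‖G.c i x‖ ≤ 5 / 2 →
      step ((Q i).tt k (G.c i x)) = c ∧ mid ((Q i).tt k (G.c i x)) = 0 := by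
  have := D.finite_mu
  have hK : 0 < K := lt_of_lt_of_le (by nlinarith) hw.wide
  have hcases : ∀ i, x ∈ (G.c i).source → ‖G.c i x‖ ≤ 5 / 2 →
      K * potU D i d (G.c i x) < k ∨ K * k < potU D i d (G.c i x) := by
    intro i hi hn
    rcases lt_or_ge (K * potU D i d (G.c i x)) k with h' | h'
    · exact Or.inl h'
    · exact Or.inr (not_le.1 fun h'' => hx (mem_iUnion.2
        ⟨i, (Base.mem_K G (by norm_num)).2 ⟨hi, hn⟩, h', h''⟩))
  by_cases hex : ∃ j, x ∈ (G.c j).source ∧ ‖G.c j x‖ ≤ 5 / 2 ∧ K * k < potU D j d (G.c j x)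
  · obtain ⟨j, hj, hjn, hhigh⟩ := hex
    refine ⟨1, fun i hi hn => ?_⟩
    rcases hcases i hi hn with h' | h'
    · exfalso
      have h1 := hCc j i x hj hjn hi hn
      have hU : 0 ≤ potU D i d (G.c i x) := potM_nonneg hd 2 _ _
      have hμ : 0 ≤ D.mu.real univ := measureReal_nonneg
      have hK1 : 1 ≤ K := le_trans (by nlinarith) hw.wide
      have hk1 : 1 ≤ k := hK1.trans hw.large
      have h2 : potU D i d (G.c i x) ≤ k := le_trans (le_mul_of_one_le_left hU hK1) h'.le
      have h3 : Cc * (potU D i d (G.c i x) + D.mu.real univ) ≤ Cc * ((1 + D.mu.real univ) * k) :=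
        mul_le_mul_of_nonneg_left (by nlinarith) (by linarith)
      have h4 : Cc * ((1 + D.mu.real univ) * k) ≤ K * k := by
        rw [← mul_assoc]
        exact mul_le_mul_of_nonneg_right hw.comp (by linarith)
      linarith
    · have ht := (loc_regime (Q i) hw hn).2 h'
      exact ⟨step_one (by linarith), mid_zero (Or.inr ht)⟩
  · refine ⟨0, fun i hi hn => ?_⟩
    rcases hcases i hi hn with h' | h'
    · have ht := (loc_regime (Q i) hw hn).1 h'
      exact ⟨step_zero (by linarith), mid_zero (Or.inl ht)⟩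
    · exact absurd ⟨i, hi, hn, h'⟩ hex

end Vale.Agent.P204.Full.Split
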