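import Vale.Agent.P204.Full.Split.Moll
import Mathlib.MeasureTheory.Integral.DominatedConvergence
import Mathlib.MeasureTheory.Measure.Prod
import Mathlib.Analysis.SpecialFunctions.Exp

/-!
# P204 Split: elementary estimates on the potentials
-/

open scoped ContDiff Topology
open MeasureTheory Filter Vale.Agent.P204.Full.Potential

noncomputable section

namespace Vale.Agent.P204.Full.Split

variable {d : ℝ}

lemma ker_nonneg (hd : 0 < d) (a : ℕ) (z : R4) : 0 ≤ Potential.ker a d z := by
  unfold Potential.ker; positivity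

lemma ker_le (hd : 0 < d) (a : ℕ) (z : R4) : Potential.ker a d z ≤ (d ^ a)⁻¹ := by
  unfold Potential.ker; gcongr; simp

lemma continuous_ker (hd : 0 < d) (a : ℕ) : Continuous (Potential.ker a d) := by
  unfold Potential.ker
  refine ((continuous_norm.add continuous_const).pow a).inv₀ fun z => ?_
  exact pow_ne_zero _ (add_pos_of_nonneg_of_pos (norm_nonneg z) hd).ne'

lemma potM_nonneg (hd : 0 < d) (a : ℕ) (ν : Measure R4) (x : R4) : 0 ≤ potM a d ν x :=
  integral_nonneg fun _ => ker_nonneg hd a _

lemma potF_nonneg (hd : 0 < d) (a : ℕ) {h : R4 → ℝ} (h0 : ∀ z, 0 ≤ h z) (x : R4) :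
    0 ≤ potF a d h x :=
  integral_nonneg fun z => mul_nonneg (ker_nonneg hd a _) (h0 z)

lemma integrable_ker (hd : 0 < d) (a : ℕ) (ν : Measure R4) [IsFiniteMeasure ν] (x : R4) :
    Integrable (fun z => Potential.ker a d (x - z)) ν :=
  Integrable.of_bound ((continuous_ker hd a).comp (continuous_const.sub continuous_id)).aestronglyMeasurable
    (d ^ a)⁻¹ (Eventually.of_forall fun z => by
      rw [Real.norm_eq_abs, abs_of_nonneg (ker_nonneg hd a _)]; exact ker_le hd a _)

lemma integrable_ker_mul (hd : 0 < d) (a : ℕ) {h : R4 → ℝ} (hi : Integrable h) (x : R4) :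
    Integrable fun z => Potential.ker a d (x - z) * h z :=
  hi.bdd_mul (c := (d ^ a)⁻¹)
    ((continuous_ker hd a).comp (continuous_const.sub continuous_id)).aestronglyMeasurable
    (Eventually.of_forall fun z => by
      rw [Real.norm_eq_abs, abs_of_nonneg (ker_nonneg hd a _)]; exact ker_le hd a _)

lemma continuous_potM (hd : 0 < d) (a : ℕ) (ν : Measure R4) [IsFiniteMeasure ν] :
    Continuous (potM a d ν) := by
  refine continuous_of_dominated (bound := fun _ => (d ^ a)⁻¹)
    (fun x => (integrable_ker hd a ν x).aestronglyMeasurable)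
    (fun x => Eventually.of_forall fun z => ?_) (integrable_const _)
    (Eventually.of_forall fun z => (continuous_ker hd a).comp (continuous_id.sub continuous_const))
  rw [Real.norm_eq_abs, abs_of_nonneg (ker_nonneg hd a _)]
  exact ker_le hd a _

lemma continuous_potF (hd : 0 < d) (a : ℕ) {h : R4 → ℝ} (hi : Integrable h) :
    Continuous (potF a d h) := by
  refine continuous_of_dominated (bound := fun z => (d ^ a)⁻¹ * ‖h z‖)
    (fun x => (integrable_ker_mul hd a hi x).aestronglyMeasurable)
    (fun x => Eventually.of_forall fun z => ?_) (hi.norm.const_mul _)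
    (Eventually.of_forall fun z =>
      ((continuous_ker hd a).comp (continuous_id.sub continuous_const)).mul continuous_const)
  rw [norm_mul, Real.norm_eq_abs, abs_of_nonneg (ker_nonneg hd a _)]
  exact mul_le_mul_of_nonneg_right (ker_le hd a _) (norm_nonneg _)

lemma moll_le (hd : 0 < d) : ∃ B : ℝ, ∀ z, ‖moll d z‖ ≤ B :=
  (moll_smooth d).continuous.bounded_above_of_compact_support (moll_hcs hd)

lemma integrable_moll_mul (hd : 0 < d) {h : R4 → ℝ} (hi : Integrable h) (x : R4) :
    Integrable fun z => h z * moll d (x - z) := by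
  obtain ⟨B, hB⟩ := moll_le hd
  exact hi.mul_bdd ((moll_smooth d).continuous.comp (continuous_const.sub continuous_id)).aestronglyMeasurable
    (Eventually.of_forall fun z => hB _)

lemma continuous_moll_mul (hd : 0 < d) {h : R4 → ℝ} (hi : Integrable h) :
    Continuous fun x => ∫ z, h z * moll d (x - z) := by
  obtain ⟨B, hB⟩ := moll_le hd
  refine continuous_of_dominated (bound := fun z => ‖h z‖ * B)
    (fun x => (integrable_moll_mul hd hi x).aestronglyMeasurable)
    (fun x => Eventually.of_forall fun z => ?_) (hi.norm.mul_const B)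
    (Eventually.of_forall fun z =>
      continuous_const.mul ((moll_smooth d).continuous.comp (continuous_id.sub continuous_const)))
  rw [norm_mul]
  exact mul_le_mul_of_nonneg_left (hB _) (norm_nonneg _)

/-- Smoothings are dominated by the potentials. -/
lemma smoothing_le : ∃ C : ℝ, 0 ≤ C ∧ ∀ d : ℝ, 0 < d → ∀ (ν : Measure R4), IsFiniteMeasure ν →
    ∀ (h : R4 → ℝ), Integrable h → (∀ z, 0 ≤ h z) → ∀ x,
      d ^ 2 * (∫ z, moll d (x - z) ∂ν) ≤ C * potM 2 d ν x ∧
      d * (∫ z, moll d (x - z) ∂ν) ≤ C * potM 3 d ν x ∧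
      d * (∫ z, h z * moll d (x - z)) ≤ C * potF 3 d h x := by
  obtain ⟨C, hC0, hC⟩ := moll_le_ker
  refine ⟨C, hC0, fun d hd ν hν h hi h0 x => ⟨?_, ?_, ?_⟩⟩
  · rw [potM, ← integral_const_mul, ← integral_const_mul]
    refine integral_mono_of_nonneg (Eventually.of_forall fun z => ?_)
      ((integrable_ker hd 2 ν x).const_mul C) (Eventually.of_forall fun z => (hC d hd _).1)
    exact mul_nonneg (sq_nonneg d) (moll_nonneg _ _)
  · rw [potM, ← integral_const_mul, ← integral_const_mul]
    refine integral_mono_of_nonneg (Eventually.of_forall fun z => ?_)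
      ((integrable_ker hd 3 ν x).const_mul C) (Eventually.of_forall fun z => (hC d hd _).2)
    exact mul_nonneg hd.le (moll_nonneg _ _)
  · rw [potF, ← integral_const_mul, ← integral_const_mul]
    refine integral_mono_of_nonneg (Eventually.of_forall fun z => ?_)
      ((integrable_ker_mul hd 3 hi x).const_mul C) (Eventually.of_forall fun z => ?_)
    · exact mul_nonneg hd.le (mul_nonneg (h0 z) (moll_nonneg _ _))
    · show d * (h z * moll d (x - z)) ≤ C * (Potential.ker 3 d (x - z) * h z)
      calc d * (h z * moll d (x - z)) = d * moll d (x - z) * h z := by ring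
        _ ≤ C * Potential.ker 3 d (x - z) * h z := mul_le_mul_of_nonneg_right (hC d hd _).2 (h0 z)
        _ = _ := mul_assoc _ _ _

/-- Smoothing is a contraction in `L²`. -/
lemma self_smoothing_le {M : ℝ} (S : Source M) (hd : 0 < d) :
    Integrable (fun y => S.h y * ∫ z, S.h z * moll d (y - z)) ∧
      ∫ y, S.h y * (∫ z, S.h z * moll d (y - z)) ≤ M := by
  have hi : Integrable S.h := by
    rw [← integrableOn_iff_integrable_of_support_subset (s := Metric.closedBall (0 : R4) (7 / 2))
      (fun y hy => by
        by_contra hn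
        exact hy (S.h_supp y (not_le.1 fun h' => hn (mem_closedBall_zero_iff.2 h'))))]
    have : IsFiniteMeasure (volume.restrict (Metric.closedBall (0 : R4) (7 / 2))) :=
      ⟨by rw [Measure.restrict_apply_univ]; exact measure_closedBall_lt_top⟩
    exact (S.h_sq.restrict _).integrable one_le_two
  obtain ⟨B, hB⟩ := moll_le hd
  have hm : Measurable fun p : R4 × R4 => moll d (p.1 - p.2) :=
    ((moll_smooth d).continuous.comp (continuous_fst.sub continuous_snd)).measurable
  have hF : Integrable (fun p : R4 × R4 => S.h p.1 * S.h p.2 * moll d (p.1 - p.2))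
      (volume.prod volume) :=
    (hi.mul_prod hi).mul_bdd hm.aestronglyMeasurable (Eventually.of_forall fun p => hB _)
  have hT : ∀ x : R4, ∫ z, moll d (x - z) = 1 := fun x => by
    rw [integral_sub_left_eq_self (moll d) volume x, moll_integral hd]
  have hT' : ∀ x : R4, ∫ z, moll d (z - x) = 1 := fun x => by
    rw [integral_sub_right_eq_self (moll d) x, moll_integral hd]
  have e : ∀ y, ∫ z, S.h y * S.h z * moll d (y - z) = S.h y * ∫ z, S.h z * moll d (y - z) :=
    fun y => by simp only [mul_assoc]; exact integral_const_mul _ _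
  have h1 : Integrable fun y => S.h y * ∫ z, S.h z * moll d (y - z) :=
    hF.integral_prod_left.congr (Eventually.of_forall e)
  have hsq := S.h_sq.integrable_sq
  have hP : Integrable (fun p : R4 × R4 => S.h p.2 ^ 2 * moll d (p.1 - p.2))
      (volume.prod volume) := by
    have hms : AEStronglyMeasurable (fun p : R4 × R4 => S.h p.2 ^ 2 * moll d (p.1 - p.2))
        (volume.prod volume) :=
      (((S.h_meas.comp measurable_snd).pow_const 2).mul hm).aestronglyMeasurable
    refine (integrable_prod_iff' hms).2 ⟨?_, ?_⟩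
    · refine Eventually.of_forall fun z => ?_
      exact (((moll_smooth d).continuous.integrable_of_hasCompactSupport
        (moll_hcs hd)).comp_sub_right z).const_mul (S.h z ^ 2)
    · refine hsq.congr (Eventually.of_forall fun z => ?_)
      simp only [norm_mul, Real.norm_eq_abs, abs_of_nonneg (sq_nonneg (S.h z)),
        abs_of_nonneg (moll_nonneg d _)]
      rw [integral_const_mul, hT' z, mul_one]
  have hq : Integrable fun y => ∫ z, S.h z ^ 2 * moll d (y - z) := hP.integral_prod_left
  refine ⟨h1, ?_⟩
  have hle : ∀ y, S.h y * (∫ z, S.h z * moll d (y - z)) ≤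
      2⁻¹ * S.h y ^ 2 + 2⁻¹ * ∫ z, S.h z ^ 2 * moll d (y - z) := fun y => by
    have hmi : Integrable fun z => moll d (y - z) :=
      (integrable_comp_sub_left (f := moll d) y).2
        ((moll_smooth d).continuous.integrable_of_hasCompactSupport (moll_hcs hd))
    have hsqi : Integrable fun z => S.h z ^ 2 * moll d (y - z) := integrable_moll_mul hd hsq y
    calc S.h y * (∫ z, S.h z * moll d (y - z))
        = ∫ z, S.h y * (S.h z * moll d (y - z)) := (integral_const_mul _ _).symm
      _ ≤ ∫ z, (2⁻¹ * S.h y ^ 2 * moll d (y - z) + 2⁻¹ * (S.h z ^ 2 * moll d (y - z))) := by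
          refine integral_mono ((integrable_moll_mul hd hi y).const_mul _)
            ((hmi.const_mul _).add (hsqi.const_mul _)) fun z => ?_
          show S.h y * (S.h z * moll d (y - z)) ≤ _
          nlinarith [mul_nonneg (sq_nonneg (S.h y - S.h z)) (moll_nonneg d (y - z))]
      _ = _ := by
          rw [integral_add (hmi.const_mul _) (hsqi.const_mul _), integral_const_mul,
            integral_const_mul, hT y, mul_one]
  have hsum : ∫ y, ∫ z, S.h z ^ 2 * moll d (y - z) = ∫ z, S.h z ^ 2 := by
    rw [integral_integral_swap]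
    · exact integral_congr_ae (Eventually.of_forall fun z => by
        show ∫ y, S.h z ^ 2 * moll d (y - z) = _
        rw [integral_const_mul, hT' z, mul_one])
    · exact hP
  refine (integral_mono h1 ((hsq.const_mul _).add (hq.const_mul _)) hle).trans ?_
  simp only [Pi.add_apply]
  rw [integral_add (hsq.const_mul _) (hq.const_mul _), integral_const_mul, integral_const_mul,
    hsum]
  linarith [S.h_norm]

/-- The exponential weight absorbs powers of the potential. -/
lemma exp_bound {c : ℝ} (hc : 0 < c) (C0 : ℝ) : ∃ C : ℝ, 1 ≤ C ∧ ∀ k U u : ℝ, 1 ≤ k → 0 ≤ U →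
    u ≤ C0 - c * U → Real.exp (u / k) ≤ C ∧ Real.exp (u / k) * U ≤ C * k ∧
      Real.exp (u / k) * U ^ 2 ≤ C * k ^ 2 := by
  set E := Real.exp |C0| with hE
  have hE1 : 1 ≤ E := Real.one_le_exp (abs_nonneg _)
  refine ⟨E * (1 + 2 / c ^ 2 + 1 / c), ?_, fun k U u hk hU hu => ?_⟩
  · nlinarith [show 0 ≤ 2 / c ^ 2 + 1 / c by positivity]
  have hk0 : 0 < k := by linarith
  have he : Real.exp (u / k) ≤ E / Real.exp (c * U / k) := by
    rw [hE, ← Real.exp_sub]
    refine Real.exp_le_exp.2 ?_
    have h1 : u / k ≤ (C0 - c * U) / k := div_le_div_of_nonneg_right hu hk0.le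
    have h2 : C0 / k ≤ |C0| := by
      refine (div_le_div_of_nonneg_right (le_abs_self C0) hk0.le).trans ?_
      exact div_le_self (abs_nonneg _) hk
    rw [sub_div] at h1
    linarith
  have hq := Real.quadratic_le_exp_of_nonneg (show 0 ≤ c * U / k by positivity)
  set X := c * U / k with hX
  have hX0 : 0 ≤ X := by positivity
  have hpos := Real.exp_pos X
  have k0 : 1 / Real.exp X ≤ 1 := (div_le_one hpos).2 (Real.one_le_exp hX0)
  have k1 : X / Real.exp X ≤ 1 := (div_le_one hpos).2 (by nlinarith)
  have k2 : X ^ 2 / Real.exp X ≤ 2 := (div_le_iff₀ hpos).2 (by nlinarith)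
  refine ⟨?_, ?_, ?_⟩
  · calc Real.exp (u / k) ≤ E * (1 / Real.exp X) := by rw [mul_one_div]; exact he
      _ ≤ E * 1 := by gcongr
      _ ≤ _ := mul_le_mul_of_nonneg_left (by linarith [show 0 ≤ 2 / c ^ 2 + 1 / c by positivity])
          (by positivity)
  · calc Real.exp (u / k) * U ≤ E / Real.exp X * U := mul_le_mul_of_nonneg_right he hU
      _ = E * (1 / c) * k * (X / Real.exp X) := by rw [hX]; field_simp
      _ ≤ E * (1 / c) * k * 1 := by gcongr
      _ ≤ _ := by
          rw [mul_one]
          gcongr
          linarith [show 0 ≤ 2 / c ^ 2 by positivity]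
  · calc Real.exp (u / k) * U ^ 2 ≤ E / Real.exp X * U ^ 2 :=
          mul_le_mul_of_nonneg_right he (sq_nonneg U)
      _ = E * (1 / c ^ 2) * k ^ 2 * (X ^ 2 / Real.exp X) := by rw [hX]; field_simp
      _ ≤ E * (1 / c ^ 2) * k ^ 2 * 2 := by gcongr
      _ = E * (2 / c ^ 2) * k ^ 2 := by ring
      _ ≤ _ := by
          gcongr
          linarith [show 0 ≤ 1 / c by positivity]

end Vale.Agent.P204.Full.Split
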