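import Vale.Agent.P204.Full.Split.Positivity
import Vale.Agent.P204.Full.Split.Est

/-!
# P204 Split: what the potential theory gives in one chart at one scale
-/

open scoped Manifold ContDiff Topology
open MeasureTheory Set Filter Vale.Agent.P204.Full.Potential

noncomputable section

namespace Vale.Agent.P204.Full.Split

universe u

/-- The closed ball of radius `5/2` lies in the open ball of radius `21/8`. -/
lemma ball52 : Metric.closedBall (0 : R4) (5 / 2) ⊆ Metric.ball 0 (21 / 8) :=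
  Metric.closedBall_subset_ball (by norm_num)

variable {X : Type u} [TopologicalSpace X] [ChartedSpace R4 X] [IsManifold 𝓘(ℝ, R4) ∞ X]
  [MeasurableSpace X] {G : Geo X}

/-- The quadratic potential of a chart. -/
abbrev potU (D : Pair G) (i : Fin G.n) (d : ℝ) : R4 → ℝ := potM 2 d (nuC i D.mu)

/-- The cubic potential of a chart. -/
abbrev potT (D : Pair G) (i : Fin G.n) (d : ℝ) : R4 → ℝ := potM 3 d (nuC i D.mu)

/-- The potential of the partner. -/
abbrev potH (h : X → ℝ) (i : Fin G.n) (d : ℝ) : R4 → ℝ := potF 3 d (hloc i h)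

/-- The mollified density of the partner. -/
def smH (h : X → ℝ) (i : Fin G.n) (d : ℝ) (x : R4) : ℝ := ∫ z, hloc i h z * moll d (x - z)

/-- A potential and a primitive in the chart `i` at scale `d`, with their bounds. -/
structure Loc (D : Pair G) (h : X → ℝ) (i : Fin G.n) (C d : ℝ) where
  u : R4 → ℝ
  al : R4 → Cov
  u_smooth : ContDiffOn ℝ ∞ u (Metric.ball 0 (21 / 8))
  al_smooth : ContDiffOn ℝ ∞ al (Metric.ball 0 (21 / 8))
  one_le : 1 ≤ C
  d_pos : 0 < d
  d_le : d ≤ 1 / 16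
  conj : ∀ x, ‖x‖ ≤ 5 / 2 →
    ‖al x + (fderiv ℝ u x).comp (Jc G i x)‖ ≤ C * (1 + potU D i d x + potH h i d x)
  upper : ∀ x, ‖x‖ ≤ 5 / 2 → u x ≤ C - C⁻¹ * potU D i d x
  lower : ∀ x, ‖x‖ ≤ 5 / 2 → -(C * (1 + potU D i d x)) ≤ u x
  grad : ∀ x, ‖x‖ ≤ 5 / 2 → ‖fderiv ℝ u x‖ ≤ C * (1 + potT D i d x + potU D i d x)
  pos : ∀ x, ‖x‖ ≤ 5 / 2 → ∀ v,
    -(C * (1 + potU D i d x + potH h i d x) * ‖v‖ ^ 2) ≤ d1At al x v (Jc G i x v)
  anti : ∀ x, ‖x‖ ≤ 5 / 2 →
    ‖anti20 (Jc G i x) (d1At al x)‖ ≤ C * (1 + potT D i d x + smH h i d x)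
  int_mass : (nuC i D.mu).real univ ≤ C
  int_h : ∫ x, hloc i h x ^ 2 ≤ C
  int_hq : ∫ x, hloc i h x * smH h i d x ≤ C
  int_U : ∫ x in Metric.ball (0 : R4) 4, potU D i d x ≤ C
  int_U2 : ∫ x in Metric.ball (0 : R4) 4, potU D i d x ^ 2 ≤ C * logScale d
  int_T2 : ∫ x in Metric.ball (0 : R4) 4, potT D i d x ^ 2 ≤ C * logScale d
  int_H2ν : ∫ x, potH h i d x ^ 2 ∂nuC i D.mu ≤ C * logScale d
  int_H2 : ∫ x in Metric.ball (0 : R4) 4, potH h i d x ^ 2 ≤ C
  int_HT : ∫ x in Metric.ball (0 : R4) 4, (potH h i d x * potT D i d x) ^ 2 ≤ C * logScale d ^ 2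

variable [T2Space X] [CompactSpace X] [BorelSpace X]

/-- The potential theory in the charts. -/
theorem exists_loc (hK : KernelStatement) (hPot : PotentialStatement) {D : Pair G}
    (hD : DensBounded D) {h : X → ℝ} (hh : QData D h) :
    ∃ C : ℝ, 1 ≤ C ∧ ∀ (i : Fin G.n) (d : ℝ), 0 < d → d ≤ 1 / 16 →
      Nonempty (Loc D h i C d) := by
  obtain ⟨M, hM⟩ := exists_source hD hh
  obtain ⟨A, hA0, hA⟩ := exists_smoothed (G := G)
  obtain ⟨A4, hA40, hA4⟩ := fsm_pos (G := G)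
  obtain ⟨A3, hA30, hA3⟩ := fsm_anti (G := G)
  obtain ⟨Cs, hCs0, hCs⟩ := smoothing_le
  obtain ⟨CK, hCK⟩ := hK M
  obtain ⟨L, hL0, hL⟩ := coef_bounds (G := G)
  choose CP cP hcP hCP using fun i => hPot (coef G i) A M
  obtain ⟨N, hN⟩ := Finite.exists_le fun i => max |CP i| (cP i)⁻¹
  set N' := max N 0 with hN'
  have hN0 : 0 ≤ N' := le_max_right _ _
  set C : ℝ := 1 + |M| + |CK| + (1 + L) * N' + A4 * Cs + A3 * (Cs + 1) + (1 + L ^ 2) * N' with hC
  have p1 : 0 ≤ L * N' := by positivity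
  have p2 : 0 ≤ A4 * Cs := by positivity
  have p3 : 0 ≤ A3 * (Cs + 1) := by positivity
  have p4 : 0 ≤ (1 + L ^ 2) * N' := by positivity
  have p5 : 0 ≤ A3 * Cs := by positivity
  have p6 : 0 ≤ L ^ 2 * N' := by positivity
  obtain ⟨hC1, hNC, hKC, hMC, hA4C, hA3C1, hA3C2, hA3C3, hLC⟩ : 1 ≤ C ∧ N' ≤ C ∧ CK ≤ C ∧
      M ≤ C ∧ A4 * Cs ≤ C ∧ A3 * Cs ≤ C ∧ A3 ≤ C ∧ (1 + L ^ 2) * N' ≤ C ∧ N' * L ≤ C := by
    rw [hC]
    refine ⟨?_, ?_, ?_, ?_, ?_, ?_, ?_, ?_, ?_⟩ <;>
      linarith [abs_nonneg M, abs_nonneg CK, le_abs_self M, le_abs_self CK]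
  refine ⟨C, hC1, fun i d hd hd16 => ?_⟩
  obtain ⟨S, hν, hh'⟩ := hM i
  obtain ⟨u, al, hus, hals, hb⟩ := hCP i S d (fsm D i d) hd (hd16.trans (by norm_num))
    (hA D h hh i M S d hν hh' hd hd16)
  have hCPi : |CP i| ≤ N' ∧ (cP i)⁻¹ ≤ N' := max_le_iff.1 ((hN i).trans (le_max_left N 0))
  obtain ⟨k1, k2, k3, k4, k5, k6, k7⟩ := hCK S d hd (hd16.trans (by norm_num))
  have := D.finite_mu
  have hfin : IsFiniteMeasure (nuC i D.mu) := isFinite_nuC i D.mu
  have hi : Integrable (hloc i h) := integrable_hloc i hh.meas hh.memLp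
  have h0 := hloc_nonneg i hh.nonneg
  have hq0 : ∀ x, 0 ≤ smH h i d x := fun x =>
    integral_nonneg fun z => mul_nonneg (h0 z) (moll_nonneg _ _)
  have hlog : 1 ≤ logScale d := by
    have h1 : 0 ≤ Real.log (1 / d) := Real.log_nonneg (by
      rw [le_div_iff₀ hd]; linarith)
    unfold logScale
    linarith
  have hx3 : ∀ x : R4, ‖x‖ ≤ 5 / 2 → ‖x‖ ≤ 3 := fun x hx => by linarith
  have hmulC : ∀ {t : ℝ}, 0 ≤ t → CP i * t ≤ C * t := fun ht =>
    mul_le_mul_of_nonneg_right (((le_abs_self _).trans hCPi.1).trans hNC) ht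
  refine ⟨⟨u, al, hus, hals, hC1, hd, hd16, fun x hx => ?_, fun x hx => ?_, fun x hx => ?_,
    fun x hx => ?_, fun x hx v => ?_, fun x hx => ?_, ?_, ?_, ?_, ?_, ?_, ?_, ?_, ?_, ?_⟩⟩
  all_goals
    first
      | (have hU := potM_nonneg hd 2 (nuC i D.mu) x
         have hT := potM_nonneg hd 3 (nuC i D.mu) x
         have hH : 0 ≤ potF 3 d (hloc i h) x := potF_nonneg hd 3 h0 x
         obtain ⟨b1, b2, b3, b4, b5⟩ := hb x hx
         rw [hν] at b2 b3 b4 b5
         rw [hh'] at b2)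
      | skip
  · exact b2.trans (hmulC (by linarith))
  · have h1 : C⁻¹ ≤ cP i := by
      rw [inv_le_comm₀ (by linarith) (hcP i)]
      exact hCPi.2.trans hNC
    linarith [mul_le_mul_of_nonneg_right h1 hU, (le_abs_self (CP i)).trans (hCPi.1.trans hNC)]
  · exact le_trans (neg_le_neg (hmulC (by linarith))) b4
  · exact b5.trans (hmulC (by linarith))
  · have hp := hA4 D h hh i d hd x (by linarith) v
    obtain ⟨s1, s2, s3⟩ := hCs d hd (nuC i D.mu) hfin (hloc i h) hi h0 x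
    have hJn := (hL i x x (hx3 x hx) (hx3 x hx)).1
    have e1 : |d1At al x v (Jc G i x v) - fsm D i d x v (Jc G i x v)| ≤ N' * L * ‖v‖ ^ 2 := by
      rw [← sub_apply, ← sub_apply]
      refine ((d1At al x - fsm D i d x).le_opNorm₂ v (Jc G i x v)).trans ?_
      calc ‖d1At al x - fsm D i d x‖ * ‖v‖ * ‖Jc G i x v‖
          ≤ N' * ‖v‖ * (L * ‖v‖) := by
            gcongr
            · exact b1.trans ((le_abs_self _).trans hCPi.1)
            · exact ((Jc G i x).le_opNorm v).trans (by gcongr)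
        _ = _ := by ring
    have e2 : A4 * (d ^ 2 * (∫ z, moll d (x - z) ∂nuC i D.mu) +
        d * ∫ z, hloc i h z * moll d (x - z)) + N' * L ≤
        C * (1 + potU D i d x + potH h i d x) := by
      have q1 : A4 * (d ^ 2 * (∫ z, moll d (x - z) ∂nuC i D.mu) +
          d * ∫ z, hloc i h z * moll d (x - z)) ≤
            A4 * Cs * (potU D i d x + potH h i d x) := by
        rw [mul_assoc A4]
        refine mul_le_mul_of_nonneg_left ?_ hA40
        rw [mul_add]
        exact add_le_add s1 s3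
      have q2 : A4 * Cs * (potU D i d x + potH h i d x) ≤ C * (potU D i d x + potH h i d x) :=
        mul_le_mul_of_nonneg_right hA4C (add_nonneg hU hH)
      linarith
    have e3 := mul_le_mul_of_nonneg_right e2 (sq_nonneg ‖v‖)
    linarith [(abs_le.1 e1).1]
  · have hp := hA3 D h hh i d hd x x (by linarith)
    rw [sub_self, norm_zero, zero_add] at hp
    obtain ⟨s1, s2, s3⟩ := hCs d hd (nuC i D.mu) hfin (hloc i h) hi h0 x
    have hJn := (hL i x x (hx3 x hx) (hx3 x hx)).1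
    have e : anti20 (Jc G i x) (d1At al x) =
        anti20 (Jc G i x) (fsm D i d x) + anti20 (Jc G i x) (d1At al x - fsm D i d x) := by
      rw [← anti20_add, add_sub_cancel]
    have e1 : ‖anti20 (Jc G i x) (d1At al x - fsm D i d x)‖ ≤ (1 + L ^ 2) * N' := by
      refine (norm_anti20_le _ _).trans ?_
      gcongr
      exact b1.trans ((le_abs_self _).trans hCPi.1)
    rw [e]
    refine (norm_add_le _ _).trans ?_
    have q1 := mul_le_mul_of_nonneg_left s2 hA30
    have q2 := mul_le_mul_of_nonneg_right hA3C1 hT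
    have q3 := mul_le_mul_of_nonneg_right hA3C2 (hq0 x)
    simp only [smH] at q3 ⊢
    linarith
  · have := S.mass; rw [hν] at this; exact this.trans hMC
  · have := S.h_norm; rw [hh'] at this; exact this.trans hMC
  · have := (self_smoothing_le S hd).2; rw [hh'] at this; exact this.trans hMC
  · rw [hν] at k2; exact k2.trans hKC
  · rw [hν] at k3; exact k3.trans (mul_le_mul_of_nonneg_right hKC (by linarith))
  · rw [hν] at k4; exact k4.trans (mul_le_mul_of_nonneg_right hKC (by linarith))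
  · rw [hν, hh'] at k5; exact k5.trans (mul_le_mul_of_nonneg_right hKC (by linarith))
  · rw [hh'] at k6; exact k6.trans hKC
  · rw [hν, hh'] at k7; exact k7.trans (mul_le_mul_of_nonneg_right hKC (sq_nonneg _))

end Vale.Agent.P204.Full.Split
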