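import Vale.Agent.P204.Full.Split.Source

/-!
# P204 Split: the mollified current in a chart
-/

open scoped Manifold ContDiff Topology
open MeasureTheory Set Filter Vale.Agent.P204.Full.Potential

noncomputable section

namespace Vale.Agent.P204.Full.Split

universe u

variable {X : Type u} [TopologicalSpace X] [ChartedSpace R4 X] [IsManifold 𝓘(ℝ, R4) ∞ X]
  [MeasurableSpace X] {G : Geo X}

/-- A weighted constant field, linear in its value. -/
def wfield (g : R4 → ℝ) : Bil →ₗ[ℝ] (R4 → Bil) where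
  toFun b z := (cutB z * g z) • b
  map_add' _ _ := funext fun _ => smul_add _ _ _
  map_smul' a B := funext fun _ => smul_comm _ a B

/-- The functional against a weighted constant form. -/
def testL (D : Pair G) (i : Fin G.n) (g : R4 → ℝ) : Bil →ₗ[ℝ] ℝ :=
  (psi D).comp ((pushL G i).comp (wfield g))

/-- The mollified current. -/
def fsm (D : Pair G) (i : Fin G.n) (d : ℝ) (y : R4) : Bil :=
  ∑ a, ∑ b, testL D i (fun z => moll d (y - z)) (dual22 (bvec a) (bvec b)) • (cv a).smulRight (cv b)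

omit [MeasurableSpace X] in
lemma fld_wfield {g : R4 → ℝ} (hg : ContDiff ℝ ∞ g) {B : Bil} (hB : IsAlt B) : Fld (wfield g B) where
  alt z := hB.smul _
  smooth := ((cut_smooth.mul hg).smul contDiff_const : ContDiff ℝ ∞ fun z => (cutB z * g z) • B)
  supp z hz := by simp [wfield, cut_in3 z hz]

lemma fsm_apply (D : Pair G) (i : Fin G.n) (d : ℝ) (y p q : R4) :
    fsm D i d y p q = testL D i (fun z => moll d (y - z)) (dual22 p q) := by
  rw [dual22_expand p q]
  simp only [map_sum, map_smul, smul_eq_mul]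
  simp only [fsm, sum_apply, smul_apply, ContinuousLinearMap.smulRight_apply, cv_apply, smul_eq_mul]
  exact Finset.sum_congr rfl fun a _ => Finset.sum_congr rfl fun b _ => by ring

lemma isAlt_fsm (D : Pair G) (i : Fin G.n) (d : ℝ) (y : R4) : IsAlt (fsm D i d y) := fun u v => by
  rw [fsm_apply, fsm_apply, ← map_neg]
  congr 1
  refine ContinuousLinearMap.ext fun s => ContinuousLinearMap.ext fun t => ?_
  simp only [neg_apply, dual22_apply, pl]
  ring

lemma top22_fsm (D : Pair G) (i : Fin G.n) (d : ℝ) (y : R4) {B : Bil} (hB : IsAlt B) :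
    top22 (fsm D i d y) B = testL D i (fun z => moll d (y - z)) B := by
  have h := isAlt_fsm D i d y
  conv_rhs => rw [alt_as_dual hB]
  simp only [map_add, map_sub, map_smul, smul_eq_mul, ← fsm_apply]
  simp only [top22]
  ring

variable [T2Space X] [CompactSpace X] [BorelSpace X]

lemma supBdd_testL {D : Pair G} {h : X → ℝ} (hh : QData D h) (i : Fin G.n) {B : Bil}
    (hB : IsAlt B) : SupBdd fun g => testL D i g B := by
  obtain ⟨C, hC0, hC⟩ := psi_est (G := G)
  obtain ⟨L, hL0, hL⟩ := coef_bounds (G := G)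
  refine ⟨fun f g _ _ => ?_, fun a f _ => ?_, ?_⟩
  · simp only [testL, LinearMap.comp_apply, ← map_add]
    congr 2
    funext z
    simp only [wfield, LinearMap.coe_mk, AddHom.coe_mk, Pi.add_apply, mul_add, add_smul]
  · simp only [testL, LinearMap.comp_apply]
    rw [← smul_eq_mul, ← map_smul, ← map_smul]
    congr 2
    funext z
    simp only [wfield, LinearMap.coe_mk, AddHom.coe_mk, Pi.smul_apply, smul_smul]
    congr 1
    ring
  · refine ⟨C * ((1 + L ^ 2) * ‖B‖ * ((nuC i D.mu).real univ + ∫ z, hloc i h z)),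
      mul_nonneg hC0 (mul_nonneg (by positivity) (add_nonneg measureReal_nonneg
        (integral_nonneg fun z => hloc_nonneg i hh.nonneg z))), fun f a hf hfa => ?_⟩
    have ha : 0 ≤ a := (abs_nonneg _).trans (hfa 0)
    have hpt : ∀ (F : Endo → Bil → Bil), (∀ A b, ‖F A b‖ ≤ (1 + ‖A‖ ^ 2) * ‖b‖) → ∀ z,
        ‖F (Jc G i z) (wfield f B z)‖ ≤ (1 + L ^ 2) * ‖B‖ * (cutB z * a) := by
      intro F hF z
      refine (hF _ _).trans ?_
      show (1 + ‖Jc G i z‖ ^ 2) * ‖(cutB z * f z) • B‖ ≤ _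
      rw [norm_smul, Real.norm_eq_abs, abs_mul, abs_of_nonneg cutB.nonneg]
      rcases le_or_gt ‖z‖ 3 with hn | hn
      · have hJ := (hL i z z hn hn).1
        calc (1 + ‖Jc G i z‖ ^ 2) * (cutB z * |f z| * ‖B‖)
            ≤ (1 + L ^ 2) * (cutB z * a * ‖B‖) := by
              have := cutB.nonneg (x := z)
              gcongr
              exact hfa z
          _ = _ := by ring
      · rw [cut_in3 z hn]; simp
    refine (hC D h hh i (wfield f B) (fun _ => a) ((1 + L ^ 2) * ‖B‖) ((1 + L ^ 2) * ‖B‖)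
      (fld_wfield hf hB) continuous_const (fun _ => ha) (by positivity) (by positivity)
      fun z => ⟨hpt inv11 norm_inv11_le z, hpt anti20 norm_anti20_le z⟩).trans ?_
    rw [integral_const, integral_mul_const, smul_eq_mul]
    have := hloc_nonneg i hh.nonneg
    exact le_of_eq (by ring)

lemma hasFDerivAt_fsm {D : Pair G} {h : X → ℝ} (hh : QData D h) (i : Fin G.n) {d : ℝ}
    (hd : 0 < d) (y p q : R4) :
    HasFDerivAt (fun y => fsm D i d y p q) (∑ c, convL (fun g => testL D i g (dual22 p q))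
      (pd (moll d) c) y • (EuclideanSpace.proj c : R4 →L[ℝ] ℝ)) y := by
  simp only [fsm_apply]
  exact hasFDerivAt_convL (supBdd_testL hh i (isAlt_dual22 p q)) (moll_smooth d) (moll_hcs hd) y

lemma contDiff_fsm {D : Pair G} {h : X → ℝ} (hh : QData D h) (i : Fin G.n) {d : ℝ} (hd : 0 < d) :
    ContDiff ℝ ∞ (fsm D i d) :=
  ContDiff.sum fun a _ => ContDiff.sum fun b _ => ContDiff.smul
    (contDiff_convL (supBdd_testL hh i (isAlt_dual22 (bvec a) (bvec b))) (moll_smooth d)
      (moll_hcs hd) : ContDiff ℝ ∞ fun y => testL D i (fun z => moll d (y - z)) (dual22 (bvec a) (bvec b)))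
    contDiff_const

omit [MeasurableSpace X] [BorelSpace X] [CompactSpace X] in
/-- Exact fields of a chart. -/
lemma extD1_push1 (i : Fin G.n) {β : R4 → Cov} (hβ : ContDiff ℝ ∞ β) (h3 : In3 β) :
    Smooth1 (push1 (G.c i) β) ∧
      extD1 (push1 (G.c i) β) = push2 (G.c i) (fun y => d1At β y) := by
  obtain ⟨hs, hv⟩ := Base.push1_smooth (G.c_mem i) hβ h3.hcs (h3.subset_target G i)
  refine ⟨hs, funext fun x => ?_⟩
  by_cases hx : x ∈ (G.c i).source
  · conv_lhs => rw [← push2_view G i (extD1 (push1 (G.c i) β)) hx]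
    have hy := (G.c i).map_source hx
    rw [Base.push2_pos _ hx, Base.push2_pos _ hx, Base.d_view hs (G.c_mem i) hy,
      Base.d1At_congr (eventually_of_mem ((G.c i).open_target.mem_nhds hy) hv)]
  · rw [push2, if_neg hx]
    have hn : x ∉ Base.K G i 3 := fun h' => hx ((Base.mem_K G (by norm_num)).1 h').1
    have h0 : ∀ z, z ∉ Base.K G i 3 → push1 (G.c i) β z = 0 := fun z hz => by
      by_cases hzs : z ∈ (G.c i).source
      · rw [Base.push1_pos _ hzs, h3 _ (not_le.1 fun h' =>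
          hz ((Base.mem_K G (by norm_num)).2 ⟨hzs, h'⟩))]
        rfl
      · rw [push1, if_neg hzs]
    refine Base.d1At_zero_of_eventually ?_
    refine eventually_of_mem
      (((chartAt R4 x).continuousAt_symm ((chartAt R4 x).map_source (mem_chart_source R4 x))).preimage_mem_nhds
        ((Base.isClosed_K G i (show (3 : ℝ) < 4 by norm_num)).isOpen_compl.mem_nhds (by
          rwa [(chartAt R4 x).left_inv (mem_chart_source R4 x)]))) fun z hz => ?_
    rw [view1, h0 _ hz]
    rfl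

lemma fsm_closed {D : Pair G} {h : X → ℝ} (hh : QData D h) (i : Fin G.n) {d : ℝ} (hd : 0 < d)
    (hd16 : d ≤ 1 / 16) {y : R4} (hy : ‖y‖ < 11 / 4) (u v w : R4) :
    d2At (fsm D i d) y u v w = 0 := by
  have hdf : DifferentiableAt ℝ (fsm D i d) y :=
    ((contDiff_fsm hh i hd).differentiable (by simp)).differentiableAt
  have hsub : ∀ a, ContDiff ℝ ∞ fun z => fderiv ℝ (moll d) (y - z) a := fun a =>
    (((moll_smooth d).fderiv_right (by simp)).clm_apply contDiff_const).comp
      (contDiff_const.sub contDiff_id)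
  have key : ∀ a p q, fderiv ℝ (fsm D i d) y a p q =
      testL D i (fun z => fderiv ℝ (moll d) (y - z) a) (dual22 p q) := by
    intro a p q
    rw [← Base.fderiv_apply2 hdf, (hasFDerivAt_fsm hh i hd y p q).fderiv]
    simp only [sum_apply, smul_apply, PiLp.proj_apply, smul_eq_mul, convL, fderiv_eq_pd]
    rw [(supBdd_testL hh i (isAlt_dual22 p q)).sum Finset.univ (fun c => a c)
      (fun c z => pd (moll d) c (y - z)) fun c => (contDiff_pd (moll_smooth d) c).comp
        (contDiff_const.sub contDiff_id)]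
    exact Finset.sum_congr rfl fun c _ => mul_comm _ _
  set α : Cov := dual22 u v w with hα
  set β : R4 → Cov := fun z => -(moll d (y - z)) • α with hβ
  have hfar : ∀ z, 23 / 8 < ‖z‖ → y - z ∉ tsupport (moll d) := fun z hz hm => by
    have := mem_closedBall_zero_iff.1 (moll_tsupport hd hm)
    linarith [norm_sub_norm_le z y, norm_sub_rev z y]
  have hβs : ContDiff ℝ ∞ β :=
    ((moll_smooth d).comp (contDiff_const.sub contDiff_id)).neg.smul contDiff_const
  have h3 : In3 β := fun z hz => by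
    simp [hβ, image_eq_zero_of_notMem_tsupport (hfar z (by linarith))]
  obtain ⟨hs, he⟩ := extD1_push1 i hβs h3
  have hd1 : ∀ z, d1At β z = wedgeCov (fderiv ℝ (moll d) (y - z)) α := by
    intro z
    have h1 : HasFDerivAt (fun z => -(moll d (y - z))) (fderiv ℝ (moll d) (y - z)) z := by
      have := ((((moll_smooth d).differentiable (by simp)) (y - z)).hasFDerivAt.comp z
        ((hasFDerivAt_id z).const_sub y)).neg
      exact this.congr_fderiv (by ext s; simp)
    have h2 : HasFDerivAt β ((fderiv ℝ (moll d) (y - z)).smulRight α) z := h1.smul_const α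
    rw [d1At, h2.fderiv]
    refine ContinuousLinearMap.ext fun s => ContinuousLinearMap.ext fun t => ?_
    simp [Base.wedgeCov_apply, mul_comm]
  have hz0 : psi D (push2 (G.c i) fun z => d1At β z) = 0 := by
    rw [← he]
    exact psi_closed D (Base.exact_closed hs)
  rw [d2At, key, key, key, ← hz0]
  simp only [testL, LinearMap.comp_apply, ← map_sub, ← map_add, pushL_apply]
  rw [← pushL_apply, ← pushL_apply, ← pushL_apply, ← map_sub, ← map_add, pushL_apply]
  congr 2
  funext z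
  simp only [wfield, LinearMap.coe_mk, AddHom.coe_mk, Pi.add_apply, Pi.sub_apply, hd1]
  rw [hα, ← dual22_cyclic]
  rcases le_or_gt ‖z‖ (23 / 8) with hz | hz
  · rw [cut_one hz]
    simp only [one_mul]
  · have : fderiv ℝ (moll d) (y - z) = 0 := by
      by_contra hne
      exact hfar z hz (support_fderiv_subset ℝ hne)
    simp [this]

omit [MeasurableSpace X] [T2Space X] [CompactSpace X] [BorelSpace X] in
lemma fld_weight (i : Fin G.n) {g : R4 → ℝ} (hg : ContDiff ℝ ∞ g) {B : R4 → Bil}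
    (hB : ContDiffOn ℝ ∞ B (G.c i).target) (halt : ∀ z, IsAlt (B z)) :
    Fld fun z => (cutB z * g z) • B z := by
  have h3 : In3 fun z => (cutB z * g z) • B z := fun z hz => by simp [cut_in3 z hz]
  refine ⟨fun z => (halt z).smul _, ?_, h3⟩
  exact Base.cd_extend (E := Bil) (G.c i).open_target
    (Base.cdOn_smul (cut_smooth.mul hg).contDiffOn hB) Metric.isClosed_closedBall
    (Base.closedBall_subset_target G i (r := 3) (by norm_num))
    (fun z hz => h3 z (not_le.1 fun h' => hz (mem_closedBall_zero_iff.2 h')))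

/-- The functional against a mollified field. -/
lemma weight_est : ∃ C : ℝ, 0 ≤ C ∧ ∀ (D : Pair G) (h : X → ℝ), QData D h →
    ∀ (i : Fin G.n) (d : ℝ) (y : R4) (B : R4 → Bil) (a b : ℝ),
      ContDiffOn ℝ ∞ B (G.c i).target → (∀ z, IsAlt (B z)) → 0 ≤ a → 0 ≤ b →
      (∀ z, ‖z‖ ≤ 3 → moll d (y - z) ≠ 0 →
        ‖inv11 (Jc G i z) (B z)‖ ≤ a ∧ ‖anti20 (Jc G i z) (B z)‖ ≤ b) →
      |psi D (push2 (G.c i) fun z => (cutB z * moll d (y - z)) • B z)| ≤
        C * (a * (∫ z, moll d (y - z) ∂nuC i D.mu) + b * ∫ z, hloc i h z * moll d (y - z)) := by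
  obtain ⟨C, hC0, hC⟩ := psi_est (G := G)
  refine ⟨C, hC0, fun D h hh i d y B a b hB halt ha hb hest => ?_⟩
  have hg : ContDiff ℝ ∞ fun z => moll d (y - z) :=
    (moll_smooth d).comp (contDiff_const.sub contDiff_id)
  refine hC D h hh i _ (fun z => moll d (y - z)) a b (fld_weight i hg hB halt) hg.continuous
    (fun z => moll_nonneg _ _) ha hb fun z => ?_
  have h0 : 0 ≤ cutB z * moll d (y - z) := mul_nonneg cutB.nonneg (moll_nonneg _ _)
  simp only [inv11_smul, anti20_smul, norm_smul, Real.norm_eq_abs, abs_of_nonneg h0]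
  rcases eq_or_ne (cutB z * moll d (y - z)) 0 with hz | hz
  · simp [hz]
  · obtain ⟨h1, h2⟩ := hest z (not_lt.1 fun h' => hz (by rw [cut_in3 z h', zero_mul]))
      (right_ne_zero_of_mul hz)
    exact ⟨by rw [mul_comm a]; exact mul_le_mul_of_nonneg_left h1 h0,
      by rw [mul_comm b]; exact mul_le_mul_of_nonneg_left h2 h0⟩

omit [T2Space X] [CompactSpace X] [BorelSpace X] in
lemma testL_eq (D : Pair G) (i : Fin G.n) (g : R4 → ℝ) (B : Bil) :
    testL D i g B = psi D (push2 (G.c i) fun z => (cutB z * g z) • B) := rfl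

lemma moll_dist {d : ℝ} (hd : 0 < d) {x y z : R4} (h : moll d (y - z) ≠ 0) :
    ‖x - z‖ ≤ ‖x - y‖ + d := by
  linarith [norm_sub_le_norm_sub_add_norm_sub x y z, moll_supp hd h]

omit [T2Space X] [CompactSpace X] [BorelSpace X] in
lemma fsm_supp (D : Pair G) (i : Fin G.n) {d : ℝ} (hd : 0 < d) (hd16 : d ≤ 1 / 16) {y : R4}
    (hy : 15 / 4 < ‖y‖) : fsm D i d y = 0 := by
  refine ContinuousLinearMap.ext fun p => ContinuousLinearMap.ext fun q => ?_
  rw [fsm_apply, testL_eq]
  have : (fun z => (cutB z * moll d (y - z)) • dual22 p q) = 0 := funext fun z => by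
    show (cutB z * moll d (y - z)) • dual22 p q = 0
    rcases le_or_gt ‖z‖ 3 with hn | hn
    · have h0 : moll d (y - z) = 0 := by
        by_contra hne
        linarith [moll_supp hd hne, norm_sub_norm_le y z]
      simp [h0]
    · simp [cut_in3 z hn]
  rw [this, ← pushL_apply, map_zero, map_zero]
  rfl

lemma fsm_bound : ∃ A : ℝ, 0 ≤ A ∧ ∀ (D : Pair G) (h : X → ℝ), QData D h →
    ∀ (i : Fin G.n) (d : ℝ) (y : R4), ‖fsm D i d y‖ ≤
      A * ((∫ z, moll d (y - z) ∂nuC i D.mu) + ∫ z, hloc i h z * moll d (y - z)) := by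
  obtain ⟨C, hC0, hC⟩ := weight_est (G := G)
  obtain ⟨L, hL0, hL⟩ := coef_bounds (G := G)
  obtain ⟨K, hK0, hK⟩ := dual22_bound
  refine ⟨C * (1 + L ^ 2) * K, by positivity, fun D h hh i d y => ?_⟩
  have hm : 0 ≤ ∫ z, moll d (y - z) ∂nuC i D.mu := integral_nonneg fun z => moll_nonneg _ _
  have hq : 0 ≤ ∫ z, hloc i h z * moll d (y - z) :=
    integral_nonneg fun z => mul_nonneg (hloc_nonneg i hh.nonneg z) (moll_nonneg _ _)
  refine ContinuousLinearMap.opNorm_le_bound₂ _ (by positivity) fun p q => ?_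
  rw [fsm_apply, testL_eq, Real.norm_eq_abs]
  have hN : ∀ z, ‖z‖ ≤ 3 → 1 + ‖Jc G i z‖ ^ 2 ≤ 1 + L ^ 2 := fun z hz => by
    gcongr; exact (hL i z z hz hz).1
  refine (hC D h hh i d y (fun _ => dual22 p q) ((1 + L ^ 2) * (K * (‖p‖ * ‖q‖)))
    ((1 + L ^ 2) * (K * (‖p‖ * ‖q‖))) contDiffOn_const (fun _ => isAlt_dual22 p q)
    (by positivity) (by positivity) fun z hz _ =>
      ⟨(norm_inv11_le _ _).trans (mul_le_mul (hN z hz) (hK p q) (norm_nonneg _) (by positivity)),
        (norm_anti20_le _ _).trans (mul_le_mul (hN z hz) (hK p q) (norm_nonneg _)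
          (by positivity))⟩).trans ?_
  exact le_of_eq (by ring)

lemma fsm_trace : ∃ A : ℝ, 0 ≤ A ∧ ∀ (D : Pair G) (h : X → ℝ), QData D h →
    ∀ (i : Fin G.n) (d : ℝ), 0 < d → ∀ x y : R4, ‖x‖ ≤ 11 / 4 →
      |top22 (fsm D i d y) (omc G i x) - ∫ z, moll d (y - z) ∂nuC i D.mu| ≤
        A * ((‖x - y‖ + d) * (∫ z, moll d (y - z) ∂nuC i D.mu) +
          ∫ z, hloc i h z * moll d (y - z)) := by
  obtain ⟨C, hC0, hC⟩ := weight_est (G := G)
  obtain ⟨L, hL0, hL⟩ := coef_bounds (G := G)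
  refine ⟨C * (1 + L ^ 2) * (6 * L), by positivity, fun D h hh i d hd x y hx => ?_⟩
  have hm : 0 ≤ ∫ z, moll d (y - z) ∂nuC i D.mu := integral_nonneg fun z => moll_nonneg _ _
  set g : R4 → ℝ := fun z => moll d (y - z) with hg
  have hgs : ContDiff ℝ ∞ g := (moll_smooth d).comp (contDiff_const.sub contDiff_id)
  have hom := Base.smooth_view2 G.omega_smooth (G.c_mem i)
  have halt : ∀ z, IsAlt (omc G i z) := fun z => Base.isAlt_view2 G.omega_smooth.1 _ _
  have hW := fld_weight i hgs hom halt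
  have e : push2 (G.c i) (fun z => (cutB z * g z) • omc G i z) =
      fun x => push0 G i (fun z => cutB z * g z) x • G.omega x := by
    funext x'
    rw [push2_fun]
    by_cases hx' : x' ∈ (G.c i).source
    · rw [show push2 (G.c i) (omc G i) x' = G.omega x' from push2_view G i G.omega hx']
    · rw [push0_neg G i _ hx', zero_smul, zero_smul]
  have hpsi : psi D (push2 (G.c i) fun z => (cutB z * g z) • omc G i z) =
      ∫ z, g z ∂nuC i D.mu := by
    rw [psi_apply, e, G.p20_of_inv (fun x u v => by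
      simp only [smul_apply, G.omega_inv x u v]), map_zero, add_zero, integral_nuC i D.mu
      hgs.continuous]
    exact D.P_omega _ (continuous_push0 G i (cutB.continuous.mul hgs.continuous)
      fun z hz => by simp [cut_in3 z hz])
  rw [top22_fsm D i d y (halt x), ← hpsi, testL_eq, ← map_sub, ← pushL_apply, ← pushL_apply,
    ← map_sub, pushL_apply]
  rw [show (fun z => (cutB z * g z) • omc G i x) - (fun z => (cutB z * g z) • omc G i z) =
    fun z => (cutB z * g z) • (omc G i x - omc G i z) from funext fun z => (smul_sub _ _ _).symm]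
  refine (hC D h hh i d y _ ((1 + L ^ 2) * (L * (‖x - y‖ + d))) ((1 + L ^ 2) * (6 * L))
    (contDiffOn_const.sub hom) (fun z => Base.isAlt_sub (halt x) (halt z)) (by positivity)
    (by positivity) fun z hz hm => ?_).trans ?_
  · obtain ⟨hJ, -, -, -⟩ := hL i z z hz hz
    obtain ⟨-, -, -, hlip⟩ := hL i x z (by linarith) hz
    have hNz : 1 + ‖Jc G i z‖ ^ 2 ≤ 1 + L ^ 2 := by gcongr
    have h7 : ‖omc G i x - omc G i z‖ ≤ L * (‖x - y‖ + d) :=
      hlip.trans (mul_le_mul_of_nonneg_left (moll_dist hd hm) hL0)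
    have h6 : ‖omc G i x - omc G i z‖ ≤ 6 * L :=
      hlip.trans (by nlinarith [norm_sub_le x z])
    exact ⟨(norm_inv11_le _ _).trans (mul_le_mul hNz h7 (norm_nonneg _) (by positivity)),
      (norm_anti20_le _ _).trans (mul_le_mul hNz h6 (norm_nonneg _) (by positivity))⟩
  · have h1 : 0 ≤ C * (1 + L ^ 2) * (5 * L) * ((‖x - y‖ + d) * ∫ z, g z ∂nuC i D.mu) := by
      positivity
    rw [pushL_apply, hpsi]
    simp only [hg] at h1 ⊢
    linarith

lemma fsm_anti : ∃ A : ℝ, 0 ≤ A ∧ ∀ (D : Pair G) (h : X → ℝ), QData D h →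
    ∀ (i : Fin G.n) (d : ℝ), 0 < d → ∀ x y : R4, ‖x‖ ≤ 11 / 4 →
      ‖anti20 (Jc G i x) (fsm D i d y)‖ ≤
        A * ((‖x - y‖ + d) * (∫ z, moll d (y - z) ∂nuC i D.mu) +
          ∫ z, hloc i h z * moll d (y - z)) := by
  obtain ⟨C, hC0, hC⟩ := weight_est (G := G)
  obtain ⟨L, hL0, hL⟩ := coef_bounds (G := G)
  obtain ⟨K, hK0, hK⟩ := dual22_bound
  refine ⟨C * (1 + L ^ 2) * (1 + L ^ 2) * K, by positivity, fun D h hh i d hd x y hx => ?_⟩
  have hm : 0 ≤ ∫ z, moll d (y - z) ∂nuC i D.mu := integral_nonneg fun z => moll_nonneg _ _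
  have hq : 0 ≤ ∫ z, hloc i h z * moll d (y - z) :=
    integral_nonneg fun z => mul_nonneg (hloc_nonneg i hh.nonneg z) (moll_nonneg _ _)
  have hxt : x ∈ Metric.ball (0 : R4) 4 := by rw [mem_ball_zero_iff]; linarith
  have hJ : ∀ v, Jc G i x (Jc G i x v) = -v := (coef G i).J_sq x hxt
  have hdet : (Jc G i x).det = 1 := det_eq_one ((coef G i).om_alt x hxt)
    ((coef G i).om_inv x hxt) ((coef G i).om_top x hxt)
  refine ContinuousLinearMap.opNorm_le_bound₂ _ (by positivity) fun p q => ?_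
  rw [← top22_dual (Base.isAlt_anti20 _ (isAlt_fsm D i d y)) p q,
    top22_anti_swap hJ hdet (isAlt_fsm D i d y) (isAlt_dual22 p q),
    top22_fsm D i d y (Base.isAlt_anti20 _ (isAlt_dual22 p q)), testL_eq, Real.norm_eq_abs]
  set B : Bil := anti20 (Jc G i x) (dual22 p q) with hB
  have hBn : ‖B‖ ≤ (1 + L ^ 2) * (K * (‖p‖ * ‖q‖)) :=
    (norm_anti20_le _ _).trans (mul_le_mul
      (by gcongr; exact (hL i x x (by linarith) (by linarith)).1) (hK p q) (norm_nonneg _)
      (by positivity))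
  refine (hC D h hh i d y (fun _ => B) ((1 + L ^ 2) * (‖x - y‖ + d) * ‖B‖)
    ((1 + L ^ 2) * ‖B‖) contDiffOn_const (fun _ => Base.isAlt_anti20 _ (isAlt_dual22 p q))
    (by positivity) (by positivity) fun z hz hmz => ⟨?_, ?_⟩).trans ?_
  · obtain ⟨hJz, -, -, -⟩ := hL i z z hz hz
    obtain ⟨hJx, -, hlip, -⟩ := hL i x z (by linarith) hz
    have e : inv11 (Jc G i z) B =
        (2⁻¹ : ℝ) • (pullBil (Jc G i z) B - pullBil (Jc G i x) B) := by
      have h1 : inv11 (Jc G i x) B = 0 := inv11_anti20 hJ _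
      rw [← sub_zero (inv11 (Jc G i z) B), ← h1]
      simp only [inv11]
      module
    rw [e, norm_smul, Real.norm_eq_abs, abs_of_nonneg (by positivity)]
    calc (2⁻¹ : ℝ) * ‖pullBil (Jc G i z) B - pullBil (Jc G i x) B‖
        ≤ (2⁻¹ : ℝ) * ((L + L) * (L * (‖x - y‖ + d)) * ‖B‖) := by
          refine mul_le_mul_of_nonneg_left ((pull_sub_le _ _ _).trans ?_) (by positivity)
          gcongr
          rw [norm_sub_rev]
          exact hlip.trans (mul_le_mul_of_nonneg_left (moll_dist hd hmz) hL0)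
      _ = L ^ 2 * ((‖x - y‖ + d) * ‖B‖) := by ring
      _ ≤ (1 + L ^ 2) * ((‖x - y‖ + d) * ‖B‖) := by gcongr; linarith
      _ = _ := by ring
  · exact (norm_anti20_le _ _).trans (mul_le_mul_of_nonneg_right
      (by gcongr; exact (hL i z z hz hz).1) (norm_nonneg _))
  · set m := ∫ z, moll d (y - z) ∂nuC i D.mu
    set q' := ∫ z, hloc i h z * moll d (y - z)
    calc C * ((1 + L ^ 2) * (‖x - y‖ + d) * ‖B‖ * m + (1 + L ^ 2) * ‖B‖ * q')
        = C * (1 + L ^ 2) * ((‖x - y‖ + d) * m + q') * ‖B‖ := by ring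
      _ ≤ C * (1 + L ^ 2) * ((‖x - y‖ + d) * m + q') * ((1 + L ^ 2) * (K * (‖p‖ * ‖q‖))) := by
          gcongr
      _ = _ := by ring

/-- The hypotheses of the potential theory. -/
theorem exists_smoothed : ∃ A : ℝ, 0 ≤ A ∧ ∀ (D : Pair G) (h : X → ℝ), QData D h →
    ∀ (i : Fin G.n) (M : ℝ) (S : Potential.Source M) (d : ℝ), S.ν = nuC i D.mu → S.h = hloc i h →
      0 < d → d ≤ 1 / 16 → Smoothed (coef G i) S A d (fsm D i d) := by
  obtain ⟨A1, hA1, h1⟩ := fsm_bound (G := G)
  obtain ⟨A2, hA2, h2⟩ := fsm_trace (G := G)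
  obtain ⟨A3, hA3, h3⟩ := fsm_anti (G := G)
  refine ⟨A1 + A2 + A3, by positivity, fun D h hh i M S d hν hhl hd hd16 => ?_⟩
  have hS : ∀ y, (∫ z, moll d (y - z) ∂S.ν) = ∫ z, moll d (y - z) ∂nuC i D.mu := by simp [hν]
  have hSh : ∀ y, (∫ z, moll d (y - z) * S.h z) = ∫ z, hloc i h z * moll d (y - z) := by
    simp [hhl, mul_comm]
  have hm : ∀ y, 0 ≤ ∫ z, moll d (y - z) ∂nuC i D.mu := fun y =>
    integral_nonneg fun z => moll_nonneg _ _
  have hq : ∀ y, 0 ≤ ∫ z, hloc i h z * moll d (y - z) := fun y =>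
    integral_nonneg fun z => mul_nonneg (hloc_nonneg i hh.nonneg z) (moll_nonneg _ _)
  have hr : ∀ x y : R4, 0 ≤ (‖x - y‖ + d) * (∫ z, moll d (y - z) ∂nuC i D.mu) +
      ∫ z, hloc i h z * moll d (y - z) := fun x y =>
    add_nonneg (mul_nonneg (by positivity) (hm y)) (hq y)
  refine ⟨contDiff_fsm hh i hd, isAlt_fsm D i d, fun y hy => fsm_supp D i hd hd16 hy, fun y => ?_,
    fun x y hx => ?_, fun x y hx => ?_, fun y hy u v w => fsm_closed hh i hd hd16 hy u v w⟩
  · rw [hS, hSh]
    exact (h1 D h hh i d y).trans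
      (mul_le_mul_of_nonneg_right (by linarith) (add_nonneg (hm y) (hq y)))
  · rw [hS, hSh]
    exact (h2 D h hh i d hd x y hx).trans (mul_le_mul_of_nonneg_right (by linarith) (hr x y))
  · rw [hS, hSh]
    exact (h3 D h hh i d hd x y hx).trans (mul_le_mul_of_nonneg_right (by linarith) (hr x y))

end Vale.Agent.P204.Full.Split
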