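import Vale.Agent.P204.Full.Split.CutParts

/-!
# P204 Split: the global cut-off asymptotically kills exact forms
-/

open scoped Manifold ContDiff Topology
open MeasureTheory Set Filter Vale.Agent.P204.Full.Potential

noncomputable section

namespace Vale.Agent.P204.Full.Split

universe u

variable {X : Type u} [TopologicalSpace X] [ChartedSpace R4 X] [IsManifold 𝓘(ℝ, R4) ∞ X]
  [MeasurableSpace X] {G : Geo X} [T2Space X] [CompactSpace X] [BorelSpace X]

/-- The cut-off commutes with exterior differentiation up to small errors. -/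
theorem cut_est (C Cc : ℝ) {a : X → Cov} (ha : Smooth1 a) : ∃ A : ℝ, ∀ (D : Pair G) (h : X → ℝ),
    QData D h → ∀ (d : ℝ) (Q : ∀ i, Loc D h i C d) (K k : ℝ), Wide D C Cc K k → 1 ≤ Cc →
      0 < d → d ≤ 1 / 16 → 1 ≤ C → logScale d ≤ k ^ 2 →
      (∀ (i j : Fin G.n) (x : X), x ∈ (G.c i).source → ‖G.c i x‖ ≤ 5 / 2 →
        x ∈ (G.c j).source → ‖G.c j x‖ ≤ 5 / 2 →
        potU D i d (G.c i x) ≤ Cc * (potU D j d (G.c j x) + D.mu.real univ)) →
      ∀ δ : ℝ, 0 < δ → δ ≤ 1 →
        |D.P fun x => cutW Q k x • extD1 a x| ≤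
          A * (δ + (D.mu.real (band D d K k) + logScale d / k ^ 2) / δ) := by
  obtain ⟨CB, hCB⟩ := (Point.curFacts G).bound
  obtain ⟨N, hN0, hN⟩ := nrm2_push G
  obtain ⟨BT, hBT0, hBT⟩ := test_bound (G := G) C
  obtain ⟨Bd, hBd0, hBd⟩ := deriv_step_bound
  obtain ⟨CW, hCW0, hCW⟩ := PW_le (G := G)
  obtain ⟨CQ, hCQ0, hCQ⟩ := Q_bound (G := G)
  obtain ⟨L, hL0, hL⟩ := coef_bounds (G := G)
  have hZ : ∀ i : Fin G.n, ∃ z0 : ℝ, 0 ≤ z0 ∧ ∀ y, ‖d1At (za i a) y‖ ≤ z0 := fun i => by
    have hc : ContDiff ℝ ∞ fun y => d1At (za i a) y := contDiffOn_univ.1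
      (Base.d1At_contDiffOn ((za_cfld i ha).smooth.fderiv_right (by simp)).contDiffOn)
    have hsupp : In3 fun y => d1At (za i a) y := fun y hy => d1_za_zero i a (by linarith)
    obtain ⟨z0, hz0⟩ := hc.continuous.bounded_above_of_compact_support hsupp.hcs
    exact ⟨max z0 0, le_max_right _ _, fun y => (hz0 y).trans (le_max_left _ _)⟩
  choose z0 hz00 hz0 using hZ
  have hA : ∀ i : Fin G.n, ∃ a0 : ℝ, 0 ≤ a0 ∧ ∀ y, ‖y‖ ≤ 5 / 2 →
      ‖(view1 (G.c i) a y).comp (Jc G i y)‖ ≤ a0 := fun i => by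
    have hc : ContinuousOn (fun y => (view1 (G.c i) a y).comp (Jc G i y))
        (Metric.closedBall 0 (5 / 2)) :=
      (((Base.smooth_view1 ha (G.c_mem i)).continuousOn).clm_comp
        (Base.smooth_viewJ G.J_acs (G.c_mem i)).continuousOn).mono fun y hy =>
          ball3_target G i (by rw [mem_closedBall_zero_iff] at hy; linarith)
    obtain ⟨a0, ha0⟩ := (isCompact_closedBall (0 : R4) (5 / 2)).exists_bound_of_continuousOn hc
    exact ⟨max a0 0, le_max_right _ _, fun y hy =>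
      (ha0 y (mem_closedBall_zero_iff.2 hy)).trans (le_max_left _ _)⟩
  choose a0 ha00 ha0 using hA
  set M0 : ℝ := (1 + L ^ 2) * (2 * L) with hM0
  set V : ℝ := volume.real (Metric.ball (0 : R4) 4) with hV
  set S : Fin G.n → ℝ := fun i => |CB| * (N * z0 i) + (Bd * Real.exp 1) ^ 2 * BT + CW * a0 i ^ 2 +
    CQ * (((1 + L ^ 2) * z0 i * C + M0 * (Bd * Real.exp 1) * (Real.exp C * C) * a0 i) *
      (C + 3 * (V + 2 * C))) with hS
  refine ⟨∑ i, S i, fun D h hh d Q K k hw hCc1 hd hd16 hC hlog hCc δ hδ hδ1 => ?_⟩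
  have := D.finite_mu
  have hk : 1 ≤ k := le_trans (le_trans (by nlinarith) hw.wide) hw.large
  have hk0 : 0 < k := by linarith
  have hC0 : 0 ≤ C := by linarith
  set μb := D.mu.real (band D d K k) with hμb
  have hμb0 : 0 ≤ μb := measureReal_nonneg
  have hlog1 : 1 ≤ logScale d := by
    have h1 : 0 ≤ Real.log (1 / d) := Real.log_nonneg (by rw [le_div_iff₀ hd]; linarith)
    unfold logScale
    linarith
  set E := δ + (μb + logScale d / k ^ 2) / δ with hE
  have hE1 : μb ≤ E := by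
    have h1 : μb ≤ μb / δ := le_div_self hμb0 hδ hδ1
    have h2 : μb / δ ≤ (μb + logScale d / k ^ 2) / δ :=
      div_le_div_of_nonneg_right (le_add_of_nonneg_right (by positivity)) hδ.le
    linarith
  have hE2 : δ + μb / δ ≤ E := by
    rw [hE]
    exact add_le_add le_rfl
      (div_le_div_of_nonneg_right (le_add_of_nonneg_right (by positivity)) hδ.le)
  have hE3 : δ + logScale d / k ^ 2 / δ ≤ E := by
    rw [hE]
    exact add_le_add le_rfl (div_le_div_of_nonneg_right (le_add_of_nonneg_left hμb0) hδ.le)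
  have hWc : Continuous (cutW Q k) := (cutW_smooth Q k).continuous
  have hbm := measurableSet_band D hd K k
  rw [show (fun x => cutW Q k x • extD1 a x) =
      ∑ i, fun x => cutW Q k x • push2 (G.c i) (fun y => d1At (za i a) y) x from funext fun x => by
    rw [Finset.sum_apply, Base.extD1_rho_sum G ha x, Finset.smul_sum]
    refine Finset.sum_congr rfl fun i _ => ?_
    rw [← (extD1_push1 i (za_cfld i ha).smooth (za_cfld i ha).supp).2, push1_za]]
  rw [map_sum, Finset.sum_mul]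
  refine (Finset.abs_sum_le_sum_abs _ _).trans (Finset.sum_le_sum fun i _ => ?_)
  have hZfld : Fld fun y => d1At (za i a) y :=
    ⟨fun y => Base.isAlt_d1At _ _, contDiffOn_univ.1
      (Base.d1At_contDiffOn ((za_cfld i ha).smooth.fderiv_right (by simp)).contDiffOn),
      fun y hy => d1_za_zero i a (by linarith)⟩
  have hwc : Continuous (push0 G i ((Q i).w k)) :=
    continuous_push0 G i ((Q i).w_cd k).continuous fun y hy => by
      simp [Loc.w, chi_zero (show 5 / 2 < ‖y‖ by linarith)]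
  have hwmem : ∀ x, 0 ≤ push0 G i ((Q i).w k) x ∧ push0 G i ((Q i).w k) x ≤ 1 := by
    intro x
    by_cases hx : x ∈ (G.c i).source
    · rw [push0_pos G i _ hx, Loc.w]
      exact ⟨mul_nonneg chi.nonneg (step_mem _).1,
        mul_le_one₀ chi.le_one (step_mem _).1 (step_mem _).2⟩
    · rw [push0_neg G i _ hx]
      exact ⟨le_rfl, zero_le_one⟩
  have hT1 := err_est (i := i) (hwc.sub hWc) hbm hZfld hN0 (hz00 i) (hCB D.toPosCur)
    (hN i _ hZfld.supp) (hz0 i)
    (fun x => abs_sub_le_iff.2 ⟨by linarith [(hwmem x).2, (cutW_mem Q k x).1],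
      by linarith [(hwmem x).1, (cutW_mem Q k x).2]⟩)
    fun x hxb => by
      by_cases hx : x ∈ (G.c i).source ∧ ‖G.c i x‖ ≤ 2
      · obtain ⟨c, hc⟩ := band_agree Q hw hd hCc hCc1 hC hxb
        refine Or.inl (sub_eq_zero.2 ?_)
        rw [cutW_const Q k x fun j hj hn => (hc j hj (hn.trans (by norm_num))).1,
          push0_pos G i _ hx.1, Loc.w,
          chi.one_of_mem_closedBall (mem_closedBall_zero_iff.2 hx.2), one_mul]
        exact (hc i hx.1 (hx.2.trans (by norm_num))).1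
      · refine Or.inr ?_
        by_cases hxs : x ∈ (G.c i).source
        · rw [push0_pos G i _ hxs, d1_za_zero i a (not_le.1 fun h' => hx ⟨hxs, h'⟩), norm_zero]
        · exact push0_neg G i _ hxs
  have hy := (Q i).yy_cfld k ha
  have c1 := PW_cauchy D.toPosCur i (((Q i).ta_fld k).fun_smul ((Q i).rr_cd k)) hy hδ
  have c2 := (PW_mono D.toPosCur i ((Q i).ta_fld k) ((Q i).rr_cd k)
    (rr_bound (Q i) k hBd0 hBd)).trans
      (mul_le_mul_of_nonneg_left (hBT D h hh i d (Q i) k hk hlog) (sq_nonneg _))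
  have c3 := (hCW D.toPosCur i _ hy fun z hz => by simp [Loc.yy, chi_zero hz]).trans
    (mul_le_mul_of_nonneg_left (yy_mass (Q i) k hbm ha (ha0 i) fun x hxb hx hn => by
      obtain ⟨c, hc⟩ := band_agree Q hw hd hCc hCc1 hC hxb
      exact (hc i hx hn).2) hCW0)
  have hT3 : |D.Q (G.p20 (push2 (G.c i) fun y => d1At ((Q i).beta k a) y))| ≤
      CQ * (((1 + L ^ 2) * z0 i * C + M0 * (Bd * Real.exp 1) * (Real.exp C * C) * a0 i) *
        ((C + 3 * (V + 2 * C)) * (δ + logScale d / k ^ 2 / δ))) := by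
    have := isFinite_nuC (G := G) i D.mu
    set A3 := (1 + L ^ 2) * z0 i * C + M0 * (Bd * Real.exp 1) * (Real.exp C * C) * a0 i with hA3
    have hA30 : 0 ≤ A3 := by
      have := hz00 i; have := ha00 i
      positivity
    have hFld := beta_fld (Q i) hk0.ne' ha
    refine (hCQ D h hh i _ hFld).trans (mul_le_mul_of_nonneg_left ?_ hCQ0)
    obtain ⟨hca, h3a⟩ := hFld.anti i
    refine (integral_mono (integrable_hloc_mul i hh.meas hh.memLp hca.norm h3a.norm)
      ((integrable_hloc_cont i hh.meas hh.memLp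
        (g := fun z => (1 + potT D i d z + potU D i d z) / k)
        (((continuous_const.add (continuous_potM hd 3 _)).add
          (continuous_potM hd 2 _)).div_const k)).const_mul A3) fun z => ?_).trans ?_
    · rw [mul_left_comm A3]
      exact mul_le_mul_of_nonneg_left (beta_pointwise (Q i) hk ha hL0
        (fun y hy' => (hL i y y hy' hy').1) hBd0 hBd (hz00 i) (ha00 i) (hz0 i) (ha0 i) z)
        (hloc_nonneg i hh.nonneg z)
    · rw [integral_const_mul]
      exact mul_le_mul_of_nonneg_left (hloc_grad_le hh (Q i) hk hδ hlog1) hA30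
  have h0 := cut_identity (Q i) hk0.ne' ha (cutW Q k)
  set T1 := D.P fun x => (push0 G i ((Q i).w k) x - cutW Q k x) •
    push2 (G.c i) (fun y => d1At (za i a) y) x
  set T2 := PW D.toPosCur i (fun z => (Q i).rr k z • (Q i).ta k z) ((Q i).yy k a)
  set T3 := D.Q (G.p20 (push2 (G.c i) fun y => d1At ((Q i).beta k a) y))
  set T0 := D.P fun x => cutW Q k x • push2 (G.c i) (fun y => d1At (za i a) y) x
  set Yy := PW D.toPosCur i ((Q i).yy k a) ((Q i).yy k a)
  set Xx := PW D.toPosCur i (fun z => (Q i).rr k z • (Q i).ta k z)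
    (fun z => (Q i).rr k z • (Q i).ta k z)
  set Bx := (Bd * Real.exp 1) ^ 2 * BT
  have hBx : 0 ≤ Bx := by positivity
  have hBy : 0 ≤ CW * a0 i ^ 2 := by positivity
  have hA : 0 ≤ CQ * (((1 + L ^ 2) * z0 i * C + M0 * (Bd * Real.exp 1) * (Real.exp C * C) * a0 i) *
      (C + 3 * (V + 2 * C))) := by
    have := hz00 i; have := ha00 i
    have : 0 ≤ V := measureReal_nonneg
    positivity
  have hδi : 0 ≤ δ⁻¹ := by positivity
  have u0 : δ⁻¹ * μb + δ ≤ E := by rw [inv_mul_eq_div]; linarith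
  have u1 : |T1| ≤ |CB| * (N * z0 i) * E :=
    hT1.trans (mul_le_mul_of_nonneg_left hE1 (mul_nonneg (abs_nonneg _) (mul_nonneg hN0 (hz00 i))))
  have u2 : |T2| ≤ (Bx + CW * a0 i ^ 2) * E := by
    have e1 := mul_le_mul_of_nonneg_left c2 hδ.le
    have e2 := mul_le_mul_of_nonneg_left c3 hδi
    have e3 := mul_le_mul_of_nonneg_left u0 (add_nonneg hBx hBy)
    have p1 : 0 ≤ Bx * (δ⁻¹ * μb) := by positivity
    have p2 : 0 ≤ CW * a0 i ^ 2 * δ := by positivity
    linarith [abs_nonneg T2]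
  have u3 : |T3| ≤ CQ * (((1 + L ^ 2) * z0 i * C + M0 * (Bd * Real.exp 1) * (Real.exp C * C) * a0 i) *
      (C + 3 * (V + 2 * C))) * E := by
    refine le_trans (hT3.trans_eq ?_) (mul_le_mul_of_nonneg_left hE3 hA)
    ring
  have e0 : T0 = -T1 - T2 - T3 := by linarith
  rw [e0]
  refine (abs_sub _ _).trans ((add_le_add (abs_sub _ _) le_rfl).trans ?_)
  rw [abs_neg, hS]
  linarith

end Vale.Agent.P204.Full.Split
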