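import Vale.Agent.P204.Full.Split.Band

/-!
# P204 Split: the error terms of the global cut-off
-/

open scoped Manifold ContDiff Topology
open MeasureTheory Set Filter Vale.Agent.P204.Full.Potential

noncomputable section

namespace Vale.Agent.P204.Full.Split

universe u

variable {X : Type u} [TopologicalSpace X] [ChartedSpace R4 X] [IsManifold 𝓘(ℝ, R4) ∞ X]
  [MeasurableSpace X] {G : Geo X} {D : Pair G} {h : X → ℝ} {C d : ℝ} {i : Fin G.n}

lemma rr_bound (Q : Loc D h i C d) (k : ℝ) {Bd : ℝ} (hBd0 : 0 ≤ Bd)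
    (hBd : ∀ t, |deriv step t| ≤ Bd) (z : R4) : |Q.rr k z| ≤ Bd * Real.exp 1 := by
  rw [Loc.rr, abs_neg, abs_mul, abs_mul, Real.abs_exp, abs_of_nonneg (rc_mem i z).1]
  rcases eq_or_ne (deriv step (Q.tt k z)) 0 with h0 | h0
  · rw [h0, abs_zero, mul_zero, zero_mul]; positivity
  · have ht : Q.tt k z ≤ 2 := not_lt.1 fun h' => h0 (deriv_step_zero (Or.inr h'))
    calc rc G i z * |deriv step (Q.tt k z)| * Real.exp (Q.tt k z / 2)
        ≤ 1 * Bd * Real.exp 1 := by
          gcongr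
          · exact (rc_mem i z).2
          · exact hBd _
          · linarith
      _ = _ := by rw [one_mul]

lemma yy_bound (Q : Loc D h i C d) (k : ℝ) {a : X → Cov} {a0 : ℝ} {z : R4}
    (ha0 : ‖(view1 (G.c i) a z).comp (Jc G i z)‖ ≤ a0) : ‖Q.yy k a z‖ ≤ a0 := by
  rw [Loc.yy, norm_smul, Real.norm_eq_abs,
    abs_of_nonneg (mul_nonneg chi.nonneg (mid_mem _).1)]
  exact (mul_le_of_le_one_left (norm_nonneg _)
    (mul_le_one₀ chi.le_one (mid_mem _).1 (mid_mem _).2)).trans ha0

lemma ta_bound (Q : Loc D h i C d) {k : ℝ} (hk : 1 ≤ k) {z : R4} (hz : ‖z‖ ≤ 5 / 2)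
    (hU0 : 0 ≤ potU D i d z) :
    ‖Q.ta k z‖ ≤ Real.exp C * C * ((1 + potT D i d z + potU D i d z) / k) := by
  have hk0 : 0 < k := by linarith
  have hC0 : 0 ≤ C := by linarith [Q.one_le]
  rw [Loc.ta, norm_smul, Real.norm_eq_abs, Loc.xi, abs_div, abs_mul, abs_of_pos hk0,
    abs_of_nonneg chi.nonneg]
  have he : |Q.e2 k z| ≤ Real.exp C := by
    rw [Loc.e2, Real.abs_exp]
    refine Real.exp_le_exp.2 ?_
    rw [div_le_iff₀ (by positivity)]
    have h5 := Q.upper z hz
    have h6 : 0 ≤ C⁻¹ * potU D i d z := mul_nonneg (by positivity) hU0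
    have h7 : C * 1 ≤ C * k := mul_le_mul_of_nonneg_left hk hC0
    have h8 : 0 ≤ C * k := by positivity
    linarith
  calc chi z * |Q.e2 k z| / k * ‖fderiv ℝ Q.u z‖
      ≤ 1 * Real.exp C / k * (C * (1 + potT D i d z + potU D i d z)) := by
        gcongr
        · exact chi.le_one
        · exact Q.grad z hz
    _ = _ := by ring

lemma w_le (Q : Loc D h i C d) {k : ℝ} (hk : 0 < k) {z : R4} (hz : ‖z‖ ≤ 5 / 2)
    (hU0 : 0 ≤ potU D i d z) (hT0 : 0 ≤ potT D i d z) :
    chi z * step (Q.tt k z) ≤ C * ((1 + potT D i d z + potU D i d z) / k) := by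
  have hC0 : 0 ≤ C := by linarith [Q.one_le]
  refine (mul_le_of_le_one_left (step_mem _).1 chi.le_one).trans ?_
  rcases le_or_gt (Q.tt k z) 1 with ht | ht
  · rw [step_zero ht]
    exact mul_nonneg hC0 (div_nonneg (by linarith) hk.le)
  · refine (step_mem _).2.trans ?_
    rw [Loc.tt, ← neg_div, lt_div_iff₀ hk] at ht
    rw [← mul_div_assoc, le_div_iff₀ hk]
    have h5 := Q.lower z hz
    have h6 := mul_nonneg hC0 hT0
    linarith

variable [T2Space X] [CompactSpace X] [BorelSpace X]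

/-- The error of replacing the chart cut-off by the global one. -/
lemma err_est {f : X → ℝ} (hf : Continuous f) {s : Set X} (hs : MeasurableSet s) {β : R4 → Bil}
    (hβ : Fld β) {CB N b : ℝ} (hN0 : 0 ≤ N) (hb0 : 0 ≤ b)
    (hCB : ∀ θ, Cont2 θ → |D.P θ| ≤ CB * ∫ x, G.nrm2 θ x ∂D.mu)
    (hN : ∀ x, G.nrm2 (push2 (G.c i) β) x ≤ N * push0 G i (fun y => ‖β y‖) x)
    (hb : ∀ y, ‖β y‖ ≤ b) (hf1 : ∀ x, |f x| ≤ 1)
    (hoff : ∀ x, x ∉ s → f x = 0 ∨ push0 G i (fun y => ‖β y‖) x = 0) :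
    |D.P fun x => f x • push2 (G.c i) β x| ≤ |CB| * (N * b) * D.mu.real s := by
  have := D.finite_mu
  refine (hCB _ (Point.cont2_smul hf (hβ.cont2 G i))).trans ?_
  rw [mul_assoc |CB|]
  refine mul_le_mul (le_abs_self CB) ?_ (integral_nonneg fun x => Point.nrm2_nonneg G _ x)
    (abs_nonneg CB)
  refine (integral_mono_of_nonneg (Eventually.of_forall fun x => Point.nrm2_nonneg G _ x)
    ((integrable_const (N * b)).indicator hs) (Eventually.of_forall fun x => ?_)).trans_eq ?_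
  · show G.nrm2 (fun z => f z • push2 (G.c i) β z) x ≤ _
    rw [Final.nrm2_smul_fun _ _ x (base_facts G)]
    have hle : push0 G i (fun y => ‖β y‖) x ≤ b := by
      by_cases hx : x ∈ (G.c i).source
      · rw [push0_pos G i _ hx]; exact hb _
      · rw [push0_neg G i _ hx]; exact hb0
    by_cases hxs : x ∈ s
    · rw [indicator_of_mem hxs]
      exact (mul_le_of_le_one_left (Point.nrm2_nonneg G _ x) (hf1 x)).trans
        ((hN x).trans (mul_le_mul_of_nonneg_left hle hN0))
    · rw [indicator_of_notMem hxs]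
      rcases hoff x hxs with h0 | h0
      · rw [h0, abs_zero, zero_mul]
      · refine le_of_le_of_eq (mul_le_mul_of_nonneg_left (hN x) (abs_nonneg _)) ?_
        rw [h0, mul_zero, mul_zero]
  · rw [integral_indicator_const _ hs, smul_eq_mul, mul_comm]

omit [CompactSpace X] in
/-- The mass of the dual field of the cut-off. -/
lemma yy_mass (Q : Loc D h i C d) (k : ℝ) {s : Set X} (hs : MeasurableSet s) {a : X → Cov}
    (ha : Smooth1 a) {a0 : ℝ}
    (ha0 : ∀ y, ‖y‖ ≤ 5 / 2 → ‖(view1 (G.c i) a y).comp (Jc G i y)‖ ≤ a0)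
    (hoff : ∀ x, x ∉ s → x ∈ (G.c i).source → ‖G.c i x‖ ≤ 5 / 2 → mid (Q.tt k (G.c i x)) = 0) :
    ∫ z, ‖Q.yy k a z‖ ^ 2 ∂nuC i D.mu ≤ a0 ^ 2 * D.mu.real s := by
  have := D.finite_mu
  have hy5 : ∀ z, 5 / 2 < ‖z‖ → Q.yy k a z = 0 := fun z hz => by simp [Loc.yy, chi_zero hz]
  rw [integral_nuC i D.mu (g := fun z => ‖Q.yy k a z‖ ^ 2)
    ((Q.yy_cfld k ha).smooth.continuous.norm.pow 2)]
  refine (integral_mono_of_nonneg (Eventually.of_forall fun x => push0_nonneg G i
    (fun z => mul_nonneg cutB.nonneg (sq_nonneg _)) x)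
    ((integrable_const (a0 ^ 2)).indicator hs) (Eventually.of_forall fun x => ?_)).trans_eq ?_
  · show push0 G i _ x ≤ _
    by_cases hx : x ∈ (G.c i).source ∧ ‖G.c i x‖ ≤ 5 / 2
    · rw [push0_pos G i _ hx.1]
      by_cases hxs : x ∈ s
      · rw [indicator_of_mem hxs]
        exact (mul_le_of_le_one_left (sq_nonneg _) cutB.le_one).trans
          (pow_le_pow_left₀ (norm_nonneg _) (yy_bound Q k (ha0 _ hx.2)) 2)
      · rw [indicator_of_notMem hxs]
        simp [Loc.yy, hoff x hxs hx.1 hx.2]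
    · refine le_of_eq_of_le ?_ (indicator_nonneg (fun _ _ => sq_nonneg _) x)
      by_cases hxs : x ∈ (G.c i).source
      · rw [push0_pos G i _ hxs, hy5 _ (not_le.1 fun h' => hx ⟨hxs, h'⟩)]; simp
      · exact push0_neg G i _ hxs
  · rw [integral_indicator_const _ hs, smul_eq_mul, mul_comm]

/-- The gradient terms against the density of the partner. -/
lemma hloc_grad_le (hh : QData D h) (Q : Loc D h i C d) {k δ : ℝ} (hk : 1 ≤ k) (hδ : 0 < δ)
    (hlog1 : 1 ≤ logScale d) :
    ∫ z, hloc i h z * ((1 + potT D i d z + potU D i d z) / k) ≤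
      (C + 3 * (volume.real (Metric.ball (0 : R4) 4) + 2 * C)) *
        (δ + logScale d / k ^ 2 / δ) := by
  have := D.finite_mu
  have := isFinite_nuC (G := G) i D.mu
  have hd := Q.d_pos
  have hC0 : 0 ≤ C := by linarith [Q.one_le]
  set V : ℝ := volume.real (Metric.ball (0 : R4) 4) with hV
  set F : R4 → ℝ := fun z => (1 + potT D i d z + potU D i d z) / k with hF
  have hFc : Continuous F :=
    ((continuous_const.add (continuous_potM hd 3 _)).add (continuous_potM hd 2 _)).div_const k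
  have hsq : ∫ z in Metric.ball (0 : R4) 4, F z ^ 2 ≤ 3 * (V + 2 * C) * (logScale d / k ^ 2) := by
    have hi1 : IntegrableOn (fun _ => (1 : ℝ)) (Metric.ball (0 : R4) 4) :=
      integrableOn_const measure_ball_lt_top.ne
    have hi2 : ∀ {f : R4 → ℝ}, Continuous f → IntegrableOn f (Metric.ball (0 : R4) 4) :=
      fun hf => (hf.continuousOn.integrableOn_compact (isCompact_closedBall (0 : R4) 4)).mono_set
        Metric.ball_subset_closedBall
    have iT : IntegrableOn (fun z => potT D i d z ^ 2) (Metric.ball (0 : R4) 4) :=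
      hi2 ((continuous_potM hd 3 (nuC i D.mu)).pow 2)
    have iU : IntegrableOn (fun z => potU D i d z ^ 2) (Metric.ball (0 : R4) 4) :=
      hi2 ((continuous_potM hd 2 (nuC i D.mu)).pow 2)
    refine (setIntegral_mono_on (hi2 (hFc.pow 2))
      ((((hi1.add iT).add iU).const_mul 3).div_const (k ^ 2)) measurableSet_ball
      fun z _ => ?_).trans ?_
    · show F z ^ 2 ≤ 3 * (1 + potT D i d z ^ 2 + potU D i d z ^ 2) / k ^ 2
      rw [hF, div_pow]
      refine div_le_div_of_nonneg_right ?_ (by positivity)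
      nlinarith [sq_nonneg (1 - potT D i d z), sq_nonneg (1 - potU D i d z),
        sq_nonneg (potT D i d z - potU D i d z)]
    · simp only [Pi.add_apply]
      have i12 : IntegrableOn (fun z => (1 : ℝ) + potT D i d z ^ 2) (Metric.ball (0 : R4) 4) :=
        hi1.add iT
      rw [integral_div, integral_const_mul, integral_add i12 iU, integral_add hi1 iT,
        setIntegral_const, smul_eq_mul, mul_one, ← hV]
      rw [← mul_div_assoc]
      refine div_le_div_of_nonneg_right ?_ (by positivity)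
      have hV0 : 0 ≤ V := measureReal_nonneg
      have h1 := Q.int_T2
      have h2 := Q.int_U2
      have h3 : V ≤ V * logScale d := le_mul_of_one_le_right hV0 hlog1
      linarith
  have h1 := hloc_int_le hh i (hFc.div_const δ)
  have e1 : (fun z => hloc i h z * F z) = fun z => δ * (hloc i h z * (F z / δ)) :=
    funext fun z => by field_simp
  rw [e1, integral_const_mul]
  simp only [div_pow] at h1
  rw [integral_div] at h1
  refine (mul_le_mul_of_nonneg_left (h1.trans (add_le_add Q.int_h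
    (div_le_div_of_nonneg_right hsq (sq_nonneg δ)))) hδ.le).trans ?_
  rw [show δ * (C + 3 * (V + 2 * C) * (logScale d / k ^ 2) / δ ^ 2) =
    C * δ + 3 * (V + 2 * C) * (logScale d / k ^ 2 / δ) by field_simp]
  have hV0 : 0 ≤ V := measureReal_nonneg
  have p1 : 0 ≤ 3 * (V + 2 * C) * δ := by positivity
  have p2 : 0 ≤ C * (logScale d / k ^ 2 / δ) :=
    mul_nonneg hC0 (div_nonneg (div_nonneg (by linarith) (sq_nonneg k)) hδ.le)
  linarith

omit [CompactSpace X] [BorelSpace X] in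
lemma beta_fld (Q : Loc D h i C d) {k : ℝ} (hk : k ≠ 0) {a : X → Cov} (ha : Smooth1 a) :
    Fld fun y => d1At (Q.beta k a) y :=
  ⟨fun y => Base.isAlt_d1At _ _, contDiffOn_univ.1
    (Base.d1At_contDiffOn ((Q.beta_cfld k ha).smooth.fderiv_right (by simp)).contDiffOn),
    fun y hy => by
      rw [Q.d1At_beta k hk ha y, d1_za_zero i a (by linarith)]
      simp [wfld, Loc.rr, rc_in3 i y hy, wedgeCov]⟩

omit [CompactSpace X] [BorelSpace X] in
/-- The anti-invariant part of the differential of the cut-off form. -/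
lemma beta_pointwise (Q : Loc D h i C d) {k : ℝ} (hk : 1 ≤ k) {a : X → Cov} (ha : Smooth1 a)
    {L Bd z0 a0 : ℝ} (hL0 : 0 ≤ L) (hL : ∀ z, ‖z‖ ≤ 3 → ‖Jc G i z‖ ≤ L) (hBd0 : 0 ≤ Bd)
    (hBd : ∀ t, |deriv step t| ≤ Bd) (hz00 : 0 ≤ z0) (ha00 : 0 ≤ a0)
    (hz0 : ∀ y, ‖d1At (za i a) y‖ ≤ z0)
    (ha0 : ∀ y, ‖y‖ ≤ 5 / 2 → ‖(view1 (G.c i) a y).comp (Jc G i y)‖ ≤ a0) (z : R4) :
    ‖anti20 (Jc G i z) (d1At (Q.beta k a) z)‖ ≤
      ((1 + L ^ 2) * z0 * C +
        (1 + L ^ 2) * (2 * L) * (Bd * Real.exp 1) * (Real.exp C * C) * a0) *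
        ((1 + potT D i d z + potU D i d z) / k) := by
  have := D.finite_mu
  have hk0 : 0 < k := by linarith
  have hd := Q.d_pos
  have hC0 : 0 ≤ C := by linarith [Q.one_le]
  have hU0 : 0 ≤ potU D i d z := potM_nonneg hd 2 _ z
  have hT0 : 0 ≤ potT D i d z := potM_nonneg hd 3 _ z
  set F := (1 + potT D i d z + potU D i d z) / k with hF
  have hFz : 0 ≤ F := div_nonneg (by linarith) hk0.le
  rw [Q.d1At_beta k hk0.ne' ha z]
  rcases lt_or_ge 2 ‖z‖ with hz | hz
  · rw [d1_za_zero i a hz]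
    simp [wfld, Loc.rr, rc_zero i hz, wedgeCov, anti20, pullBil_zero]
    positivity
  have hz3 : ‖z‖ ≤ 3 := by linarith
  have hz5 : ‖z‖ ≤ 5 / 2 := by linarith
  have hJ := hL z hz3
  rw [anti20_add, anti20_smul, add_mul]
  refine (norm_add_le _ _).trans (add_le_add ?_ ?_)
  · rw [norm_smul, Real.norm_eq_abs, Loc.w,
      abs_of_nonneg (mul_nonneg chi.nonneg (step_mem _).1)]
    have h1 : ‖anti20 (Jc G i z) (d1At (za i a) z)‖ ≤ (1 + L ^ 2) * z0 :=
      (norm_anti20_le _ _).trans (mul_le_mul (by gcongr) (hz0 z) (norm_nonneg _) (by positivity))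
    calc chi z * step (Q.tt k z) * ‖anti20 (Jc G i z) (d1At (za i a) z)‖
        ≤ C * F * ((1 + L ^ 2) * z0) :=
          mul_le_mul (w_le Q hk0 hz5 hU0 hT0) h1 (norm_nonneg _) (mul_nonneg hC0 hFz)
      _ = _ := by ring
  · refine (norm_anti_wfld_le i _ _ z).trans ?_
    have h1 := rr_bound Q k hBd0 hBd z
    have h2 := ta_bound Q hk hz5 hU0
    have h3 := yy_bound Q k (ha0 z hz5)
    rw [norm_smul, Real.norm_eq_abs]
    calc (1 + ‖Jc G i z‖ ^ 2) * (2 * ‖Jc G i z‖) * (|Q.rr k z| * ‖Q.ta k z‖ * ‖Q.yy k a z‖)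
        ≤ (1 + L ^ 2) * (2 * L) * (Bd * Real.exp 1 * (Real.exp C * C * F) * a0) := by
          gcongr
      _ = _ := by ring

omit [CompactSpace X] [BorelSpace X] in
/-- The splitting of the differential of the cut-off form. -/
lemma cut_identity (Q : Loc D h i C d) {k : ℝ} (hk : k ≠ 0) {a : X → Cov} (ha : Smooth1 a)
    (W : X → ℝ) :
    (D.P fun x => (push0 G i (Q.w k) x - W x) • push2 (G.c i) (fun y => d1At (za i a) y) x) +
      (D.P fun x => W x • push2 (G.c i) (fun y => d1At (za i a) y) x) +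
      PW D.toPosCur i (fun z => Q.rr k z • Q.ta k z) (Q.yy k a) +
      D.Q (G.p20 (push2 (G.c i) fun y => d1At (Q.beta k a) y)) = 0 := by
  obtain ⟨hs, he⟩ := extD1_push1 i (Q.beta_cfld k ha).smooth (Q.beta_cfld k ha).supp
  have h0 := psi_closed D (Base.exact_closed hs)
  rw [he, psi_apply] at h0
  have e : push2 (G.c i) (fun y => d1At (Q.beta k a) y) =
      ((fun x => (push0 G i (Q.w k) x - W x) • push2 (G.c i) (fun y => d1At (za i a) y) x) +
          fun x => W x • push2 (G.c i) (fun y => d1At (za i a) y) x) +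
        push2 (G.c i) (wfld i (fun z => Q.rr k z • Q.ta k z) (Q.yy k a)) := by
    rw [show (fun y => d1At (Q.beta k a) y) =
        (fun y => Q.w k y • d1At (za i a) y) + wfld i (fun z => Q.rr k z • Q.ta k z) (Q.yy k a) from
      funext fun y => Q.d1At_beta k hk ha y, ← pushL_apply, map_add, pushL_apply, pushL_apply]
    congr 1
    funext x
    rw [push2_fun, Pi.add_apply, ← add_smul, sub_add_cancel]
  rw [e, map_add, map_add] at h0
  simp only [PW]
  rw [e]
  linarith

end Vale.Agent.P204.Full.Split
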