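import Vale.Agent.P204.Full.Split.TestMain
import Mathlib.Analysis.SpecialFunctions.SmoothTransition

/-!
# P204 Split: the cut-off of a chart
-/

open scoped Manifold ContDiff Topology
open MeasureTheory Set Filter Vale.Agent.P204.Full.Potential

noncomputable section

namespace Vale.Agent.P204.Full.Split

universe u

/-- The profile of the cut-off: zero below one, one above two. -/
def step (t : ℝ) : ℝ := Real.smoothTransition (t - 1)

/-- Equal to one on `[1, 2]`, zero outside `(1/2, 3)`. -/
def mid (t : ℝ) : ℝ := Real.smoothTransition (2 * t - 1) * Real.smoothTransition (3 - t)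

lemma step_cd : ContDiff ℝ ∞ step :=
  Real.smoothTransition.contDiff.comp (contDiff_id.sub contDiff_const)

lemma mid_cd : ContDiff ℝ ∞ mid :=
  (Real.smoothTransition.contDiff.comp ((contDiff_const.mul contDiff_id).sub contDiff_const)).mul
    (Real.smoothTransition.contDiff.comp (contDiff_const.sub contDiff_id))

lemma step_zero {t : ℝ} (h : t ≤ 1) : step t = 0 :=
  Real.smoothTransition.zero_of_nonpos (by linarith)

lemma step_one {t : ℝ} (h : 2 ≤ t) : step t = 1 :=
  Real.smoothTransition.one_of_one_le (by linarith)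

lemma step_mem (t : ℝ) : 0 ≤ step t ∧ step t ≤ 1 :=
  ⟨Real.smoothTransition.nonneg _, Real.smoothTransition.le_one _⟩

lemma mid_one {t : ℝ} (h1 : 1 ≤ t) (h2 : t ≤ 2) : mid t = 1 := by
  rw [mid, Real.smoothTransition.one_of_one_le (by linarith),
    Real.smoothTransition.one_of_one_le (by linarith), one_mul]

lemma mid_zero {t : ℝ} (h : t ≤ 1 / 2 ∨ 3 ≤ t) : mid t = 0 := by
  rcases h with h | h
  · rw [mid, Real.smoothTransition.zero_of_nonpos (by linarith), zero_mul]
  · rw [mid, Real.smoothTransition.zero_of_nonpos (x := 3 - t) (by linarith), mul_zero]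

lemma mid_mem (t : ℝ) : 0 ≤ mid t ∧ mid t ≤ 1 :=
  ⟨mul_nonneg (Real.smoothTransition.nonneg _) (Real.smoothTransition.nonneg _),
    mul_le_one₀ (Real.smoothTransition.le_one _) (Real.smoothTransition.nonneg _)
      (Real.smoothTransition.le_one _)⟩

lemma deriv_step_zero {t : ℝ} (h : t < 1 ∨ 2 < t) : deriv step t = 0 := by
  rcases h with h | h
  · rw [Filter.EventuallyEq.deriv_eq (f := fun _ => (0 : ℝ))
      (eventually_of_mem (Iio_mem_nhds h) fun s hs => step_zero (le_of_lt hs))]
    exact deriv_const t 0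
  · rw [Filter.EventuallyEq.deriv_eq (f := fun _ => (1 : ℝ))
      (eventually_of_mem (Ioi_mem_nhds h) fun s hs => step_one (le_of_lt hs))]
    exact deriv_const t 1

lemma deriv_step_cd : ContDiff ℝ ∞ (deriv step) := (contDiff_infty_iff_deriv.1 step_cd).2

lemma deriv_step_bound : ∃ B : ℝ, 0 ≤ B ∧ ∀ t, |deriv step t| ≤ B := by
  obtain ⟨B, hB⟩ := (isCompact_Icc (a := (1 : ℝ)) (b := 2)).exists_bound_of_continuousOn
    deriv_step_cd.continuous.continuousOn
  refine ⟨max B 0, le_max_right _ _, fun t => ?_⟩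
  by_cases h : t ∈ Icc (1 : ℝ) 2
  · exact (hB t h).trans (le_max_left _ _)
  · rw [deriv_step_zero ?_, abs_zero]
    · exact le_max_right _ _
    · rw [mem_Icc, not_and_or, not_le, not_le] at h
      exact h

/-- The bump equal to one on the ball of radius three, vanishing outside radius `7/2`. -/
def outer : ContDiffBump (0 : R4) := ⟨3, 7 / 2, by norm_num, by norm_num⟩

variable {X : Type u} [TopologicalSpace X] [ChartedSpace R4 X] [IsManifold 𝓘(ℝ, R4) ∞ X]

variable (G : Geo X) (i : Fin G.n) in
/-- The partition function of a chart, read in that chart. -/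
def rc (y : R4) : ℝ := kappaBump y * G.rho i ((G.c i).symm y)

section Rho

variable [T2Space X] {G : Geo X} (i : Fin G.n)

omit [T2Space X] in
lemma rc_zero {y : R4} (hy : 2 < ‖y‖) : rc G i y = 0 := by
  by_cases hyt : y ∈ (G.c i).target
  · have h0 : G.rho i ((G.c i).symm y) = 0 := by
      by_contra hne
      have := (Base.rho_supp G i _ hne).2
      rw [(G.c i).right_inv hyt] at this
      linarith
    rw [rc, h0, mul_zero]
  · rw [rc, Base.kappa_zero (fun h => hyt (ball3_target G i (mem_closedBall_zero_iff.1 h))), zero_mul]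

lemma rc_cd : ContDiff ℝ ∞ (rc G i) :=
  Base.cd_extend (G.c i).open_target
    (kappaBump.contDiff.contDiffOn.mul (Base.contDiffOn_fun (Base.rho_smooth G i) (G.c_mem i)))
    Metric.isClosed_closedBall (Base.closedBall_subset_target G i (r := 3) (by norm_num))
    fun y hy => rc_zero i (by rw [mem_closedBall_zero_iff, not_le] at hy; linarith)

omit [T2Space X] in
lemma rc_in3 : In3 (rc G i) := fun _ hy => rc_zero i (by linarith)

omit [T2Space X] in
lemma rc_mem (y : R4) : 0 ≤ rc G i y ∧ rc G i y ≤ 1 := by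
  refine ⟨mul_nonneg kappaBump.nonneg (Base.rho_nonneg G i _),
    mul_le_one₀ kappaBump.le_one (Base.rho_nonneg G i _) ?_⟩
  rw [← Base.rho_sum G ((G.c i).symm y)]
  exact Finset.single_le_sum (fun k _ => Base.rho_nonneg G k _) (Finset.mem_univ i)

omit [T2Space X] in
lemma push0_rc (x : X) : push0 G i (rc G i) x = G.rho i x := by
  by_cases hx : x ∈ (G.c i).source
  · rw [push0_pos G i _ hx, rc, (G.c i).left_inv hx]
    rcases eq_or_ne (G.rho i x) 0 with h | h
    · simp [h]
    · rw [Base.kappa_one (mem_closedBall_zero_iff.2 (Base.rho_supp G i x h).2.le), one_mul]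
  · rw [push0_neg G i _ hx]
    by_contra h
    exact hx (Base.rho_supp G i x (Ne.symm h)).1

/-- A one-form cut by the partition, in a chart. -/
def za (i : Fin G.n) (a : X → Cov) (y : R4) : Cov := rc G i y • view1 (G.c i) a y

lemma za_cfld {a : X → Cov} (ha : Smooth1 a) : CFld (za i a) := by
  refine ⟨?_, fun y hy => by simp [za, rc_in3 i y hy]⟩
  exact Base.cd_extend (E := Cov) (G.c i).open_target
    (Base.cdOn_smul (E := Cov) (rc_cd i).contDiffOn (Base.smooth_view1 ha (G.c_mem i)))
    Metric.isClosed_closedBall (Base.closedBall_subset_target G i (r := 3) (by norm_num))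
    fun y hy => by simp [za, rc_in3 i y (not_le.1 fun h => hy (mem_closedBall_zero_iff.2 h))]

omit [T2Space X] in
lemma push1_za (a : X → Cov) : push1 (G.c i) (za i a) = fun x => G.rho i x • a x := by
  funext x
  by_cases hx : x ∈ (G.c i).source
  · rw [Base.push1_pos _ hx, za, ← push0_pos G i (rc G i) hx, push0_rc, view1]
    show (G.rho i x • pullCov (dsymm (G.c i) (G.c i x)) (a ((G.c i).symm (G.c i x)))).comp _ = _
    rw [ContinuousLinearMap.smul_comp]
    congr 1
    show pullCov (Base.dchart (G.c i) x) (pullCov _ _) = _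
    rw [← Base.pullCov_comp, Base.dsymm_comp_dchart (G.c_mem i) hx, (G.c i).left_inv hx,
      Base.pullCov_id]
  · have h : G.rho i x = 0 := by
      by_contra h
      exact hx (Base.rho_supp G i x h).1
    rw [push1, if_neg hx, h, zero_smul]

omit [T2Space X] in
lemma d1_za_zero (a : X → Cov) {y : R4} (hy : 2 < ‖y‖) : d1At (za i a) y = 0 := by
  refine Base.d1At_zero_of_eventually (eventually_of_mem
    ((Metric.isClosed_closedBall (x := (0 : R4)) (ε := 2)).isOpen_compl.mem_nhds
      fun hm => absurd (mem_closedBall_zero_iff.1 hm) (not_le.2 hy)) fun w hw => ?_)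
  simp [za, rc_zero i (not_le.1 fun h' => hw (mem_closedBall_zero_iff.2 h'))]

end Rho

variable [MeasurableSpace X] {G : Geo X} {D : Pair G} {h : X → ℝ} {i : Fin G.n} {C d : ℝ}

namespace Loc

variable (Q : Loc D h i C d) (k : ℝ)

/-- The cut-off variable. -/
def tt (y : R4) : ℝ := -(Q.u y / k)

/-- The cut-off of the chart. -/
def w (y : R4) : ℝ := chi y * step (Q.tt k y)

/-- The cut-off of the chart times the partition function. -/
def rw' (y : R4) : ℝ := rc G i y * step (Q.tt k y)

/-- The coefficient of the derivative of the cut-off against the test field. -/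
def rr (y : R4) : ℝ := -(rc G i y * deriv step (Q.tt k y) * Real.exp (Q.tt k y / 2))

/-- The dual of the derivative of the cut-off. -/
def yy (a : X → Cov) (y : R4) : Cov :=
  (chi y * mid (Q.tt k y)) • (view1 (G.c i) a y).comp (Jc G i y)

/-- The one-form of the cut-off. -/
def beta (a : X → Cov) (y : R4) : Cov := step (Q.tt k y) • za i a y

variable [T2Space X]

omit [T2Space X] in
lemma tt_cd : ContDiffOn ℝ ∞ (Q.tt k) (Metric.ball 0 (21 / 8)) := (Q.u_smooth.div_const k).neg

omit [T2Space X] in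
lemma w_cd : ContDiff ℝ ∞ (Q.w k) :=
  smooth_extend52 (chi.contDiff.contDiffOn.mul (step_cd.comp_contDiffOn (Q.tt_cd k)))
    fun y hy => by simp [w, chi_zero hy]

lemma rw'_cd : ContDiff ℝ ∞ (Q.rw' k) :=
  smooth_extend52 ((rc_cd i).contDiffOn.mul (step_cd.comp_contDiffOn (Q.tt_cd k)))
    fun y hy => by simp [rw', rc_zero i (show 2 < ‖y‖ by linarith)]

lemma rr_cd : ContDiff ℝ ∞ (Q.rr k) :=
  smooth_extend52 (((rc_cd i).contDiffOn.mul (deriv_step_cd.comp_contDiffOn (Q.tt_cd k))).mul
    ((Q.tt_cd k).div_const 2).exp).neg fun y hy => by simp [rr, rc_zero i (show 2 < ‖y‖ by linarith)]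

omit [T2Space X] in
lemma yy_cfld {a : X → Cov} (ha : Smooth1 a) : CFld (Q.yy k a) := by
  have hsub : Metric.ball (0 : R4) (21 / 8) ⊆ (G.c i).target := fun z hz =>
    ball3_target G i (by rw [mem_ball_zero_iff] at hz; linarith)
  refine ⟨smooth_extend52 ((chi.contDiff.contDiffOn.mul (mid_cd.comp_contDiffOn (Q.tt_cd k))).smul
    (((Base.smooth_view1 ha (G.c_mem i)).mono hsub).clm_comp jc_cd)) fun y hy => ?_, fun y hy => ?_⟩
  · simp [yy, chi_zero hy]
  · simp [yy, chi_zero (show 5 / 2 < ‖y‖ by linarith)]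

lemma beta_cfld {a : X → Cov} (ha : Smooth1 a) : CFld (Q.beta k a) := by
  refine ⟨smooth_extend52 ((step_cd.comp_contDiffOn (Q.tt_cd k)).smul
    (za_cfld i ha).smooth.contDiffOn) fun y hy => ?_, fun y hy => ?_⟩
  · simp [beta, za, rc_zero i (show 2 < ‖y‖ by linarith)]
  · simp [beta, za, rc_zero i (show 2 < ‖y‖ by linarith)]

/-- The differential of the cut-off one-form. -/
lemma d1At_beta (hk : k ≠ 0) {a : X → Cov} (ha : Smooth1 a) (y : R4) :
    d1At (Q.beta k a) y = Q.w k y • d1At (za i a) y +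
      wfld i (fun z => Q.rr k z • Q.ta k z) (Q.yy k a) y := by
  by_cases hy2 : 2 < ‖y‖
  · have hev : Q.beta k a =ᶠ[𝓝 y] fun _ => 0 := eventually_of_mem
      ((Metric.isClosed_closedBall (x := (0 : R4)) (ε := 2)).isOpen_compl.mem_nhds
        fun hm => absurd (mem_closedBall_zero_iff.1 hm) (not_le.2 hy2)) fun w hw => by
      simp [beta, za, rc_zero i (not_le.1 fun h' => hw (mem_closedBall_zero_iff.2 h'))]
    rw [Base.d1At_zero_of_eventually hev, d1_za_zero i a hy2]
    simp [wfld, rr, rc_zero i hy2, wedgeCov]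
  have hy : ‖y‖ ≤ 2 := not_lt.1 hy2
  have hb : y ∈ Metric.ball (0 : R4) (21 / 8) := by rw [mem_ball_zero_iff]; linarith
  have hnh := Metric.isOpen_ball.mem_nhds hb
  have hJ : ∀ v, Jc G i y (Jc G i y v) = -v := fun v =>
    Bridge.viewJ_sq G.J_acs (G.c_mem i) (ball3_target G i (by linarith)) v
  have hu := (Q.u_smooth.contDiffAt hnh).differentiableAt (by simp)
  have hz := ((za_cfld i ha).smooth.differentiable (by simp)) y
  have ht : HasFDerivAt (Q.tt k) (-(k⁻¹ • fderiv ℝ Q.u y)) y :=
    (hu.hasFDerivAt.const_smul k⁻¹).neg.congr_of_eventuallyEq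
      (Eventually.of_forall fun w => by simp [tt, div_eq_inv_mul])
  have hs : HasFDerivAt (fun z => step (Q.tt k z))
      (deriv step (Q.tt k y) • -(k⁻¹ • fderiv ℝ Q.u y)) y :=
    ((step_cd.differentiable (by simp)) (Q.tt k y)).hasDerivAt.comp_hasFDerivAt y ht
  have hd : d1At (Q.beta k a) y =
      wedgeCov (deriv step (Q.tt k y) • -(k⁻¹ • fderiv ℝ Q.u y)) (za i a y) +
        step (Q.tt k y) • d1At (za i a) y := by
    have h2 := hs.smul hz.hasFDerivAt
    rw [d1At, show fderiv ℝ (Q.beta k a) y = _ from h2.fderiv]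
    ext s t
    simp [d1At, Base.wedgeCov_apply]
    ring
  have hchi : chi y = 1 := chi.one_of_mem_closedBall (mem_closedBall_zero_iff.2 hy)
  rw [hd, add_comm, w, hchi, one_mul]
  congr 1
  rcases eq_or_ne (deriv step (Q.tt k y)) 0 with h0 | h0
  · simp [wfld, rr, h0, wedgeCov]
  have hmid : mid (Q.tt k y) = 1 := mid_one (not_lt.1 fun h' => h0 (deriv_step_zero (Or.inl h')))
    (not_lt.1 fun h' => h0 (deriv_step_zero (Or.inr h')))
  have he : Real.exp (Q.tt k y / 2) * Q.e2 k y = 1 := by
    rw [e2, tt, ← Real.exp_add, ← Real.exp_zero]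
    congr 1
    field_simp
    ring
  have hcoef : Q.rr k y * Q.xi k y = -(rc G i y * deriv step (Q.tt k y) * k⁻¹) := by
    rw [rr, xi, hchi, one_mul]
    calc -(rc G i y * deriv step (Q.tt k y) * Real.exp (Q.tt k y / 2)) * (Q.e2 k y / k)
        = -(rc G i y * deriv step (Q.tt k y) * k⁻¹) * (Real.exp (Q.tt k y / 2) * Q.e2 k y) := by
          ring
      _ = _ := by rw [he, mul_one]
  ext s t
  simp only [wfld, yy, ta, za, hchi, hmid, mul_one, one_smul, Base.wedgeCov_apply, smul_apply,
    neg_apply, ContinuousLinearMap.comp_apply, smul_eq_mul, map_neg, hJ, ← mul_assoc, hcoef]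
  ring

end Loc

end Vale.Agent.P204.Full.Split
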