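import Vale.Agent.P204.Full.Split.Push
import Vale.Agent.P204.Full.Potential.Spec

/-!
# P204 Split: the two functionals and the local source in a chart
-/

open scoped Manifold ContDiff Topology
open MeasureTheory Set Filter

noncomputable section

namespace Vale.Agent.P204.Full.Split

universe u

variable {X : Type u} [TopologicalSpace X] [ChartedSpace R4 X] [IsManifold 𝓘(ℝ, R4) ∞ X]
  [MeasurableSpace X] {G : Geo X}

/-- A representative of the density dominating the partner. -/
structure QData (D : Pair G) (h : X → ℝ) : Prop where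
  meas : Measurable h
  nonneg : ∀ x, 0 ≤ h x
  memLp : MemLp h 2 G.vol
  bound : ∀ b, Smooth2 b → G.Anti b → |D.Q b| ≤ ∫ x, h x * G.nrm2 b x ∂G.vol

lemma exists_qdata {D : Pair G} (hQ : QSquareIntegrable D) : ∃ h, QData D h := by
  obtain ⟨h, h0, hL, hb⟩ := hQ
  obtain ⟨g, hg, hhg⟩ := hL.1.aemeasurable
  have hae : h =ᵐ[G.vol] fun x => max (g x) 0 := by
    filter_upwards [hhg] with x hx
    rw [← hx, max_eq_left (h0 x)]
  refine ⟨fun x => max (g x) 0, hg.max measurable_const, fun x => le_max_right _ _,
    hL.ae_eq hae, fun b hb1 hb2 => (hb b hb1 hb2).trans_eq (integral_congr_ae ?_)⟩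
  filter_upwards [hae] with x hx
  rw [hx]

/-- The cut-off of the sources: one on the ball of radius `23/8`, zero outside radius three. -/
def cutB : ContDiffBump (0 : R4) := ⟨23 / 8, 3, by norm_num, by norm_num⟩

lemma cut_smooth : ContDiff ℝ ∞ cutB := cutB.contDiff

lemma cut_in3 : In3 (cutB : R4 → ℝ) := fun y hy => cutB.zero_of_le_dist (by
  rw [dist_zero_right]; exact hy.le)

lemma cut_one {y : R4} (hy : ‖y‖ ≤ 23 / 8) : cutB y = 1 :=
  cutB.one_of_mem_closedBall (mem_closedBall_zero_iff.2 hy)

/-- The combined functional, killing closed fields. -/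
def psi (D : Pair G) : (X → Bil) →ₗ[ℝ] ℝ := D.P + D.Q.comp G.p20L

lemma psi_closed (D : Pair G) {θ : X → Bil} (h : Closed2 θ) : psi D θ = 0 := D.kills θ h

lemma psi_apply (D : Pair G) (θ : X → Bil) : psi D θ = D.P θ + D.Q (G.p20 θ) := rfl

/-- The density read in a chart. -/
def hloc (i : Fin G.n) (h : X → ℝ) : R4 → ℝ :=
  (Metric.closedBall 0 3).indicator fun y => h ((G.c i).symm y)

variable [T2Space X] [CompactSpace X] [BorelSpace X]

omit [T2Space X] [CompactSpace X] in
lemma measurable_hloc (i : Fin G.n) {h : X → ℝ} (hm : Measurable h) :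
    Measurable (hloc i h) := by
  refine measurable_of_restrict_of_restrict_compl (s := Metric.closedBall (0 : R4) 3)
    measurableSet_closedBall ?_ ?_
  · have hc : Continuous ((Metric.closedBall (0 : R4) 3).domRestrict (G.c i).symm) :=
      continuousOn_iff_continuous_domRestrict.1 ((G.c i).continuousOn_symm.mono
        fun y hy => ball3_target G i (mem_closedBall_zero_iff.1 hy))
    convert hm.comp hc.measurable using 1
    funext y
    show hloc i h (y : R4) = _
    rw [hloc, indicator_of_mem y.2]
    rfl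
  · convert measurable_const (a := (0 : ℝ)) using 1
    funext y
    show hloc i h (y : R4) = _
    rw [hloc, indicator_of_notMem y.2]

omit [MeasurableSpace X] [T2Space X] [CompactSpace X] [BorelSpace X] in
lemma hloc_nonneg (i : Fin G.n) {h : X → ℝ} (h0 : ∀ x, 0 ≤ h x) (y : R4) : 0 ≤ hloc i h y :=
  indicator_nonneg (fun _ _ => h0 _) y

omit [MeasurableSpace X] [T2Space X] [CompactSpace X] [BorelSpace X] in
lemma hloc_zero (i : Fin G.n) (h : X → ℝ) {y : R4} (hy : 3 < ‖y‖) : hloc i h y = 0 :=
  indicator_of_notMem (fun h' => by rw [mem_closedBall_zero_iff] at h'; linarith) _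

omit [MeasurableSpace X] [T2Space X] [CompactSpace X] [BorelSpace X] in
lemma hloc_in3 (i : Fin G.n) (h : X → ℝ) : In3 (hloc i h) := fun _ hy => hloc_zero i h hy

omit [CompactSpace X] in
lemma hloc_memLp (i : Fin G.n) {h : X → ℝ} (hm : Measurable h) (hL : MemLp h 2 G.vol) :
    MemLp (hloc i h) 2 volume := by
  rw [memLp_two_iff_integrable_sq (measurable_hloc i hm).aestronglyMeasurable]
  have hK := (Base.isClosed_K G i (show (3 : ℝ) < 4 by norm_num)).measurableSet
  have hF : Integrable ((Base.K G i 3).indicator fun x => h x ^ 2) G.vol :=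
    hL.integrable_sq.indicator hK
  obtain ⟨hint, -⟩ := Base.vol_chart G i hF fun x hx =>
    ((Base.mem_K G (by norm_num)).1 (mem_of_indicator_ne_zero hx)).1
  obtain ⟨m, M, hm0, -, hb⟩ := Base.D_bounds G
  have hsupp : ∀ y, y ∉ (G.c i).target → hloc i h y ^ 2 = 0 := fun y hy => by
    rw [hloc_zero i h (not_le.1 fun h3 => hy (ball3_target G i h3))]
    norm_num
  rw [← integrableOn_iff_integrable_of_support_subset (s := (G.c i).target)
    (fun y hy => by by_contra hn; exact hy (hsupp y hn))]
  refine Integrable.mono' (hint.const_mul m⁻¹)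
    ((measurable_hloc i hm).pow_const 2).aestronglyMeasurable ?_
  filter_upwards [ae_restrict_mem (G.c i).open_target.measurableSet] with y hy
  rw [Real.norm_eq_abs, abs_of_nonneg (sq_nonneg _)]
  by_cases hn : y ∈ Metric.closedBall (0 : R4) 3
  · have hK3 : (G.c i).symm y ∈ Base.K G i 3 := ⟨y, hn, rfl⟩
    rw [hloc, indicator_of_mem hn, indicator_of_mem hK3]
    have hD := (hb i y (Metric.closedBall_subset_closedBall (by norm_num) hn)).1
    calc h ((G.c i).symm y) ^ 2 = m⁻¹ * (h ((G.c i).symm y) ^ 2 * m) := by field_simp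
      _ ≤ m⁻¹ * (h ((G.c i).symm y) ^ 2 * Base.D G i y) := by gcongr
  · rw [hloc, indicator_of_notMem hn]
    have hD := Base.D_pos G hy
    have h1 : 0 ≤ (Base.K G i 3).indicator (fun x => h x ^ 2) ((G.c i).symm y) :=
      indicator_nonneg (fun _ _ => sq_nonneg _) _
    simp only [ne_eq, OfNat.ofNat_ne_zero, not_false_eq_true, zero_pow]
    positivity

omit [CompactSpace X] in
lemma integrable_hloc (i : Fin G.n) {h : X → ℝ} (hm : Measurable h) (hL : MemLp h 2 G.vol) :
    Integrable (hloc i h) := by
  rw [← integrableOn_iff_integrable_of_support_subset (s := Metric.closedBall (0 : R4) 3)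
    (fun y hy => by
      by_contra hn
      exact hy (hloc_zero i h (not_le.1 fun h3 => hn (mem_closedBall_zero_iff.2 h3))))]
  have : IsFiniteMeasure (volume.restrict (Metric.closedBall (0 : R4) 3)) :=
    ⟨by rw [Measure.restrict_apply_univ]; exact measure_closedBall_lt_top⟩
  exact ((hloc_memLp i hm hL).restrict _).integrable one_le_two

omit [CompactSpace X] in
lemma integrable_hloc_mul (i : Fin G.n) {h : X → ℝ} (hm : Measurable h) (hL : MemLp h 2 G.vol)
    {g : R4 → ℝ} (hg : Continuous g) (h3 : In3 g) :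
    Integrable fun y => hloc i h y * g y := by
  obtain ⟨C, hC⟩ := hg.bounded_above_of_compact_support h3.hcs
  exact (integrable_hloc i hm hL).mul_bdd hg.aestronglyMeasurable
    (Eventually.of_forall hC)

omit [CompactSpace X] in
lemma integrable_hloc_cont (i : Fin G.n) {h : X → ℝ} (hm : Measurable h) (hL : MemLp h 2 G.vol)
    {g : R4 → ℝ} (hg : Continuous g) : Integrable fun y => hloc i h y * g y := by
  let w : ContDiffBump (0 : R4) := ⟨3, 7 / 2, by norm_num, by norm_num⟩
  have hwg : Continuous fun y => w y * g y := w.continuous.mul hg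
  obtain ⟨C, hC⟩ := hwg.bounded_above_of_compact_support w.hasCompactSupport.mul_right
  refine ((integrable_hloc i hm hL).mul_bdd hwg.aestronglyMeasurable
    (Eventually.of_forall hC)).congr (Eventually.of_forall fun y => ?_)
  rcases le_or_gt ‖y‖ 3 with hy | hy
  · show hloc i h y * (w y * g y) = hloc i h y * g y
    rw [w.one_of_mem_closedBall (mem_closedBall_zero_iff.2 hy), one_mul]
  · simp [hloc_zero i h hy]

omit [T2Space X] [CompactSpace X] [BorelSpace X] [MeasurableSpace X] in
lemma continuous_extend {E : Type*} [TopologicalSpace E] [Zero E] (i : Fin G.n) {f : R4 → E}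
    (hf : ContinuousOn f (G.c i).target) (h3 : In3 f) : Continuous f := by
  refine continuous_iff_continuousAt.2 fun y => ?_
  by_cases hy : y ∈ (G.c i).target
  · exact hf.continuousAt ((G.c i).open_target.mem_nhds hy)
  · have hn : y ∉ Metric.closedBall (0 : R4) 3 := fun h' =>
      hy (ball3_target G i (mem_closedBall_zero_iff.1 h'))
    exact (continuousAt_const (y := (0 : E))).congr (eventually_of_mem
      (Metric.isClosed_closedBall.isOpen_compl.mem_nhds hn) fun z hz =>
        (h3 z (not_le.1 fun h' => hz (mem_closedBall_zero_iff.2 h'))).symm)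

omit [MeasurableSpace X] [BorelSpace X] [CompactSpace X] [T2Space X] in
lemma Fld.anti {β : R4 → Bil} (hβ : Fld β) (i : Fin G.n) :
    Continuous (fun y => anti20 (Jc G i y) (β y)) ∧ In3 fun y => anti20 (Jc G i y) (β y) := by
  have h3 : In3 fun y => anti20 (Jc G i y) (β y) := fun y hy => by
    simp [hβ.supp y hy, anti20, pullBil_zero]
  refine ⟨continuous_extend i ?_ h3, h3⟩
  have hb : ContinuousOn β (G.c i).target := hβ.smooth.continuous.continuousOn
  exact (hb.sub (Point.continuousOn_pullBil
    (Base.smooth_viewJ G.J_acs (G.c_mem i)).continuousOn hb)).const_smul (2⁻¹ : ℝ)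

omit [MeasurableSpace X] [BorelSpace X] [CompactSpace X] [T2Space X] in
lemma Fld.inv {β : R4 → Bil} (hβ : Fld β) (i : Fin G.n) :
    Continuous (fun y => inv11 (Jc G i y) (β y)) ∧ In3 fun y => inv11 (Jc G i y) (β y) := by
  have h3 : In3 fun y => inv11 (Jc G i y) (β y) := fun y hy => by
    simp [hβ.supp y hy, inv11, pullBil_zero]
  refine ⟨continuous_extend i ?_ h3, h3⟩
  have hb : ContinuousOn β (G.c i).target := hβ.smooth.continuous.continuousOn
  exact (hb.add (Point.continuousOn_pullBil
    (Base.smooth_viewJ G.J_acs (G.c_mem i)).continuousOn hb)).const_smul (2⁻¹ : ℝ)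

/-- The partner on chart fields. -/
lemma Q_bound : ∃ C : ℝ, 0 ≤ C ∧ ∀ (D : Pair G) (h : X → ℝ), QData D h →
    ∀ (i : Fin G.n) (β : R4 → Bil), Fld β →
      |D.Q (G.p20 (push2 (G.c i) β))| ≤ C * ∫ y, hloc i h y * ‖anti20 (Jc G i y) (β y)‖ := by
  obtain ⟨N, hN0, hN⟩ := nrm2_push G
  obtain ⟨m, M, -, hM, hb⟩ := Base.D_bounds G
  refine ⟨N * M, by positivity, fun D h hh i β hβ => ?_⟩
  obtain ⟨hc, h3⟩ := hβ.anti i
  have := Base.vol_finite G
  have hint : Integrable h G.vol := hh.memLp.integrable one_le_two
  have hsm := Base.p20_smooth G (hβ.smooth2 G i)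
  refine (hh.bound _ hsm.1 hsm.2).trans ?_
  set g : R4 → ℝ := fun y => ‖anti20 (Jc G i y) (β y)‖ with hg
  have hpc : Continuous (push0 G i g) := continuous_push0 G i hc.norm h3.norm
  obtain ⟨B, hB⟩ := isCompact_univ.exists_bound_of_continuousOn hpc.continuousOn
  have hi1 : Integrable (fun x => h x * push0 G i g x) G.vol :=
    hint.mul_bdd hpc.aestronglyMeasurable (Eventually.of_forall fun x => hB x trivial)
  have hnc := Point.continuous_nrm2 G (Point.cont2_of_smooth2 hsm.1)
  obtain ⟨B', hB'⟩ := isCompact_univ.exists_bound_of_continuousOn hnc.continuousOn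
  have hi2 : Integrable (fun x => h x * G.nrm2 (G.p20 (push2 (G.c i) β)) x) G.vol :=
    hint.mul_bdd hnc.aestronglyMeasurable (Eventually.of_forall fun x => hB' x trivial)
  have h1 : ∫ x, h x * G.nrm2 (G.p20 (push2 (G.c i) β)) x ∂G.vol ≤
      N * ∫ x, h x * push0 G i g x ∂G.vol := by
    rw [← integral_const_mul]
    refine integral_mono hi2 (hi1.const_mul N) fun x => ?_
    rw [← mul_left_comm (h x)]
    refine mul_le_mul_of_nonneg_left ?_ (hh.nonneg x)
    rw [p20_push2]
    exact hN i _ h3 x
  obtain ⟨hi3, he⟩ := Base.vol_chart G i hi1 fun x hx => by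
    by_contra hn
    exact hx (by rw [push0_neg G i g hn, mul_zero])
  refine h1.trans ?_
  rw [he, mul_assoc]
  refine mul_le_mul_of_nonneg_left ?_ hN0
  rw [← integral_const_mul, ← setIntegral_eq_integral_of_forall_compl_eq_zero (s := (G.c i).target)
    (f := fun y => M * (hloc i h y * g y)) fun y hy => by
      rw [hloc_zero i h (not_le.1 fun h' => hy (ball3_target G i h')), zero_mul, mul_zero]]
  refine setIntegral_mono_on hi3
    ((integrable_hloc_mul i hh.meas hh.memLp hc.norm h3.norm).const_mul M).integrableOn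
    (G.c i).open_target.measurableSet fun y hy => ?_
  rw [push0_symm G i g hy]
  by_cases hn : ‖y‖ ≤ 3
  · rw [hloc, indicator_of_mem (mem_closedBall_zero_iff.2 hn), mul_comm M]
    refine mul_le_mul_of_nonneg_left ?_ (mul_nonneg (hh.nonneg _) (norm_nonneg _))
    exact (hb i y (mem_closedBall_zero_iff.2 (hn.trans (by norm_num)))).2
  · have : g y = 0 := by simp [hg, h3 y (not_le.1 hn)]
    simp [this]

/-- The current on chart fields sees the invariant part only. -/
lemma P_bound' : ∃ C : ℝ, 0 ≤ C ∧ ∀ (D : PosCur G) (i : Fin G.n) (β : R4 → Bil), Fld β →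
    |D.P (push2 (G.c i) β)| ≤
      C * ∫ x, push0 G i (fun y => ‖inv11 (Jc G i y) (β y)‖) x ∂D.mu := by
  obtain ⟨C, hC⟩ := (Point.curFacts G).bound
  obtain ⟨N, hN0, hN⟩ := nrm2_push G
  refine ⟨|C| * N, by positivity, fun D i β hβ => ?_⟩
  obtain ⟨hc, h3⟩ := hβ.inv i
  have hi := Point.cont2_p11 G (hβ.cont2 G i)
  rw [Point.via_inv G D (hβ.cont2 G i)]
  calc |D.P (G.p11 (push2 (G.c i) β))|
      ≤ |C| * ∫ x, G.nrm2 (G.p11 (push2 (G.c i) β)) x ∂D.mu :=
        (hC D _ hi).trans (mul_le_mul_of_nonneg_right (le_abs_self C)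
          (integral_nonneg fun x => Point.nrm2_nonneg G _ x))
    _ ≤ |C| * ∫ x, N * push0 G i (fun y => ‖inv11 (Jc G i y) (β y)‖) x ∂D.mu :=
        mul_le_mul_of_nonneg_left (integral_mono
          (Point.integrable_of_cont G D (Point.continuous_nrm2 G hi))
          ((Point.integrable_of_cont G D (continuous_push0 G i hc.norm h3.norm)).const_mul N)
          fun x => by rw [p11_push2]; exact hN i _ h3 x) (abs_nonneg C)
    _ = _ := by rw [integral_const_mul, mul_assoc]

/-! ### The measure of a chart -/

/-- The chart, extended by zero. -/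
def phiC (i : Fin G.n) : X → R4 := (G.c i).source.indicator (G.c i)

omit [T2Space X] [CompactSpace X] in
lemma measurable_phiC (i : Fin G.n) : Measurable (phiC (G := G) i) := by
  refine measurable_of_restrict_of_restrict_compl (s := (G.c i).source)
    (G.c i).open_source.measurableSet ?_ ?_
  · convert (continuousOn_iff_continuous_domRestrict.1 (G.c i).continuousOn).measurable using 1
    funext y
    exact indicator_of_mem y.2 _
  · convert measurable_const (a := (0 : R4)) using 1
    funext y
    exact indicator_of_notMem y.2 _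

/-- The measure of a current read in a chart. -/
def nuC (i : Fin G.n) (μ : Measure X) : Measure R4 :=
  Measure.map (phiC i) (μ.withDensity fun x => ENNReal.ofReal (push0 G i cutB x))

omit [CompactSpace X] in
lemma cut_meas (i : Fin G.n) :
    Measurable fun x => ENNReal.ofReal (push0 G i cutB x) :=
  (continuous_push0 G i cutB.continuous cut_in3).measurable.ennreal_ofReal

omit [MeasurableSpace X] [T2Space X] [CompactSpace X] [BorelSpace X] in
lemma push0_phi (i : Fin G.n) (g : R4 → ℝ) (x : X) :
    push0 G i cutB x * g (phiC i x) = push0 G i (fun y => cutB y * g y) x := by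
  by_cases hx : x ∈ (G.c i).source
  · rw [push0_pos G i _ hx, push0_pos G i _ hx, phiC, indicator_of_mem hx]
  · rw [push0_neg G i _ hx, push0_neg G i _ hx, zero_mul]

omit [CompactSpace X] in
lemma integral_nuC (i : Fin G.n) (μ : Measure X) {g : R4 → ℝ} (hg : Continuous g) :
    ∫ y, g y ∂nuC i μ = ∫ x, push0 G i (fun y => cutB y * g y) x ∂μ := by
  rw [nuC, integral_map (measurable_phiC i).aemeasurable hg.aestronglyMeasurable,
    integral_withDensity_eq_integral_toReal_smul (cut_meas i)
      (Eventually.of_forall fun _ => ENNReal.ofReal_lt_top)]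
  refine integral_congr_ae (Eventually.of_forall fun x => ?_)
  show _ • _ = _
  rw [smul_eq_mul, ENNReal.toReal_ofReal (push0_nonneg G i (fun _ => cutB.nonneg) x),
    push0_phi]

lemma isFinite_nuC (i : Fin G.n) (μ : Measure X) [IsFiniteMeasure μ] :
    IsFiniteMeasure (nuC (G := G) i μ) := by
  have hc := continuous_push0 G i cutB.continuous cut_in3
  obtain ⟨B, hB⟩ := isCompact_univ.exists_bound_of_continuousOn hc.continuousOn
  have : IsFiniteMeasure (μ.withDensity fun x => ENNReal.ofReal (push0 G i cutB x)) :=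
    isFiniteMeasure_withDensity_ofReal
      ((Integrable.of_bound hc.aestronglyMeasurable B
        (Eventually.of_forall fun x => hB x trivial)).hasFiniteIntegral)
  exact Measure.isFiniteMeasure_map _ _

omit [CompactSpace X] in
lemma nuC_apply_le (i : Fin G.n) (μ : Measure X) {S : Set R4} (hS : MeasurableSet S) :
    nuC i μ S ≤ μ (phiC i ⁻¹' S ∩ Base.K G i 3) := by
  have hK := (Base.isClosed_K G i (show (3 : ℝ) < 4 by norm_num)).measurableSet
  rw [nuC, Measure.map_apply (measurable_phiC i) hS,
    withDensity_apply _ ((measurable_phiC i) hS)]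
  calc ∫⁻ x in phiC i ⁻¹' S, ENNReal.ofReal (push0 G i cutB x) ∂μ
      ≤ ∫⁻ x in phiC i ⁻¹' S, (Base.K G i 3).indicator 1 x ∂μ := by
        refine lintegral_mono fun x => ?_
        by_cases hx : x ∈ Base.K G i 3
        · rw [indicator_of_mem hx]
          refine ENNReal.ofReal_le_one.2 ?_
          rw [push0_pos G i _ ((Base.mem_K G (by norm_num)).1 hx).1]
          exact cutB.le_one
        · have h0 : push0 G i cutB x = 0 := by_contra fun h => hx (push0_ne G i cut_in3 h)
          rw [indicator_of_notMem hx, h0, ENNReal.ofReal_zero]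
    _ = μ (phiC i ⁻¹' S ∩ Base.K G i 3) := by
        rw [lintegral_indicator_one hK, Measure.restrict_apply hK, inter_comm]

/-- The local source of a pair with bounded density. -/
lemma exists_source {D : Pair G} (hD : DensBounded D) {h : X → ℝ} (hh : QData D h) :
    ∃ M : ℝ, ∀ i : Fin G.n, ∃ S : Potential.Source M, S.ν = nuC i D.mu ∧ S.h = hloc i h := by
  have := D.finite_mu
  obtain ⟨C, hC⟩ := hD
  set μ1 := D.mu.real univ with hμ
  have h1 : 0 ≤ μ1 := measureReal_nonneg
  set Hs : ℝ := ∑ i : Fin G.n, ∫ y, hloc (G := G) i h y ^ 2 with hHs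
  have h2 : 0 ≤ Hs := Finset.sum_nonneg fun i _ => integral_nonneg fun _ => sq_nonneg _
  refine ⟨5 * μ1 + 4 * |C| + Hs, fun i => ?_⟩
  have hfin := isFinite_nuC (G := G) i D.mu
  have hle : ∀ S, MeasurableSet S →
      (nuC i D.mu).real S ≤ D.mu.real (phiC i ⁻¹' S ∩ Base.K G i 3) := fun S hS =>
    ENNReal.toReal_mono (measure_ne_top _ _) (nuC_apply_le i D.mu hS)
  refine ⟨{
    ν := nuC i D.mu
    finite_ν := hfin
    mass := ?_
    growth := ?_
    supp_ν := ?_
    h := hloc i h
    h_meas := measurable_hloc i hh.meas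
    h_nonneg := hloc_nonneg i hh.nonneg
    h_supp := fun z hz => hloc_zero i h (by linarith)
    h_sq := hloc_memLp i hh.meas hh.memLp
    h_norm := ?_ }, rfl, rfl⟩
  · refine ((hle _ MeasurableSet.univ).trans (measureReal_mono (subset_univ _))).trans ?_
    linarith [abs_nonneg C]
  · intro y r hr
    refine (hle _ measurableSet_closedBall).trans ?_
    rcases le_or_gt r (1 / 2) with hr2 | hr2
    · rcases (phiC i ⁻¹' Metric.closedBall y r ∩ Base.K G i 3).eq_empty_or_nonempty with he | he
      · rw [he, measureReal_empty]; positivity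
      · obtain ⟨x0, hx0, hx0K⟩ := he
        obtain ⟨hs0, hn0⟩ := (Base.mem_K G (by norm_num)).1 hx0K
        have hsub : phiC i ⁻¹' Metric.closedBall y r ∩ Base.K G i 3 ⊆ G.near (2 * r) x0 := by
          rintro z ⟨hz, hzK⟩
          obtain ⟨hsz, hnz⟩ := (Base.mem_K G (by norm_num)).1 hzK
          refine ⟨i, hs0, hsz, hn0, hnz, ?_⟩
          rw [mem_preimage, phiC, indicator_of_mem hs0, Metric.mem_closedBall, dist_eq_norm] at hx0
          rw [mem_preimage, phiC, indicator_of_mem hsz, Metric.mem_closedBall, dist_eq_norm] at hz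
          linarith [norm_sub_le_norm_sub_add_norm_sub (G.c i x0) y (G.c i z),
            norm_sub_rev y (G.c i z)]
        refine (measureReal_mono hsub).trans ?_
        have hd := hC x0 (2 * r) (by positivity) (by linarith)
        rw [Geo.dens, inv_mul_le_iff₀ (by positivity)] at hd
        nlinarith [le_abs_self C, sq_nonneg r, mul_nonneg h1 (sq_nonneg r),
          mul_nonneg h2 (sq_nonneg r)]
    · refine (measureReal_mono (subset_univ _)).trans ?_
      have : 1 ≤ 4 * r ^ 2 := by nlinarith
      nlinarith [abs_nonneg C, mul_le_mul_of_nonneg_left this h1, sq_nonneg r,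
        mul_nonneg (abs_nonneg C) (sq_nonneg r), mul_nonneg h2 (sq_nonneg r)]
  · refine le_antisymm ((nuC_apply_le i D.mu measurableSet_closedBall.compl).trans ?_) zero_le
    rw [show phiC i ⁻¹' (Metric.closedBall 0 (7 / 2))ᶜ ∩ Base.K G i 3 = ∅ from ?_, measure_empty]
    refine eq_empty_of_forall_notMem fun z hz => hz.1 ?_
    obtain ⟨hsz, hnz⟩ := (Base.mem_K G (by norm_num)).1 hz.2
    rw [phiC, indicator_of_mem hsz, mem_closedBall_zero_iff]
    linarith
  · refine le_trans ?_ (le_add_of_nonneg_left (by positivity))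
    exact Finset.single_le_sum (f := fun k : Fin G.n => ∫ y, hloc k h y ^ 2)
      (fun k _ => integral_nonneg fun _ => sq_nonneg _) (Finset.mem_univ i)

end Vale.Agent.P204.Full.Split
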