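import Vale.Agent.P204.Full.Base.Flat
import Vale.Agent.P204.Full.Base.Fields
import Vale.Agent.P204.Full.Common.Linear

/-!
# P204 Split: the dual two-form of a pair of vectors
-/

open scoped Manifold ContDiff

noncomputable section

namespace Vale.Agent.P204.Full.Split

/-- The Plücker coordinate of a pair of vectors. -/
def pl (p q : R4) (a b : Fin 4) : ℝ := p a * q b - p b * q a

/-- Coordinate covectors. -/
def cv (l : Fin 4) : Cov := EuclideanSpace.proj l

lemma cv_apply (l : Fin 4) (v : R4) : cv l v = v l := rfl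

/-- The form `det (p, q, ·, ·)`, dual to the pair under `top22`. -/
def dual22 (p q : R4) : Bil :=
  pl p q 0 1 • wedgeCov (cv 2) (cv 3) - pl p q 0 2 • wedgeCov (cv 1) (cv 3) +
    pl p q 0 3 • wedgeCov (cv 1) (cv 2) + pl p q 1 2 • wedgeCov (cv 0) (cv 3) -
    pl p q 1 3 • wedgeCov (cv 0) (cv 2) + pl p q 2 3 • wedgeCov (cv 0) (cv 1)

lemma dual22_apply (p q u v : R4) : dual22 p q u v =
    pl p q 0 1 * pl u v 2 3 - pl p q 0 2 * pl u v 1 3 + pl p q 0 3 * pl u v 1 2 +
      pl p q 1 2 * pl u v 0 3 - pl p q 1 3 * pl u v 0 2 + pl p q 2 3 * pl u v 0 1 := by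
  simp only [dual22, add_apply, sub_apply, smul_apply, smul_eq_mul, Base.wedgeCov_apply, cv_apply,
    pl]

lemma isAlt_dual22 (p q : R4) : IsAlt (dual22 p q) := fun u v => by
  simp only [dual22_apply, pl]
  ring

lemma top22_dual {F : Bil} (hF : IsAlt F) (p q : R4) : top22 F (dual22 p q) = F p q := by
  rw [Base.alt_expand hF p q]
  simp [top22, dual22_apply, pl, bvec]
  ring

lemma dual22_simple (p q : R4) : top22 (dual22 p q) (dual22 p q) = 0 := by
  simp [top22, dual22_apply, pl, bvec]
  ring

/-- The five vector identity. -/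
lemma dual22_cyclic (a : Cov) (u v w : R4) :
    a u • dual22 v w - a v • dual22 u w + a w • dual22 u v = wedgeCov a (dual22 u v w) := by
  ext s t
  have ha : ∀ z : R4, a z = z 0 * a (bvec 0) + z 1 * a (bvec 1) + z 2 * a (bvec 2) +
      z 3 * a (bvec 3) := fun z => by
    conv_lhs => rw [Base.vec_expand z]
    simp [Fin.sum_univ_four, map_add, map_smul]
  simp only [add_apply, sub_apply, smul_apply, smul_eq_mul, Base.wedgeCov_apply,
    dual22_apply, pl]
  rw [ha u, ha v, ha w, ha s, ha t]
  ring

/-- Alternating forms pairing to zero with everything vanish. -/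
lemma eq_of_top22 {a b : Bil} (ha : IsAlt a) (hb : IsAlt b)
    (h : ∀ F, IsAlt F → top22 F a = top22 F b) : a = b := by
  ext u v
  rw [← top22_dual ha, ← top22_dual hb, top22_comm a, top22_comm b]
  exact h _ (isAlt_dual22 u v)

lemma top22_add_right (a b b' : Bil) : top22 a (b + b') = top22 a b + top22 a b' := by
  rw [top22_comm, top22_add_left, top22_comm b, top22_comm b']

lemma top22_smul_right (t : ℝ) (a b : Bil) : top22 a (t • b) = t * top22 a b := by
  rw [top22_comm, top22_smul_left, top22_comm]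

lemma abs_top22_le (a b : Bil) : |top22 a b| ≤ 6 * (‖a‖ * ‖b‖) := by
  have h1 : ∀ (c : Bil) (i j : Fin 4), |c (bvec i) (bvec j)| ≤ ‖c‖ := fun c i j => by
    have := c.le_opNorm₂ (bvec i) (bvec j)
    simpa [bvec] using this
  have h : ∀ i j k l, |a (bvec i) (bvec j) * b (bvec k) (bvec l)| ≤ ‖a‖ * ‖b‖ := fun i j k l => by
    rw [abs_mul]
    exact mul_le_mul (h1 a i j) (h1 b k l) (abs_nonneg _) (norm_nonneg _)
  simp only [top22]
  rw [abs_le]
  constructor <;>
    linarith [abs_le.1 (h 0 1 2 3), abs_le.1 (h 0 2 1 3), abs_le.1 (h 0 3 1 2),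
      abs_le.1 (h 1 2 0 3), abs_le.1 (h 1 3 0 2), abs_le.1 (h 2 3 0 1)]

section Hermitian

variable {J : Endo} {om : Bil}

/-- An almost complex structure with a positive invariant form preserves the orientation. -/
lemma det_eq_one (halt : IsAlt om) (hinv : pullBil J om = om)
    (htop : 0 < top22 om om) : J.det = 1 := by
  have h := Base.top22_pullBil J halt halt
  rw [hinv] at h
  nlinarith

lemma pull_pull (hJ : ∀ v, J (J v) = -v) (b : Bil) : pullBil J (pullBil J b) = b := by
  ext u v
  simp [hJ]

variable (hJ : ∀ v, J (J v) = -v) (hdet : J.det = 1)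
include hJ hdet

lemma top22_pull_swap {F b : Bil} (hF : IsAlt F) (hb : IsAlt b) :
    top22 (pullBil J F) b = top22 F (pullBil J b) := by
  have h := Base.top22_pullBil J hF (Base.isAlt_pullBil hb J)
  rw [pull_pull hJ, hdet, one_mul] at h
  exact h

lemma top22_anti_swap {F b : Bil} (hF : IsAlt F) (hb : IsAlt b) :
    top22 (anti20 J F) b = top22 F (anti20 J b) := by
  have h := top22_pull_swap hJ hdet hF hb
  simp only [anti20, top22_smul_left, top22_smul_right, sub_eq_add_neg, top22_add_left,
    top22_add_right, ← neg_one_smul ℝ (pullBil J F), ← neg_one_smul ℝ (pullBil J b), h]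

/-- The dual of a complex line is invariant. -/
lemma dual22_line (v : R4) : pullBil J (dual22 v (J v)) = dual22 v (J v) := by
  refine eq_of_top22 (Base.isAlt_pullBil (isAlt_dual22 _ _) _) (isAlt_dual22 _ _) fun F hF => ?_
  rw [← top22_pull_swap hJ hdet hF (isAlt_dual22 _ _), top22_dual (Base.isAlt_pullBil hF _),
    top22_dual hF, pullBil_apply, hJ]
  have := hF (J v) v
  rw [map_neg, this, neg_neg]

end Hermitian

end Vale.Agent.P204.Full.Split
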