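import Vale.Agent.P204.Full.Obstruction.Invariant
import Vale.Agent.P204.Full.Common.Avg
import Vale.Agent.P204.Full.Base.Main
import Vale.Agent.P204.Full.Point.Cur
import Vale.Agent.P204.Full.Interfaces

/-!
# P204 Split: the limit of the cut-off currents

A sequence of cut-offs that asymptotically kills exact forms and is eventually one where the density stays
positive splits the current.
-/

open scoped Manifold ContDiff Topology
open Set Filter MeasureTheory CompactlySupported

noncomputable section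

namespace Vale.Agent.P204.Full.Split

universe u

namespace Limit

variable {X : Type u} [TopologicalSpace X] [T2Space X] [CompactSpace X] [ChartedSpace R4 X]
  [IsManifold 𝓘(ℝ, R4) ∞ X] [MeasurableSpace X] [BorelSpace X] (G : Geo X)

omit [T2Space X] [CompactSpace X] [IsManifold 𝓘(ℝ, R4) ∞ X] [MeasurableSpace X] [BorelSpace X] in
lemma cont2_zero : Cont2 (0 : X → Bil) :=
  ⟨fun _ => isAlt_zero, fun x₀ => by
    rw [view2_zero]
    exact continuousOn_const⟩

/-- The continuous two-forms. -/
def contFields (X : Type u) [TopologicalSpace X] [ChartedSpace R4 X] : Submodule ℝ (X → Bil) where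
  carrier := {θ | Cont2 θ}
  add_mem' h k := h.add k
  zero_mem' := cont2_zero
  smul_mem' a _ h := h.smul a

/-- Limits of weighted values of a current along an ultrafilter. -/
lemma exists_weighted (D : PosCur G) (U : Ultrafilter ℕ) (w : ℕ → X → ℝ)
    (hw : ∀ n, Continuous (w n)) (hb : ∀ n x, |w n x| ≤ 1) :
    ∃ L : (X → Bil) →ₗ[ℝ] ℝ, ∀ θ, Cont2 θ →
      Tendsto (fun n => D.P fun x => w n x • θ x) (U : Filter ℕ) (𝓝 (L θ)) := by
  obtain ⟨C, hC⟩ := (Point.curFacts G).bound
  have hex : ∀ θ : ↥(contFields X), ∃ l : ℝ,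
      Tendsto (fun n => D.P fun x => w n x • θ.1 x) (U : Filter ℕ) (𝓝 l) := by
    intro θ
    set B := |C| * ∫ x, G.nrm2 θ.1 x ∂D.mu with hB
    have hmem : ∀ n, (D.P fun x => w n x • θ.1 x) ∈ Metric.closedBall (0 : ℝ) B := by
      intro n
      have hc := Obstruction.cont2_fun_smul (hw n) θ.2
      rw [mem_closedBall_zero_iff, Real.norm_eq_abs]
      refine (hC D _ hc).trans ?_
      refine mul_le_mul (le_abs_self _) ?_
        (integral_nonneg fun x => Finset.sum_nonneg fun i _ =>
          mul_nonneg (Base.rho_nonneg G i x) (norm_nonneg _)) (abs_nonneg _)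
      refine integral_mono (Point.integrable_of_cont G D (Base.nrm2_cont G hc))
        (Point.integrable_of_cont G D (Base.nrm2_cont G θ.2)) fun x => ?_
      refine Finset.sum_le_sum fun i _ => ?_
      rcases eq_or_ne (G.rho i x) 0 with h | h
      · simp [h]
      refine mul_le_mul_of_nonneg_left ?_ (Base.rho_nonneg G i x)
      rw [Base.view2_smul, norm_smul, Real.norm_eq_abs]
      exact mul_le_of_le_one_left (norm_nonneg _) (hb n _)
    obtain ⟨l, -, hl⟩ := (isCompact_closedBall (0 : ℝ) B).ultrafilter_le_nhds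
      (U.map fun n => D.P fun x => w n x • θ.1 x)
      (le_principal_iff.2 (Filter.mem_map.2 (Eventually.of_forall hmem)))
    exact ⟨l, hl⟩
  choose l hl using hex
  let L₀ : ↥(contFields X) →ₗ[ℝ] ℝ :=
    { toFun := l
      map_add' := fun θ η => by
        refine tendsto_nhds_unique (hl (θ + η)) (((hl θ).add (hl η)).congr fun n => ?_)
        rw [← map_add]
        congr 1
        funext x
        exact (smul_add (w n x) (θ.1 x) (η.1 x)).symm
      map_smul' := fun a θ => by
        refine tendsto_nhds_unique (hl (a • θ)) (((hl θ).const_smul a).congr fun n => ?_)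
        rw [← map_smul]
        congr 1
        funext x
        exact smul_comm a (w n x) (θ.1 x) }
  obtain ⟨L, hL⟩ := L₀.exists_extend
  exact ⟨L, fun θ hθ => by
    have h : L θ = l ⟨θ, hθ⟩ := LinearMap.congr_fun hL ⟨θ, hθ⟩
    rw [h]
    exact hl ⟨θ, hθ⟩⟩

/-- A functional positive on continuous semipositive fields and blind to anti-invariant ones. -/
lemma exists_cur_of (L : (X → Bil) →ₗ[ℝ] ℝ) (hanti : ∀ θ, Cont2 θ → G.Anti θ → L θ = 0)
    (hpos : ∀ θ, Cont2 θ → G.Inv θ → G.SemiPos θ → 0 ≤ L θ) :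
    ∃ S : PosCur G, S.P = L := by
  have hcω : Cont2 G.omega := Base.smooth_cont G.omega_smooth
  let Lf : C_c(X, ℝ) →ₗ[ℝ] ℝ :=
    { toFun := fun f => L fun x => f x • G.omega x
      map_add' := fun f g => by
        rw [← map_add]; congr 1; funext x; exact add_smul (f x) (g x) (G.omega x)
      map_smul' := fun a f => by
        rw [RingHom.id_apply, ← map_smul]; congr 1; funext x; exact mul_smul a (f x) (G.omega x) }
  have hLf : ∀ f : C_c(X, ℝ), 0 ≤ f → 0 ≤ Lf f := fun f hf =>
    hpos _ (Obstruction.cont2_fun_smul f.continuous hcω)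
      (fun x u v => by simp [G.omega_inv x u v]) fun x v => by
      show 0 ≤ f x * G.omega x v (G.J x v)
      exact mul_nonneg (hf x) (Obstruction.omega_nonneg G x v)
  refine ⟨{ mu := RealRMK.rieszMeasure (PositiveLinearMap.mk₀ Lf hLf)
            finite_mu := inferInstance
            P := L
            P_omega := fun f hf => ?_
            P_anti := hanti
            P_nonneg := hpos }, rfl⟩
  exact (RealRMK.integral_rieszMeasure (PositiveLinearMap.mk₀ Lf hLf)
    ⟨⟨f, hf⟩, HasCompactSupport.of_compactSpace _⟩).symm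

/-- The weighted limit is a positive current. -/
lemma exists_weighted_cur (D : PosCur G) (U : Ultrafilter ℕ) (w : ℕ → X → ℝ)
    (hw : ∀ n, Continuous (w n)) (h01 : ∀ n x, 0 ≤ w n x ∧ w n x ≤ 1) :
    ∃ S : PosCur G, ∀ θ, Cont2 θ →
      Tendsto (fun n => D.P fun x => w n x • θ x) (U : Filter ℕ) (𝓝 (S.P θ)) := by
  obtain ⟨L, hL⟩ := exists_weighted G D U w hw fun n x => by
    rw [abs_of_nonneg (h01 n x).1]; exact (h01 n x).2
  obtain ⟨S, hS⟩ := exists_cur_of G L
    (fun θ hc ha => by
      refine tendsto_nhds_unique (hL θ hc) (tendsto_const_nhds.congr fun n => ?_)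
      refine (D.P_anti _ (Obstruction.cont2_fun_smul (hw n) hc) fun x u v => ?_).symm
      simp only [smul_apply, ha x u v, smul_eq_mul, mul_neg])
    (fun θ hc hi hs => by
      refine ge_of_tendsto (hL θ hc) (Eventually.of_forall fun n => ?_)
      refine D.P_nonneg _ (Obstruction.cont2_fun_smul (hw n) hc)
        (fun x u v => by simp only [smul_apply, hi x u v]) fun x v => ?_
      simp only [smul_apply, smul_eq_mul]
      exact mul_nonneg (h01 n x).1 (hs x v))
  exact ⟨S, fun θ hθ => hS ▸ hL θ hθ⟩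

/-- Integrals against a weighted limit. -/
lemma integral_weighted (D : PosCur G) (U : Ultrafilter ℕ) (w : ℕ → X → ℝ)
    (hw : ∀ n, Continuous (w n)) (S : PosCur G)
    (hS : ∀ θ, Cont2 θ → Tendsto (fun n => D.P fun x => w n x • θ x) (U : Filter ℕ) (𝓝 (S.P θ)))
    {f : X → ℝ} (hf : Continuous f) :
    Tendsto (fun n => ∫ x, w n x * f x ∂D.mu) (U : Filter ℕ) (𝓝 (∫ x, f x ∂S.mu)) := by
  have h := hS _ (Obstruction.cont2_fun_smul hf (Base.smooth_cont G.omega_smooth))
  rw [S.P_omega f hf] at h
  refine h.congr fun n => ?_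
  rw [show (fun x => w n x • f x • G.omega x) = fun x => (w n x * f x) • G.omega x from
    funext fun x => (mul_smul (w n x) (f x) (G.omega x)).symm]
  exact D.P_omega _ ((hw n).mul hf)

end Limit

open Limit

variable {X : Type u} [TopologicalSpace X] [T2Space X] [CompactSpace X] [ChartedSpace R4 X]
  [IsManifold 𝓘(ℝ, R4) ∞ X] [MeasurableSpace X] [BorelSpace X] {G : Geo X}

/-- Cut-offs killing exact forms in the limit split the current. -/
theorem splitting_of_cutoffs {D : Pair G} (hDB : DensBounded D) (hDM : DensMonotone D)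
    (W : ℕ → X → ℝ) (hs : ∀ n, ContMDiff 𝓘(ℝ, R4) 𝓘(ℝ, ℝ) ∞ (W n))
    (h01 : ∀ n x, 0 ≤ W n x ∧ W n x ≤ 1)
    (hex : ∀ a, Smooth1 a → Tendsto (fun n => D.P fun x => W n x • extD1 a x) atTop (𝓝 0))
    (hone : ∀ θ : ℝ, 0 < θ → ∀ m : ℕ, ∀ᶠ n in atTop, ∀ x,
      (∀ l, m ≤ l → θ ≤ G.dens D.mu ((2 ^ l : ℝ))⁻¹ x) → W n x = 1) :
    HasSplitting D := by
  have : SecondCountableTopology X := secondCountable_base X
  have hB := base_facts G
  have hfin := D.finite_mu
  have hc : ∀ n, Continuous (W n) := fun n => (hs n).continuous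
  have hc' : ∀ n, Continuous fun x => 1 - W n x := fun n => continuous_const.sub (hc n)
  have h01' : ∀ n x, 0 ≤ 1 - W n x ∧ 1 - W n x ≤ 1 := fun n x =>
    ⟨sub_nonneg.2 (h01 n x).2, sub_le_self _ (h01 n x).1⟩
  set U : Ultrafilter ℕ := Ultrafilter.of atTop with hU
  have hUle : (U : Filter ℕ) ≤ atTop := Ultrafilter.of_le atTop
  obtain ⟨S, hS⟩ := exists_weighted_cur G D.toPosCur U W hc h01
  obtain ⟨Rc, hR⟩ := exists_weighted_cur G D.toPosCur U (fun n x => 1 - W n x) hc' h01'
  have hsum : ∀ θ, Cont2 θ → D.P θ = S.P θ + Rc.P θ := fun θ hθ => by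
    refine tendsto_nhds_unique (tendsto_const_nhds.congr fun n => ?_) ((hS θ hθ).add (hR θ hθ))
    rw [← map_add]
    congr 1
    funext x
    show θ x = W n x • θ x + (1 - W n x) • θ x
    rw [← add_smul, add_sub_cancel, one_smul]
  have hfS := S.finite_mu
  have hfR := Rc.finite_mu
  have hμ : S.mu + Rc.mu = D.mu := by
    refine ext_of_forall_integral_eq_of_IsFiniteMeasure fun f => ?_
    rw [integral_add_measure (f.integrable S.mu) (f.integrable Rc.mu)]
    have h := hsum _ (Obstruction.cont2_fun_smul f.continuous (Base.smooth_cont G.omega_smooth))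
    rw [S.P_omega _ f.continuous, Rc.P_omega _ f.continuous, D.P_omega _ f.continuous] at h
    exact h.symm
  have hSle : S.mu ≤ D.mu := hμ ▸ Measure.le_add_right le_rfl
  have hRle : Rc.mu ≤ D.mu := hμ ▸ Measure.le_add_left le_rfl
  refine ⟨S, Rc, hsum, hSle, hRle, fun a ha => ?_, fun K hK => ?_⟩
  · exact tendsto_nhds_unique (hS _ (Base.smooth_cont (Base.exact_closed ha).1))
      ((hex a ha).mono_left hUle)
  -- closed sets where the cut-offs are eventually one are null for the remainder
  have hclosed : ∀ F : Set X, IsClosed F → (∀ᶠ n in atTop, ∀ x ∈ F, W n x = 1) → Rc.mu.real F = 0 := by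
    intro F hF hW
    refine le_antisymm ?_ measureReal_nonneg
    refine le_of_forall_pos_le_add fun ε hε => ?_
    rw [zero_add]
    obtain ⟨O, hFO, hO, hOlt⟩ := F.exists_isOpen_lt_add (μ := D.mu) (measure_ne_top _ _)
      (ε := ENNReal.ofReal ε) (ENNReal.ofReal_pos.2 hε).ne'
    obtain ⟨f, hf0, hf1, hf01⟩ := exists_continuous_zero_one_of_isClosed hO.isClosed_compl hF
      (disjoint_compl_left_iff_subset.2 hFO)
    have hfi : ∀ μ : Measure X, IsFiniteMeasure μ → Integrable f μ := fun μ _ =>
      f.continuous.integrable_of_hasCompactSupport (HasCompactSupport.of_compactSpace _)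
    have hge : Rc.mu.real F ≤ ∫ x, f x ∂(Rc.mu) := by
      rw [← integral_indicator_one hF.measurableSet]
      refine integral_mono ((integrable_const (1 : ℝ)).indicator hF.measurableSet)
        (hfi Rc.mu hfR) fun x => ?_
      by_cases hx : x ∈ F
      · rw [indicator_of_mem hx, hf1 hx]
      · rw [indicator_of_notMem hx]
        exact (hf01 x).1
    refine hge.trans (le_of_tendsto (integral_weighted G D.toPosCur U _ hc' Rc hR f.continuous) ?_)
    refine (hW.filter_mono hUle).mono fun n hn => ?_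
    calc ∫ x, (1 - W n x) * f x ∂D.mu ≤ ∫ x, (O \ F).indicator (fun _ => (1 : ℝ)) x ∂D.mu := by
          refine integral_mono
            (((hc' n).mul f.continuous).integrable_of_hasCompactSupport
              (HasCompactSupport.of_compactSpace _))
            ((integrable_const (1 : ℝ)).indicator (hO.measurableSet.diff hF.measurableSet)) fun x => ?_
          by_cases hxF : x ∈ F
          · rw [hn x hxF, sub_self, zero_mul]
            exact indicator_nonneg (fun _ _ => zero_le_one) _
          by_cases hxO : x ∈ O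
          · rw [indicator_of_mem (show x ∈ O \ F from ⟨hxO, hxF⟩)]
            exact mul_le_one₀ (h01' n x).2 (hf01 x).1 (hf01 x).2
          · rw [hf0 hxO]
            simp only [Pi.zero_apply, mul_zero]
            exact indicator_nonneg (fun _ _ => zero_le_one) _
      _ = D.mu.real (O \ F) := integral_indicator_one (hO.measurableSet.diff hF.measurableSet)
      _ ≤ ε := by
          refine ENNReal.toReal_le_of_le_ofReal hε.le ?_
          rw [measure_sdiff hFO hF.measurableSet.nullMeasurableSet (measure_ne_top _ _)]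
          exact tsub_le_iff_left.2 hOlt.le
  -- the remainder does not charge points of positive density
  have hnull : ∀ θ : ℝ, 0 < θ → ∀ m : ℕ,
      Rc.mu {x | ∀ l, m ≤ l → θ ≤ G.dens D.mu ((2 ^ l : ℝ))⁻¹ x} = 0 := by
    intro θ hθ m
    set A := {x | ∀ l, m ≤ l → θ ≤ G.dens D.mu ((2 ^ l : ℝ))⁻¹ x} with hA
    have hAm : MeasurableSet A := by
      rw [show A = ⋂ l, {x | m ≤ l → θ ≤ G.dens D.mu ((2 ^ l : ℝ))⁻¹ x} by ext x; simp [hA]]
      refine MeasurableSet.iInter fun l => ?_
      by_cases hl : m ≤ l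
      · simp only [hl, forall_const]
        exact measurableSet_le measurable_const (dens_measurable hB _ D.mu)
      · simp [hl]
    refine le_antisymm (ENNReal.le_of_forall_pos_le_add fun ε hε _ => ?_) zero_le
    obtain ⟨F, hFA, hF, hlt⟩ := hAm.exists_isClosed_lt_add (μ := Rc.mu) (measure_ne_top _ _)
      (ε := (ε : ENNReal)) (by simpa using hε.ne')
    have h0 : Rc.mu F = 0 := (measureReal_eq_zero_iff (measure_ne_top _ _)).1
      (hclosed F hF ((hone θ hθ m).mono fun n hn x hx => hn x (hFA hx)))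
    rw [h0] at hlt
    exact hlt.le
  obtain ⟨CB, hCB⟩ := hDB
  obtain ⟨C, R1, hC, hR1, hmono⟩ := hDM
  have hbad : ∀ᵐ x ∂(Rc.mu), ∀ p m : ℕ, ∃ l, m ≤ l ∧ G.dens D.mu ((2 ^ l : ℝ))⁻¹ x < 1 / (p + 1) := by
    rw [ae_all_iff]
    intro p
    rw [ae_all_iff]
    intro m
    rw [ae_iff]
    refine measure_mono_null (fun x hx => ?_) (hnull (1 / (p + 1)) (by positivity) m)
    simp only [mem_ofPred_eq, not_exists, not_and, not_lt] at hx ⊢
    exact hx
  have hpt : ∀ᵐ x ∂(Rc.mu), Tendsto (fun s => G.dens D.mu (K * s) x) (𝓝[>] (0 : ℝ)) (𝓝 0) := by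
    filter_upwards [hbad] with x hx
    rw [Metric.tendsto_nhds]
    intro ε hε
    obtain ⟨p, hp⟩ := exists_nat_gt (3 * C / ε)
    have hp1 : C * (1 / ((p : ℝ) + 1)) < ε / 3 := by
      rw [div_lt_iff₀ hε] at hp
      rw [mul_one_div, div_lt_iff₀ (by positivity)]
      nlinarith
    have hgeo : Tendsto (fun l : ℕ => ((2 : ℝ) ^ l)⁻¹) atTop (𝓝 0) :=
      tendsto_inv_atTop_zero.comp (tendsto_pow_atTop_atTop_of_one_lt one_lt_two)
    obtain ⟨m, hm⟩ := eventually_atTop.1
      (hgeo.eventually (eventually_lt_nhds (show (0 : ℝ) < min R1 (ε / (3 * C)) by positivity)))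
    obtain ⟨l, hml, hl⟩ := hx p m
    set R' := ((2 : ℝ) ^ l)⁻¹ with hR'
    have hR'0 : 0 < R' := by positivity
    have hlim := hm l hml
    filter_upwards [Ioo_mem_nhdsGT (show (0 : ℝ) < R' / (C * K) by positivity)] with s hs'
    obtain ⟨hs0, hs1⟩ := hs'
    rw [lt_div_iff₀ (by positivity)] at hs1
    have h := hmono x (K * s) R' (by positivity) (by linarith) (hlim.le.trans (min_le_left _ _))
    rw [dist_zero_right, Real.norm_eq_abs, abs_of_nonneg (dens_nonneg _ _ _)]
    have h2 : C * R' < ε / 3 := by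
      calc C * R' < C * (ε / (3 * C)) :=
            mul_lt_mul_of_pos_left (hlim.trans_le (min_le_right _ _)) (by linarith)
        _ = ε / 3 := by field_simp
    have h3 : C * G.dens D.mu R' x ≤ C * (1 / ((p : ℝ) + 1)) :=
      mul_le_mul_of_nonneg_left hl.le (by linarith)
    linarith
  have hlim := tendsto_integral_filter_of_dominated_convergence (μ := Rc.mu) (l := 𝓝[>] (0 : ℝ))
    (F := fun s x => G.dens D.mu (K * s) x) (f := fun _ => (0 : ℝ)) (fun _ => CB)
    (Eventually.of_forall fun s => (dens_measurable hB _ D.mu).aestronglyMeasurable)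
    (by
      filter_upwards [Ioo_mem_nhdsGT (show (0 : ℝ) < K⁻¹ by positivity)] with s hs'
      refine Eventually.of_forall fun x => ?_
      rw [Real.norm_eq_abs, abs_of_nonneg (dens_nonneg _ _ _)]
      refine hCB x _ (mul_pos (by linarith) hs'.1) ?_
      have h := mul_le_mul_of_nonneg_left hs'.2.le (by linarith : (0 : ℝ) ≤ K)
      rwa [mul_inv_cancel₀ (by linarith : K ≠ 0)] at h)
    (integrable_const CB) hpt
  simpa using hlim

end Vale.Agent.P204.Full.Split
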