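import Vale.Agent.P204.Full.Split.Data

/-!
# P204 Split: the potential is large where the density stays positive
-/

open scoped Manifold ContDiff Topology
open MeasureTheory Set Filter

noncomputable section

namespace Vale.Agent.P204.Full.Split

universe u

lemma sum_pow_four_le (L : ℕ) : ∑ j ∈ Finset.range (L + 1), (4 : ℝ) ^ j ≤ 2 * (4 : ℝ) ^ L := by
  induction L with
  | zero => norm_num
  | succ L ih =>
    rw [Finset.sum_range_succ, pow_succ]
    linarith [pow_nonneg (show (0 : ℝ) ≤ 4 by norm_num) L]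

/-- The kernel dominates the dyadic balls down to its scale. -/
lemma dyadic_le_ker {m n : ℕ} {d : ℝ} (hd : 0 < d) (hdn : d ≤ ((2 : ℝ) ^ n)⁻¹) (y z : R4) :
    ∑ j ∈ Finset.Icc m n,
        (4 : ℝ) ^ j * (Metric.closedBall y ((2 : ℝ) ^ j)⁻¹).indicator (fun _ => (1 : ℝ)) z ≤
      8 * Potential.ker 2 d (y - z) := by
  classical
  have hker : 0 ≤ Potential.ker 2 d (y - z) := inv_nonneg.2 (sq_nonneg _)
  set S := (Finset.Icc m n).filter fun j => z ∈ Metric.closedBall y ((2 : ℝ) ^ j)⁻¹ with hS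
  have hsum : ∑ j ∈ Finset.Icc m n,
      (4 : ℝ) ^ j * (Metric.closedBall y ((2 : ℝ) ^ j)⁻¹).indicator (fun _ => (1 : ℝ)) z =
      ∑ j ∈ S, (4 : ℝ) ^ j := by
    rw [hS, Finset.sum_filter]
    refine Finset.sum_congr rfl fun j _ => ?_
    by_cases h : z ∈ Metric.closedBall y ((2 : ℝ) ^ j)⁻¹
    · rw [indicator_of_mem h, mul_one, if_pos h]
    · rw [indicator_of_notMem h, mul_zero, if_neg h]
  rw [hsum]
  rcases S.eq_empty_or_nonempty with he | hne
  · rw [he, Finset.sum_empty]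
    positivity
  · set L := S.max' hne with hL
    obtain ⟨hLm, hLz⟩ := Finset.mem_filter.1 (S.max'_mem hne)
    rw [← hL] at hLm hLz
    have ht : ‖y - z‖ ≤ ((2 : ℝ) ^ L)⁻¹ := by
      rw [norm_sub_rev, ← dist_eq_norm]
      exact hLz
    have hdL : d ≤ ((2 : ℝ) ^ L)⁻¹ := hdn.trans (inv_anti₀ (by positivity)
      (pow_le_pow_right₀ one_le_two (Finset.mem_Icc.1 hLm).2))
    calc ∑ j ∈ S, (4 : ℝ) ^ j ≤ ∑ j ∈ Finset.range (L + 1), (4 : ℝ) ^ j :=
          Finset.sum_le_sum_of_subset_of_nonneg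
            (fun j hj => Finset.mem_range.2 (Nat.lt_succ_of_le (S.le_max' j hj)))
            fun j _ _ => by positivity
      _ ≤ 2 * (4 : ℝ) ^ L := sum_pow_four_le L
      _ ≤ 8 * Potential.ker 2 d (y - z) := by
          have h2 : 0 < (2 : ℝ) ^ L := by positivity
          have hpos : 0 < ‖y - z‖ + d := by positivity
          have hle : ‖y - z‖ + d ≤ 2 * ((2 : ℝ) ^ L)⁻¹ := by linarith
          have h4 : (4 : ℝ) ^ L = ((2 : ℝ) ^ L) ^ 2 := by
            rw [← pow_mul, mul_comm, pow_mul]; norm_num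
          rw [Potential.ker, ← div_eq_mul_inv, le_div_iff₀ (by positivity), h4]
          have := pow_le_pow_left₀ hpos.le hle 2
          calc 2 * ((2 : ℝ) ^ L) ^ 2 * (‖y - z‖ + d) ^ 2
              ≤ 2 * ((2 : ℝ) ^ L) ^ 2 * (2 * ((2 : ℝ) ^ L)⁻¹) ^ 2 :=
                mul_le_mul_of_nonneg_left this (by positivity)
            _ = 8 := by field_simp; norm_num

variable {X : Type u} [TopologicalSpace X] [T2Space X] [CompactSpace X] [ChartedSpace R4 X]
  [IsManifold 𝓘(ℝ, R4) ∞ X] [MeasurableSpace X] [BorelSpace X] {G : Geo X}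

/-- Positive density at every small scale makes the potential grow linearly in the logarithmic scale. -/
theorem potM_lower {D : Pair G} : ∃ c : ℝ, 0 < c ∧ ∀ θ : ℝ, 0 < θ → ∀ m : ℕ, ∃ m1 : ℕ,
    ∀ (i : Fin G.n) (n : ℕ) (x : X), x ∈ (G.c i).source → ‖G.c i x‖ ≤ 2 →
      (∀ l, m ≤ l → θ ≤ G.dens D.mu (((2 : ℝ) ^ l)⁻¹) x) →
        c * θ * ((n : ℝ) - m1) ≤
          Potential.potM 2 (Real.exp (-(n : ℝ))) (nuC i D.mu) (G.c i x) := by
  have hfin := D.finite_mu
  obtain ⟨C, r0, hC, hr0, hnc⟩ := Base.near_chart G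
  obtain ⟨k, hk⟩ := pow_unbounded_of_one_lt C one_lt_two
  have hgeo : Tendsto (fun l : ℕ => ((2 : ℝ) ^ l)⁻¹) atTop (𝓝 0) :=
    tendsto_inv_atTop_zero.comp (tendsto_pow_atTop_atTop_of_one_lt one_lt_two)
  obtain ⟨m0, hm0⟩ := eventually_atTop.1
    (hgeo.eventually (eventually_lt_nhds (show (0 : ℝ) < min r0 (7 / (8 * C)) by positivity)))
  refine ⟨((4 : ℝ) ^ k)⁻¹ / 8, by positivity, fun θ hθ m => ⟨max m m0, fun i n x hxs hx2 hdens => ?_⟩⟩
  set m1 := max m m0 with hm1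
  set d := Real.exp (-(n : ℝ)) with hd
  have hd0 : 0 < d := Real.exp_pos _
  have hdn : d ≤ ((2 : ℝ) ^ n)⁻¹ := by
    rw [hd, Real.exp_neg]
    refine inv_anti₀ (by positivity) ?_
    calc (2 : ℝ) ^ n ≤ Real.exp 1 ^ n :=
          pow_le_pow_left₀ zero_le_two (by linarith [Real.add_one_le_exp (1 : ℝ)]) n
      _ = Real.exp n := by rw [← Real.exp_nat_mul, mul_one]
  set y := G.c i x with hy
  set ν := nuC i D.mu with hν
  have hνfin : IsFiniteMeasure ν := isFinite_nuC i D.mu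
  have hball : ∀ j, m1 ≤ j →
      θ * ((4 : ℝ) ^ k)⁻¹ ≤ (4 : ℝ) ^ j * ν.real (Metric.closedBall y ((2 : ℝ) ^ j)⁻¹) := by
    intro j hj
    set r := ((2 : ℝ) ^ (j + k))⁻¹ with hr
    have hr0' : 0 < r := by positivity
    have hrm := hm0 (j + k) ((le_max_right m m0).trans (hj.trans (Nat.le_add_right _ _)))
    have hrr0 : r ≤ r0 := hrm.le.trans (min_le_left _ _)
    have hC78 : C * r ≤ 7 / 8 := by
      calc C * r ≤ C * (7 / (8 * C)) :=
            mul_le_mul_of_nonneg_left (hrm.le.trans (min_le_right _ _)) (by linarith)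
        _ = 7 / 8 := by field_simp
    have hCr : C * r ≤ ((2 : ℝ) ^ j)⁻¹ := by
      calc C * r ≤ 2 ^ k * r := mul_le_mul_of_nonneg_right hk.le hr0'.le
        _ = ((2 : ℝ) ^ j)⁻¹ := by rw [hr, pow_add]; field_simp
    have hsub := (hnc i x r hr0'.le hrr0 hxs (hx2.trans (by norm_num))).2
    have hcut : ∀ z ∈ G.near r x,
        z ∈ phiC i ⁻¹' Metric.closedBall y ((2 : ℝ) ^ j)⁻¹ ∧ push0 G i cutB z = 1 := by
      intro z hz
      obtain ⟨hzs, hzb⟩ := hsub hz
      rw [mem_preimage, Metric.mem_closedBall, dist_eq_norm] at hzb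
      refine ⟨?_, ?_⟩
      · rw [mem_preimage, phiC, indicator_of_mem hzs, Metric.mem_closedBall, dist_eq_norm]
        exact hzb.trans hCr
      · rw [push0_pos G i _ hzs, cut_one]
        calc ‖G.c i z‖ = ‖G.c i x + (G.c i z - G.c i x)‖ := by rw [add_sub_cancel]
          _ ≤ ‖G.c i x‖ + ‖G.c i z - G.c i x‖ := norm_add_le _ _
          _ ≤ 23 / 8 := by linarith
    have hle : D.mu.real (G.near r x) ≤ ν.real (Metric.closedBall y ((2 : ℝ) ^ j)⁻¹) := by
      refine ENNReal.toReal_mono (measure_ne_top _ _) ?_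
      rw [hν, nuC, Measure.map_apply (measurable_phiC i) measurableSet_closedBall,
        withDensity_apply _ ((measurable_phiC i) measurableSet_closedBall)]
      calc D.mu (G.near r x) = ∫⁻ _z in G.near r x, 1 ∂D.mu := (setLIntegral_one _).symm
        _ ≤ ∫⁻ z in G.near r x, ENNReal.ofReal (push0 G i cutB z) ∂D.mu :=
            setLIntegral_mono' (Base.near_measurableSet G r x) fun z hz => by
              rw [(hcut z hz).2, ENNReal.ofReal_one]
        _ ≤ _ := lintegral_mono_set fun z hz => (hcut z hz).1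
    have hθ' := hdens (j + k) ((le_max_left m m0).trans (hj.trans (Nat.le_add_right _ _)))
    rw [← hr, Geo.dens, le_inv_mul_iff₀ (by positivity)] at hθ'
    have h4 : (4 : ℝ) ^ j * r ^ 2 = ((4 : ℝ) ^ k)⁻¹ := by
      rw [hr, inv_pow, ← pow_mul, mul_comm (j + k) 2, pow_mul, show ((2 : ℝ) ^ 2) = 4 by norm_num,
        pow_add]
      field_simp
    calc θ * ((4 : ℝ) ^ k)⁻¹ = (4 : ℝ) ^ j * (r ^ 2 * θ) := by rw [← mul_assoc, h4]; ring
      _ ≤ _ := mul_le_mul_of_nonneg_left (hθ'.trans hle) (by positivity)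
  have hker0 : ∀ z, 0 ≤ Potential.ker 2 d (y - z) := fun z => inv_nonneg.2 (sq_nonneg _)
  have hker : Integrable (fun z => Potential.ker 2 d (y - z)) ν := by
    refine Integrable.of_bound ?_ ((d ^ 2)⁻¹) (Eventually.of_forall fun z => ?_)
    · refine Continuous.aestronglyMeasurable (Continuous.inv₀ ?_ fun z => ?_)
      · fun_prop
      · exact pow_ne_zero _ (by positivity)
    · rw [Real.norm_eq_abs, abs_of_nonneg (hker0 z)]
      exact inv_anti₀ (by positivity)
        (pow_le_pow_left₀ hd0.le (le_add_of_nonneg_left (norm_nonneg _)) 2)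
  have hint : ∀ j ∈ Finset.Icc m1 n, Integrable (fun z => (4 : ℝ) ^ j *
      (Metric.closedBall y ((2 : ℝ) ^ j)⁻¹).indicator (fun _ => (1 : ℝ)) z) ν := fun j _ =>
    ((integrable_const (1 : ℝ)).indicator measurableSet_closedBall).const_mul _
  have hmain : ((n + 1 - m1 : ℕ) : ℝ) * (θ * ((4 : ℝ) ^ k)⁻¹) ≤
      8 * Potential.potM 2 d ν y := by
    calc ((n + 1 - m1 : ℕ) : ℝ) * (θ * ((4 : ℝ) ^ k)⁻¹)
        = ∑ _j ∈ Finset.Icc m1 n, θ * ((4 : ℝ) ^ k)⁻¹ := by
          rw [Finset.sum_const, Nat.card_Icc, nsmul_eq_mul]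
      _ ≤ ∑ j ∈ Finset.Icc m1 n, (4 : ℝ) ^ j * ν.real (Metric.closedBall y ((2 : ℝ) ^ j)⁻¹) :=
          Finset.sum_le_sum fun j hj => hball j (Finset.mem_Icc.1 hj).1
      _ = ∫ z, ∑ j ∈ Finset.Icc m1 n, (4 : ℝ) ^ j *
            (Metric.closedBall y ((2 : ℝ) ^ j)⁻¹).indicator (fun _ => (1 : ℝ)) z ∂ν := by
          rw [integral_finsetSum _ hint]
          refine Finset.sum_congr rfl fun j _ => ?_
          rw [integral_const_mul]
          congr 1
          exact (integral_indicator_one measurableSet_closedBall).symm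
      _ ≤ ∫ z, 8 * Potential.ker 2 d (y - z) ∂ν :=
          integral_mono (integrable_finsetSum _ hint) (hker.const_mul 8)
            fun z => dyadic_le_ker hd0 hdn y z
      _ = _ := integral_const_mul _ _
  have hcount : (n : ℝ) - m1 ≤ ((n + 1 - m1 : ℕ) : ℝ) := by
    rcases le_total m1 (n + 1) with h | h
    · rw [Nat.cast_sub h]
      push_cast
      linarith
    · rw [Nat.sub_eq_zero_of_le h, Nat.cast_zero]
      have : (n : ℝ) + 1 ≤ m1 := by exact_mod_cast h
      linarith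
  have hθk : 0 ≤ θ * ((4 : ℝ) ^ k)⁻¹ := by positivity
  calc ((4 : ℝ) ^ k)⁻¹ / 8 * θ * ((n : ℝ) - m1) = ((n : ℝ) - m1) * (θ * ((4 : ℝ) ^ k)⁻¹) / 8 := by
        ring
    _ ≤ ((n + 1 - m1 : ℕ) : ℝ) * (θ * ((4 : ℝ) ^ k)⁻¹) / 8 := by gcongr
    _ ≤ Potential.potM 2 d ν y := by linarith

end Vale.Agent.P204.Full.Split
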