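import Vale.Agent.P204.Full.Split.CutBound
import Vale.Agent.P204.Full.Split.Lower
import Vale.Agent.P204.Full.Split.Limit

/-!
# P204 Split: the splitting statement from the two statements on the potentials
-/

open scoped Manifold ContDiff Topology
open MeasureTheory Set Filter Vale.Agent.P204.Full.Potential

noncomputable section

namespace Vale.Agent.P204.Full.Split

universe u

/-- The fourth root of `1 + n`. -/
def root4 (n : ℕ) : ℝ := Real.sqrt (Real.sqrt ((1 : ℝ) + n))

lemma root4_sq (n : ℕ) : root4 n ^ 2 = Real.sqrt ((1 : ℝ) + n) := Real.sq_sqrt (Real.sqrt_nonneg _)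

lemma root4_pow (n : ℕ) : root4 n ^ 4 = (1 : ℝ) + n := by
  rw [show 4 = 2 * 2 from rfl, pow_mul, root4_sq, Real.sq_sqrt (by positivity)]

lemma one_le_root4 (n : ℕ) : 1 ≤ root4 n :=
  Real.one_le_sqrt.2 (Real.one_le_sqrt.2 (le_add_of_nonneg_right n.cast_nonneg))

lemma tendsto_root4 : Tendsto root4 atTop atTop :=
  Real.tendsto_sqrt_atTop.comp (Real.tendsto_sqrt_atTop.comp
    (tendsto_atTop_add_const_left _ 1 tendsto_natCast_atTop_atTop))

lemma logScale_exp (n : ℕ) : logScale (Real.exp (-(n : ℝ))) = 1 + n := by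
  rw [logScale, one_div, ← Real.exp_neg, neg_neg, Real.log_exp]

lemma exp_le_sixteenth {n : ℕ} (hn : 3 ≤ n) : Real.exp (-(n : ℝ)) ≤ 1 / 16 := by
  rw [Real.exp_neg, one_div, inv_le_inv₀ (Real.exp_pos _) (by norm_num)]
  refine le_trans ?_ (Real.exp_le_exp.2 (show (3 : ℝ) ≤ n by exact_mod_cast hn))
  have h := Real.exp_one_gt_d9
  calc (16 : ℝ) ≤ (2.7182818283 : ℝ) ^ 3 := by norm_num
    _ ≤ Real.exp 1 ^ 3 := pow_le_pow_left₀ (by norm_num) h.le 3
    _ = Real.exp 3 := by rw [← Real.exp_nat_mul]; norm_num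

/-- The number of candidate bands. -/
def count (R : ℝ) (n : ℕ) : ℕ := ⌊Real.log (Real.sqrt (root4 n)) / Real.log R⌋₊

lemma pow_count_le {R : ℝ} (hR : 1 < R) (n : ℕ) : R ^ count R n ≤ Real.sqrt (root4 n) := by
  have h1 : 0 ≤ Real.log (Real.sqrt (root4 n)) :=
    Real.log_nonneg (Real.one_le_sqrt.2 (one_le_root4 n))
  have hl : 0 < Real.log R := Real.log_pos hR
  have h2 : (count R n : ℝ) ≤ Real.log (Real.sqrt (root4 n)) / Real.log R :=
    Nat.floor_le (div_nonneg h1 hl.le)
  rw [le_div_iff₀ hl, ← Real.log_pow] at h2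
  exact (Real.log_le_log_iff (pow_pos (by linarith) _)
    (Real.sqrt_pos.2 (by linarith [one_le_root4 n]))).1 h2

lemma tendsto_count {R : ℝ} (hR : 1 < R) : Tendsto (count R) atTop atTop :=
  tendsto_nat_floor_atTop.comp
    ((Real.tendsto_log_atTop.comp (Real.tendsto_sqrt_atTop.comp tendsto_root4)).atTop_div_const
      (Real.log_pos hR))

variable {X : Type u} [TopologicalSpace X] [T2Space X] [CompactSpace X] [ChartedSpace R4 X]
  [IsManifold 𝓘(ℝ, R4) ∞ X] [MeasurableSpace X] [BorelSpace X] {G : Geo X}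

/-- The splitting of one pair. -/
theorem hasSplitting (hK : KernelStatement) (hPot : PotentialStatement) {D : Pair G}
    (hDB : DensBounded D) (hDM : DensMonotone D) (hQS : QSquareIntegrable D) : HasSplitting D := by
  classical
  obtain ⟨h, hh⟩ := exists_qdata hQS
  obtain ⟨C, hC, hLoc⟩ := exists_loc hK hPot hDB hh
  obtain ⟨Cc, hCc, hCmp⟩ := potU_compare (G := G)
  obtain ⟨cl, hcl, hlow⟩ := potM_lower (D := D)
  have := D.finite_mu
  set μ1 := D.mu.real univ with hμ1
  have hμ0 : 0 ≤ μ1 := measureReal_nonneg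
  set K : ℝ := C * (C + 3) + Cc * (1 + μ1) with hKdef
  have hK1 : 1 ≤ K := by
    have : 0 ≤ Cc * (1 + μ1) := by positivity
    nlinarith
  have hKw : C * (C + 3) ≤ K ∧ Cc * (1 + μ1) ≤ K := by
    have h1 : 0 ≤ Cc * (1 + μ1) := by positivity
    have h2 : 0 ≤ C * (C + 3) := by positivity
    constructor <;> linarith
  set R : ℝ := K * Cc * (K + μ1) + 2 with hR
  have hR1 : 1 < R := by
    have : 0 ≤ K * Cc * (K + μ1) := by positivity
    linarith
  -- a scale on which the band carries little mass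
  have hsel : ∀ n : ℕ, ∃ k : ℝ, root4 n ^ 3 ≤ k ∧ k ≤ root4 n ^ 3 * Real.sqrt (root4 n) ∧
      D.mu.real (band D (Real.exp (-(n : ℝ))) K k) ≤ μ1 / (count R n + 1) := by
    intro n
    set d := Real.exp (-(n : ℝ)) with hd
    have hd0 : 0 < d := Real.exp_pos _
    set N := count R n with hN
    set kk : ℕ → ℝ := fun l => root4 n ^ 3 * R ^ l with hkk
    have h3 : 1 ≤ root4 n ^ 3 := one_le_pow₀ (one_le_root4 n)
    have hkk1 : ∀ l, root4 n ^ 3 ≤ kk l := fun l =>
      le_mul_of_one_le_right (by linarith) (one_le_pow₀ hR1.le)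
    have hlt : ∀ l l', l < l' → Disjoint (band D d K (kk l)) (band D d K (kk l')) := by
      intro l l' hll
      refine Set.disjoint_left.2 fun x hx hx' => ?_
      obtain ⟨j, hxj, -, hUj⟩ := mem_iUnion.1 hx
      obtain ⟨i, hxi, hUi, -⟩ := mem_iUnion.1 hx'
      obtain ⟨hjs, hjn⟩ := (Base.mem_K G (by norm_num)).1 hxj
      obtain ⟨his, hin⟩ := (Base.mem_K G (by norm_num)).1 hxi
      have h1 := hCmp D i j d x hd0 his hin hjs hjn
      have hk : 1 ≤ kk l := h3.trans (hkk1 l)
      have h2 : kk l' ≤ K * (Cc * ((K + μ1) * kk l)) := by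
        refine hUi.trans (mul_le_mul_of_nonneg_left (h1.trans ?_) (by linarith))
        refine mul_le_mul_of_nonneg_left ?_ (by linarith)
        have := mul_le_mul_of_nonneg_left hk hμ0
        linarith
      have h4 : R * kk l ≤ kk l' := by
        rw [hkk]
        calc R * (root4 n ^ 3 * R ^ l) = root4 n ^ 3 * R ^ (l + 1) := by ring
          _ ≤ root4 n ^ 3 * R ^ l' := by
              gcongr
              · exact hR1.le
              · omega
      have h5 : R * kk l = K * (Cc * ((K + μ1) * kk l)) + 2 * kk l := by rw [hR]; ring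
      linarith
    have hdisj : Set.PairwiseDisjoint (↑(Finset.range (N + 1))) fun l => band D d K (kk l) :=
      fun l _ l' _ hne => (Nat.lt_or_gt_of_ne hne).elim (hlt l l') fun h' => (hlt l' l h').symm
    have hsum : ∑ l ∈ Finset.range (N + 1), D.mu.real (band D d K (kk l)) ≤
        ∑ _l ∈ Finset.range (N + 1), μ1 / (N + 1) := by
      refine (sum_measureReal_le_measureReal_univ
        (fun l _ => measurableSet_band D hd0 K (kk l)) hdisj).trans_eq ?_
      rw [Finset.sum_const, Finset.card_range, nsmul_eq_mul, Nat.cast_add, Nat.cast_one]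
      field_simp
      rfl
    obtain ⟨l, hl, hle⟩ := Finset.exists_le_of_sum_le (Finset.nonempty_range_iff.2 (by omega)) hsum
    refine ⟨kk l, hkk1 l, ?_, hle⟩
    refine mul_le_mul_of_nonneg_left ((pow_le_pow_right₀ hR1.le ?_).trans (pow_count_le hR1 n))
      (by linarith)
    rw [Finset.mem_range] at hl
    omega
  choose k hk3 hk35 hband using hsel
  let good : ℕ → Prop := fun n => 3 ≤ n ∧ K ≤ root4 n ^ 3
  have hev : ∀ᶠ n in atTop, good n := (eventually_ge_atTop 3).and
    (((tendsto_pow_atTop (show 3 ≠ 0 by norm_num)).comp tendsto_root4).eventually_ge_atTop K)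
  let Q : ∀ (n : ℕ), 3 ≤ n → ∀ i : Fin G.n, Loc D h i C (Real.exp (-(n : ℝ))) := fun n hn i =>
    (hLoc i _ (Real.exp_pos _) (exp_le_sixteenth hn)).some
  let W : ℕ → X → ℝ := fun n => if hn : good n then cutW (Q n hn.1) (k n) else fun _ => 0
  have hwide : ∀ n, good n → Wide D C Cc K (k n) := fun n hn =>
    ⟨hKw.1, hKw.2, hn.2.trans (hk3 n)⟩
  have hlogk : ∀ n : ℕ, logScale (Real.exp (-(n : ℝ))) ≤ k n ^ 2 ∧
      logScale (Real.exp (-(n : ℝ))) / k n ^ 2 ≤ 1 / root4 n ^ 2 := by
    intro n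
    have h1 := one_le_root4 n
    rw [logScale_exp, ← root4_pow]
    have h2 : root4 n ^ 6 ≤ k n ^ 2 := by
      rw [show 6 = 3 * 2 from rfl, pow_mul]
      exact pow_le_pow_left₀ (by positivity) (hk3 n) 2
    refine ⟨(pow_le_pow_right₀ h1 (by norm_num)).trans h2, ?_⟩
    calc root4 n ^ 4 / k n ^ 2 ≤ root4 n ^ 4 / root4 n ^ 6 := by gcongr
      _ = 1 / root4 n ^ 2 := by field_simp
  refine splitting_of_cutoffs hDB hDM W (fun n => ?_) (fun n x => ?_) (fun a ha => ?_)
    fun θ hθ m => ?_
  · by_cases hn : good n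
    · simp only [W, dif_pos hn]
      exact cutW_smooth _ _
    · simp only [W, dif_neg hn]
      exact contMDiff_const
  · by_cases hn : good n
    · simp only [W, dif_pos hn]
      exact cutW_mem _ _ _
    · simp only [W, dif_neg hn]
      exact ⟨le_rfl, zero_le_one⟩
  · obtain ⟨A, hA⟩ := cut_est (G := G) C Cc ha
    have hsmall : Tendsto (fun n => μ1 / ((count R n : ℝ) + 1) + 1 / root4 n ^ 2) atTop (𝓝 0) := by
      rw [show (0 : ℝ) = 0 + 0 from (add_zero 0).symm]
      refine Tendsto.add ?_ ?_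
      · exact Tendsto.div_atTop tendsto_const_nhds
          ((tendsto_natCast_atTop_atTop.comp (tendsto_count hR1)).atTop_add tendsto_const_nhds)
      · exact Tendsto.div_atTop tendsto_const_nhds
          ((tendsto_pow_atTop two_ne_zero).comp tendsto_root4)
    rw [Metric.tendsto_nhds]
    intro ε hε
    set δ : ℝ := min 1 (ε / (4 * (|A| + 1))) with hδ
    have hδ0 : 0 < δ := by positivity
    filter_upwards [hev, hsmall.eventually_lt_const (show (0 : ℝ) < δ * δ by positivity)]
      with n hn hnsmall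
    rw [Real.dist_eq, sub_zero]
    simp only [W, dif_pos hn]
    have h1 := hA D h hh _ (Q n hn.1) K (k n) (hwide n hn) hCc (Real.exp_pos _)
      (exp_le_sixteenth hn.1) hC (hlogk n).1
      (fun i j x a b c e => hCmp D i j _ x (Real.exp_pos _) a b c e) δ hδ0 (min_le_left _ _)
    have hL0 : 0 ≤ logScale (Real.exp (-(n : ℝ))) / k n ^ 2 := by
      rw [logScale_exp]; positivity
    have hμb : 0 ≤ D.mu.real (band D (Real.exp (-(n : ℝ))) K (k n)) := measureReal_nonneg
    have h2 : (D.mu.real (band D (Real.exp (-(n : ℝ))) K (k n)) +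
        logScale (Real.exp (-(n : ℝ))) / k n ^ 2) / δ ≤ δ := by
      rw [div_le_iff₀ hδ0]
      linarith [hband n, (hlogk n).2]
    have hsum0 : 0 ≤ δ + (D.mu.real (band D (Real.exp (-(n : ℝ))) K (k n)) +
        logScale (Real.exp (-(n : ℝ))) / k n ^ 2) / δ := by positivity
    have h3 : δ * (4 * (|A| + 1)) ≤ ε :=
      (le_div_iff₀ (by positivity)).1 (min_le_right _ _)
    refine lt_of_le_of_lt h1 (lt_of_le_of_lt
      (mul_le_mul (le_abs_self A) (add_le_add le_rfl h2) hsum0 (abs_nonneg A)) ?_)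
    linarith [mul_nonneg hδ0.le (abs_nonneg A)]
  · obtain ⟨m1, hm1⟩ := hlow θ hθ m
    filter_upwards [hev,
      tendsto_root4.eventually_ge_atTop ((2 * K / (cl * θ)) ^ 2 + 2 * (1 + m1))] with n hn hbig x hx
    simp only [W, dif_pos hn]
    refine cutW_one (Q n hn.1) (hwide n hn) fun i hi hin => ?_
    refine lt_of_lt_of_le ?_ (hm1 i n x hi hin hx)
    have hq : 0 ≤ 2 * K / (cl * θ) := by positivity
    have ha1 := one_le_root4 n
    set a := root4 n with ha
    set s := Real.sqrt a with hs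
    have hs1 : 2 * K / (cl * θ) < s := by
      rw [hs, Real.lt_sqrt hq]
      linarith [show (0 : ℝ) ≤ m1 from Nat.cast_nonneg m1]
    rw [div_lt_iff₀ (by positivity)] at hs1
    have hn1 : (n : ℝ) = a ^ 4 - 1 := by rw [ha, root4_pow]; ring
    have h4 : 2 * (1 + (m1 : ℝ)) ≤ a ^ 4 := by
      refine le_trans ?_ (le_self_pow₀ ha1 (by norm_num))
      linarith [sq_nonneg (2 * K / (cl * θ))]
    have hs2 : a ^ 4 = a ^ 3 * (s * s) := by
      rw [hs, Real.mul_self_sqrt (by linarith)]; ring
    have hs0 : 0 < s := Real.sqrt_pos.2 (by linarith)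
    calc K * k n ≤ K * (a ^ 3 * s) := mul_le_mul_of_nonneg_left (hk35 n) (by linarith)
      _ = a ^ 3 * s * (2 * K) / 2 := by ring
      _ < a ^ 3 * s * (s * (cl * θ)) / 2 := by gcongr
      _ = cl * θ * (a ^ 4 / 2) := by rw [hs2]; ring
      _ ≤ cl * θ * ((n : ℝ) - m1) := by
          gcongr
          linarith

/-- The splitting statement. -/
theorem splitting_of (hK : KernelStatement) (hPot : PotentialStatement) :
    SplittingStatement.{u} := by
  intro X _ _ _ _ _ _ _ G D hDB hDM hQS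
  exact hasSplitting hK hPot hDB hDM hQS

end Vale.Agent.P204.Full.Split
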