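import Vale.Agent.P204.Full.Split.Current

/-!
# P204 Split: the mollified current is nearly semipositive
-/

open scoped Manifold ContDiff Topology
open MeasureTheory Set Filter Vale.Agent.P204.Full.Potential

noncomputable section

namespace Vale.Agent.P204.Full.Split

universe u

/-- The Pfaffian identity. -/
lemma pfaffian {F : Bil} (hF : IsAlt F) (p q r s : R4) :
    top22 F F / 2 * dual22 p q r s = F p q * F r s - F p r * F q s + F p s * F q r := by
  rw [Base.alt_expand hF p q, Base.alt_expand hF r s, Base.alt_expand hF p r, Base.alt_expand hF q s,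
    Base.alt_expand hF p s, Base.alt_expand hF q r]
  simp only [top22, dual22_apply, pl]
  ring

section Hermitian

variable {J : Endo} {om : Bil} (hJ : ∀ v, J (J v) = -v) (halt : IsAlt om)
  (hinv : pullBil J om = om)
include hJ halt hinv

/-- The dual of a complex line is semipositive. -/
lemma dual22_line_nonneg (hpos : ∀ v, v ≠ 0 → 0 < om v (J v)) (htop : 0 < top22 om om) (v w : R4) :
    0 ≤ dual22 v (J v) w (J w) := by
  have hi : ∀ a b, om (J a) (J b) = om a b := fun a b => by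
    rw [← pullBil_apply, hinv]
  rcases eq_or_ne v 0 with rfl | hv
  · simp [dual22_apply, pl]
  have h := pfaffian halt v (J v) w (J w)
  set g0 := om v (J v) with hg0
  set a0 := om v (J w) with ha0
  set b0 := om v w with hb0
  have h1 : om (J v) (J w) = b0 := hi v w
  have h2 : om (J v) w = -a0 := by
    rw [← hi (J v) w, hJ, map_neg, neg_apply]
  have e1 : om w (J v) = a0 := by rw [halt w (J v), h2, neg_neg]
  have e2 : om w v = -b0 := halt w v
  have e3 : om (J v) v = -g0 := halt (J v) v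
  have hw : 0 ≤ om (g0 • w - a0 • v - b0 • J v) (J (g0 • w - a0 • v - b0 • J v)) := by
    rcases eq_or_ne (g0 • w - a0 • v - b0 • J v) 0 with h0 | h0
    · rw [h0]; simp
    · exact (hpos _ h0).le
  have hg : 0 < g0 := hpos v hv
  have key : a0 ^ 2 + b0 ^ 2 ≤ g0 * om w (J w) := by
    have e : om (g0 • w - a0 • v - b0 • J v) (J (g0 • w - a0 • v - b0 • J v)) =
        g0 * (g0 * om w (J w) - a0 ^ 2 - b0 ^ 2) := by
      simp only [map_sub, map_smul, sub_apply, smul_apply, smul_eq_mul, hJ, map_neg, h1, e1, e2, e3,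
        Base.isAlt_self halt, ← hg0, ← ha0]
      ring
    rw [e] at hw
    linarith [nonneg_of_mul_nonneg_right hw hg]
  have hd : top22 om om / 2 * dual22 v (J v) w (J w) =
      g0 * om w (J w) - b0 ^ 2 - a0 ^ 2 := by
    rw [h, h1, h2]
    ring
  have hn : 0 ≤ top22 om om / 2 * dual22 v (J v) w (J w) := by rw [hd]; linarith
  exact nonneg_of_mul_nonneg_right hn (by positivity)

end Hermitian

/-- A semipositive form stays semipositive up to second order. -/
lemma second_order {J J' : Endo} {b : Bil} (hJ : ∀ v, J (J v) = -v) (halt : IsAlt b)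
    (hinv : pullBil J b = b) (hpos : ∀ w, 0 ≤ b w (J w)) (w : R4) :
    -(‖b‖ * ‖J‖ * ‖J' - J‖ ^ 2 * ‖w‖ ^ 2) ≤ b w (J' w) := by
  set Δ := (J' - J) w with hΔ
  set t : R4 := -(2⁻¹ : ℝ) • J Δ with ht
  have hi : ∀ a c, b (J a) (J c) = b a c := fun a c => by rw [← pullBil_apply, hinv]
  have h0 := hpos (w + t)
  have hJt : J t = (2⁻¹ : ℝ) • Δ := by
    rw [ht, map_smul, hJ, smul_neg, neg_smul, neg_neg]
  have hsym : b t (J w) = b w (J t) := by
    rw [← hi t (J w), hJ, map_neg, ← halt]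
  have hbound : b t (J t) ≤ ‖b‖ * ‖J‖ * ‖J' - J‖ ^ 2 * ‖w‖ ^ 2 := by
    refine (le_abs_self _).trans ((b.le_opNorm₂ t (J t)).trans ?_)
    have h1 : ‖t‖ ≤ ‖J‖ * (‖J' - J‖ * ‖w‖) := by
      rw [ht, norm_smul]
      refine le_trans ?_ ((J.le_opNorm Δ).trans (by gcongr; exact (J' - J).le_opNorm w))
      rw [norm_neg, Real.norm_eq_abs, abs_of_nonneg (by norm_num : (0:ℝ) ≤ 2⁻¹)]
      linarith [norm_nonneg (J Δ)]
    have h2 : ‖J t‖ ≤ ‖J' - J‖ * ‖w‖ := by
      rw [hJt, norm_smul, Real.norm_eq_abs, abs_of_nonneg (by norm_num : (0:ℝ) ≤ 2⁻¹)]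
      linarith [(J' - J).le_opNorm w, norm_nonneg Δ]
    calc ‖b‖ * ‖t‖ * ‖J t‖ ≤ ‖b‖ * (‖J‖ * (‖J' - J‖ * ‖w‖)) * (‖J' - J‖ * ‖w‖) := by
          gcongr
      _ = _ := by ring
  have e : b w (J' w) = b w (J w) + 2 * b w (J t) := by
    rw [hJt, map_smul, smul_eq_mul, hΔ, sub_apply, map_sub]
    ring
  simp only [map_add, add_apply, hsym] at h0
  rw [e]
  linarith

variable {X : Type u} [TopologicalSpace X] [T2Space X] [CompactSpace X] [ChartedSpace R4 X]
  [IsManifold 𝓘(ℝ, R4) ∞ X] [MeasurableSpace X] [BorelSpace X] {G : Geo X}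

/-- The current is semipositive up to second order errors. -/
lemma fsm_pos : ∃ A : ℝ, 0 ≤ A ∧ ∀ (D : Pair G) (h : X → ℝ), QData D h →
    ∀ (i : Fin G.n) (d : ℝ), 0 < d → ∀ x : R4, ‖x‖ ≤ 11 / 4 → ∀ v : R4,
      -(A * (d ^ 2 * (∫ z, moll d (x - z) ∂nuC i D.mu) +
        d * ∫ z, hloc i h z * moll d (x - z)) * ‖v‖ ^ 2) ≤ fsm D i d x v (Jc G i x v) := by
  obtain ⟨CP, hCP0, hCP⟩ := P_lower G
  obtain ⟨CQ, hCQ0, hCQ⟩ := Q_bound (G := G)
  obtain ⟨L, hL0, hL⟩ := coef_bounds (G := G)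
  obtain ⟨K, hK0, hK⟩ := dual22_bound
  refine ⟨CP * (K * L * L * L ^ 2) + CQ * (L * L * (K * L)), by positivity,
    fun D h hh i d hd x hx v => ?_⟩
  set g : R4 → ℝ := fun z => moll d (x - z) with hg
  have hgs : ContDiff ℝ ∞ g := (moll_smooth d).comp (contDiff_const.sub contDiff_id)
  have hxt : x ∈ Metric.ball (0 : R4) 4 := by rw [mem_ball_zero_iff]; linarith
  have hJ : ∀ w, Jc G i x (Jc G i x w) = -w := (coef G i).J_sq x hxt
  have halt := (coef G i).om_alt x hxt
  have hinv := (coef G i).om_inv x hxt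
  have htop := (coef G i).om_top x hxt
  have hdet : (Jc G i x).det = 1 := det_eq_one halt hinv htop
  set b : Bil := dual22 v (Jc G i x v) with hb
  have hbi : pullBil (Jc G i x) b = b := dual22_line hJ hdet v
  have hJx := (hL i x x (by linarith) (by linarith)).1
  have hbn : ‖b‖ ≤ K * L * ‖v‖ ^ 2 := by
    refine (hK v _).trans ?_
    calc K * (‖v‖ * ‖Jc G i x v‖) ≤ K * (‖v‖ * (L * ‖v‖)) := by
          gcongr; exact ((Jc G i x).le_opNorm v).trans (by gcongr)
      _ = _ := by ring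
  have hF := fld_weight i hgs (B := fun _ => b) contDiffOn_const fun _ => isAlt_dual22 _ _
  have hgc : Continuous fun z => cutB z * g z := cutB.continuous.mul hgs.continuous
  have h0 : ∀ z, 0 ≤ cutB z * g z := fun z => mul_nonneg cutB.nonneg (moll_nonneg _ _)
  have hdist : ∀ z, cutB z * g z ≠ 0 → ‖z‖ ≤ 3 ∧ ‖Jc G i z - Jc G i x‖ ≤ L * d := by
    intro z hz
    have hz3 : ‖z‖ ≤ 3 := not_lt.1 fun h' => hz (by rw [cut_in3 z h', zero_mul])
    refine ⟨hz3, (hL i z x hz3 (by linarith)).2.2.1.trans (mul_le_mul_of_nonneg_left ?_ hL0)⟩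
    rw [norm_sub_rev]
    exact (moll_supp hd (right_ne_zero_of_mul hz)).le
  set P0 : ℝ := K * L * L * L ^ 2 * (d ^ 2 * ‖v‖ ^ 2) with hP0
  have hP00 : 0 ≤ P0 := by positivity
  have hP := hCP D.toPosCur i _ (fun z => P0 * (cutB z * g z)) hF (continuous_const.mul hgc)
    (fun z hz => by simp [cut_in3 z hz]) (fun z => mul_nonneg hP00 (h0 z)) fun z _ w => ?_
  · have hQ := hCQ D h hh i _ hF
    have hq : ∫ z, hloc i h z * ‖anti20 (Jc G i z) ((cutB z * g z) • b)‖ ≤
        L * L * (K * L) * (d * ‖v‖ ^ 2) * ∫ z, hloc i h z * g z := by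
      rw [← integral_const_mul]
      obtain ⟨hca, h3a⟩ := hF.anti i
      refine integral_mono (integrable_hloc_mul i hh.meas hh.memLp hca.norm h3a.norm)
        ((integrable_hloc_cont i hh.meas hh.memLp hgs.continuous).const_mul _) fun z => ?_
      rw [mul_left_comm _ (hloc i h z)]
      refine mul_le_mul_of_nonneg_left ?_ (hloc_nonneg i hh.nonneg z)
      rw [anti20_smul, norm_smul, Real.norm_eq_abs, abs_of_nonneg (h0 z)]
      rcases eq_or_ne (cutB z * g z) 0 with hz | hz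
      · rw [hz, zero_mul]
        exact mul_nonneg (by positivity) (moll_nonneg _ _)
      obtain ⟨hz3, hJd⟩ := hdist z hz
      have e : anti20 (Jc G i z) b = -((2⁻¹ : ℝ) • (pullBil (Jc G i z) b - pullBil (Jc G i x) b)) := by
        rw [anti20, hbi]
        module
      have hbd : ‖anti20 (Jc G i z) b‖ ≤ L * L * (K * L) * (d * ‖v‖ ^ 2) := by
        rw [e, norm_neg, norm_smul, Real.norm_eq_abs, abs_of_nonneg (by norm_num : (0:ℝ) ≤ 2⁻¹)]
        calc (2⁻¹ : ℝ) * ‖pullBil (Jc G i z) b - pullBil (Jc G i x) b‖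
            ≤ (2⁻¹ : ℝ) * ((L + L) * (L * d) * (K * L * ‖v‖ ^ 2)) := by
              refine mul_le_mul_of_nonneg_left ((pull_sub_le _ _ _).trans ?_) (by norm_num)
              gcongr
              exact (hL i z z hz3 hz3).1
          _ = _ := by ring
      calc cutB z * g z * ‖anti20 (Jc G i z) b‖
          ≤ 1 * g z * (L * L * (K * L) * (d * ‖v‖ ^ 2)) :=
            mul_le_mul (mul_le_mul_of_nonneg_right cutB.le_one (moll_nonneg _ _)) hbd
              (norm_nonneg _) (mul_nonneg zero_le_one (moll_nonneg _ _))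
        _ = _ := by ring
    have hm : 0 ≤ ∫ z, g z ∂nuC i D.mu := integral_nonneg fun z => moll_nonneg _ _
    have hq0 : 0 ≤ ∫ z, hloc i h z * g z :=
      integral_nonneg fun z => mul_nonneg (hloc_nonneg i hh.nonneg z) (moll_nonneg _ _)
    have e1 : ∫ x, push0 G i (fun z => P0 * (cutB z * g z)) x ∂D.mu =
        P0 * ∫ z, g z ∂nuC i D.mu := by
      rw [integral_nuC i D.mu hgs.continuous, ← integral_const_mul]
      refine integral_congr_ae (Eventually.of_forall fun x' => ?_)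
      by_cases hx' : x' ∈ (G.c i).source
      · simp only [push0_pos G i _ hx']
      · simp only [push0_neg G i _ hx', mul_zero]
    rw [e1] at hP
    rw [fsm_apply, testL_eq, psi_apply]
    have hQ' := (abs_le.1 (hQ.trans (mul_le_mul_of_nonneg_left hq hCQ0))).1
    have s1 : 0 ≤ CP * (K * L * L * L ^ 2) * (d * (∫ z, hloc i h z * g z) * ‖v‖ ^ 2) := by
      positivity
    have s2 : 0 ≤ CQ * (L * L * (K * L)) * (d ^ 2 * (∫ z, g z ∂nuC i D.mu) * ‖v‖ ^ 2) := by
      positivity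
    simp only [hP0] at hP
    simp only [hg] at hP hQ' s1 s2 ⊢
    linarith
  · show -(P0 * (cutB z * g z) * ‖w‖ ^ 2) ≤ ((cutB z * g z) • b) w (Jc G i z w)
    rw [smul_apply, smul_apply, smul_eq_mul]
    rcases eq_or_ne (cutB z * g z) 0 with hz | hz
    · simp [hz]
    obtain ⟨hz3, hJd⟩ := hdist z hz
    have h2 := second_order (J' := Jc G i z) hJ (isAlt_dual22 _ _) hbi
      (dual22_line_nonneg hJ halt hinv ((coef G i).om_pos x hxt) htop v) w
    have h3 : ‖b‖ * ‖Jc G i x‖ * ‖Jc G i z - Jc G i x‖ ^ 2 * ‖w‖ ^ 2 ≤ P0 * ‖w‖ ^ 2 := by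
      refine mul_le_mul_of_nonneg_right ?_ (sq_nonneg _)
      calc ‖b‖ * ‖Jc G i x‖ * ‖Jc G i z - Jc G i x‖ ^ 2 ≤ K * L * ‖v‖ ^ 2 * L * (L * d) ^ 2 := by
            gcongr
        _ = _ := by rw [hP0]; ring
    calc -(P0 * (cutB z * g z) * ‖w‖ ^ 2) = cutB z * g z * -(P0 * ‖w‖ ^ 2) := by ring
      _ ≤ _ := mul_le_mul_of_nonneg_left (by linarith) (h0 z)

end Vale.Agent.P204.Full.Split
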