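import Vale.Agent.P204.Full.Base.Volume
import Vale.Agent.P204.Full.Base.Fields
import Vale.Agent.P204.Full.Base.Duality
import Vale.Agent.P204.Full.Bridge.Geo
import Vale.Agent.P204.Full.Point.Cur
import Vale.Agent.P204.Full.Interfaces

/-!
# P204 Split: fields supported in one chart, and the two functionals on them
-/

open scoped Manifold ContDiff Topology
open MeasureTheory Set Filter

noncomputable section

namespace Vale.Agent.P204.Full.Split

universe u

/-- Vanishing outside the ball of radius three. -/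
def In3 {E : Type*} [Zero E] (g : R4 → E) : Prop := ∀ y, 3 < ‖y‖ → g y = 0

lemma In3.tsupport {E : Type*} [Zero E] {g : R4 → E} (h : In3 g) :
    tsupport g ⊆ Metric.closedBall 0 3 := by
  refine closure_minimal (fun y hy => ?_) Metric.isClosed_closedBall
  by_contra hn
  exact hy (h y (not_le.1 fun h' => hn (mem_closedBall_zero_iff.2 h')))

lemma In3.hcs {E : Type*} [Zero E] {g : R4 → E} (h : In3 g) : HasCompactSupport g :=
  (isCompact_closedBall 0 3).of_isClosed_subset (isClosed_tsupport g) h.tsupport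

lemma In3.smul {E : Type*} [AddCommGroup E] [Module ℝ E] {g : R4 → ℝ} (h : In3 g) (f : R4 → E) :
    In3 fun y => g y • f y := fun y hy => by simp [h y hy]

lemma In3.norm {E : Type*} [NormedAddCommGroup E] {g : R4 → E} (h : In3 g) :
    In3 fun y => ‖g y‖ := fun y hy => by simp [h y hy]

/-- Admissible chart fields. -/
structure Fld (β : R4 → Bil) : Prop where
  alt : ∀ y, IsAlt (β y)
  smooth : ContDiff ℝ ∞ β
  supp : In3 β

variable {X : Type u} [TopologicalSpace X] [ChartedSpace R4 X] [IsManifold 𝓘(ℝ, R4) ∞ X]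
  (G : Geo X) (i : Fin G.n)

lemma ball3_target {y : R4} (hy : ‖y‖ ≤ 3) : y ∈ (G.c i).target := by
  rw [G.c_target i, Metric.mem_ball, dist_zero_right]
  linarith

lemma In3.subset_target {E : Type*} [Zero E] {g : R4 → E} (h : In3 g) :
    _root_.tsupport g ⊆ (G.c i).target :=
  fun _ hy => ball3_target G i (mem_closedBall_zero_iff.1 (h.tsupport hy))

/-- The almost complex structure in the chart. -/
abbrev Jc (y : R4) : Endo := Base.viewJ G.J (G.c i) y

/-- The fundamental form in the chart. -/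
abbrev omc (y : R4) : Bil := view2 (G.c i) G.omega y

/-- A function of the chart, extended by zero. -/
def push0 (g : R4 → ℝ) : X → ℝ := (G.c i).source.indicator fun x => g (G.c i x)

lemma push0_pos (g : R4 → ℝ) {x : X} (h : x ∈ (G.c i).source) : push0 G i g x = g (G.c i x) :=
  indicator_of_mem h _

lemma push0_neg (g : R4 → ℝ) {x : X} (h : x ∉ (G.c i).source) : push0 G i g x = 0 :=
  indicator_of_notMem h _

lemma push0_symm (g : R4 → ℝ) {y : R4} (hy : y ∈ (G.c i).target) :
    push0 G i g ((G.c i).symm y) = g y := by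
  rw [push0_pos G i g ((G.c i).map_target hy), (G.c i).right_inv hy]

lemma push0_nonneg {g : R4 → ℝ} (h : ∀ y, 0 ≤ g y) (x : X) : 0 ≤ push0 G i g x :=
  indicator_nonneg (fun _ _ => h _) x

lemma push0_mono {g g' : R4 → ℝ} (h : ∀ y, g y ≤ g' y) (x : X) :
    push0 G i g x ≤ push0 G i g' x := by
  by_cases hx : x ∈ (G.c i).source
  · rw [push0_pos G i g hx, push0_pos G i g' hx]; exact h _
  · rw [push0_neg G i g hx, push0_neg G i g' hx]

lemma push0_ne {g : R4 → ℝ} (h : In3 g) {x : X} (hx : push0 G i g x ≠ 0) :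
    x ∈ Base.K G i 3 := by
  by_cases hs : x ∈ (G.c i).source
  · rw [push0_pos G i g hs] at hx
    exact (Base.mem_K G (by norm_num)).2 ⟨hs, not_lt.1 fun h' => hx (h _ h')⟩
  · exact absurd (push0_neg G i g hs) hx

/-- The push-forward of fields, as a linear map. -/
def pushL : (R4 → Bil) →ₗ[ℝ] (X → Bil) where
  toFun := push2 (G.c i)
  map_add' β γ := by
    funext x
    by_cases hx : x ∈ (G.c i).source
    · rw [Pi.add_apply, Base.push2_pos _ hx, Base.push2_pos _ hx, Base.push2_pos _ hx]
      rfl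
    · simp [push2, if_neg hx]
  map_smul' a β := by
    funext x
    by_cases hx : x ∈ (G.c i).source
    · rw [Pi.smul_apply, RingHom.id_apply, Base.push2_pos _ hx, Base.push2_pos _ hx]
      rfl
    · simp [push2, if_neg hx]

lemma pushL_apply (β : R4 → Bil) : pushL G i β = push2 (G.c i) β := rfl

lemma push2_fun (g : R4 → ℝ) (β : R4 → Bil) (x : X) :
    push2 (G.c i) (fun y => g y • β y) x = push0 G i g x • push2 (G.c i) β x := by
  by_cases hx : x ∈ (G.c i).source
  · rw [push0_pos G i g hx, Base.push2_pos _ hx, Base.push2_pos _ hx]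
    rfl
  · rw [push0_neg G i g hx, push2, if_neg hx, zero_smul]

lemma view2_push2 (β : R4 → Bil) {y : R4} (hy : y ∈ (G.c i).target) :
    view2 (G.c i) (push2 (G.c i) β) y = β y := by
  rw [view2, Base.push2_pos _ ((G.c i).map_target hy), ← Base.pullBil_comp, (G.c i).right_inv hy,
    Base.dchart_comp_dsymm (G.c_mem i) hy, Base.pullBil_id]

lemma push2_view (θ : X → Bil) {x : X} (hx : x ∈ (G.c i).source) :
    push2 (G.c i) (view2 (G.c i) θ) x = θ x := by
  rw [Base.push2_pos _ hx, view2, ← Base.pullBil_comp,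
    Base.dsymm_comp_dchart (G.c_mem i) hx, (G.c i).left_inv hx, Base.pullBil_id]

lemma push2_pullJ (β : R4 → Bil) (x : X) :
    pullBil (G.J x) (push2 (G.c i) β x) =
      push2 (G.c i) (fun y => pullBil (Jc G i y) (β y)) x := by
  by_cases hx : x ∈ (G.c i).source
  · rw [Base.push2_pos _ hx, Base.push2_pos _ hx, ← Base.pullBil_comp, ← Base.pullBil_comp]
    exact congrArg (fun A => pullBil A _)
      (ContinuousLinearMap.ext fun v => Bridge.dchart_J G.J (G.c_mem i) hx v)
  · simp only [push2, if_neg hx, pullBil_zero]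

lemma p20_push2 (β : R4 → Bil) :
    G.p20 (push2 (G.c i) β) = push2 (G.c i) (fun y => anti20 (Jc G i y) (β y)) := by
  funext x
  have h := push2_pullJ G i β x
  by_cases hx : x ∈ (G.c i).source
  · simp only [Geo.p20, anti20]
    rw [h]
    rw [Base.push2_pos _ hx, Base.push2_pos _ hx, Base.push2_pos _ hx]
    rfl
  · simp [Geo.p20, anti20, push2, if_neg hx, pullBil_zero]

lemma p11_push2 (β : R4 → Bil) :
    G.p11 (push2 (G.c i) β) = push2 (G.c i) (fun y => inv11 (Jc G i y) (β y)) := by
  funext x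
  have h := push2_pullJ G i β x
  by_cases hx : x ∈ (G.c i).source
  · simp only [Geo.p11, inv11]
    rw [h]
    rw [Base.push2_pos _ hx, Base.push2_pos _ hx, Base.push2_pos _ hx]
    rfl
  · simp [Geo.p11, inv11, push2, if_neg hx, pullBil_zero]

variable [T2Space X]

lemma continuous_push0 {g : R4 → ℝ} (hg : Continuous g) (h : In3 g) :
    Continuous (push0 G i g) := by
  refine continuous_iff_continuousAt.2 fun x => ?_
  by_cases hx : x ∈ (G.c i).source
  · refine ((hg.continuousAt.comp ((G.c i).continuousAt hx))).congr ?_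
    exact eventually_of_mem ((G.c i).open_source.mem_nhds hx) fun z hz =>
      (push0_pos G i g hz).symm
  · have hn : x ∉ Base.K G i 3 := fun h' => hx ((Base.mem_K G (by norm_num)).1 h').1
    refine (continuousAt_const (y := (0 : ℝ))).congr ?_
    refine eventually_of_mem ((Base.isClosed_K G i (by norm_num)).isOpen_compl.mem_nhds hn)
      fun z hz => ?_
    by_contra hne
    exact hz (push0_ne G i h (Ne.symm hne))

lemma smooth_push0 {g : R4 → ℝ} (hg : ContDiff ℝ ∞ g) (h : In3 g) :
    ContMDiff 𝓘(ℝ, R4) 𝓘(ℝ, ℝ) ∞ (push0 G i g) := fun x => by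
  by_cases hx : x ∈ (G.c i).source
  · refine (hg.contDiffAt.contMDiffAt.comp x
      (contMDiffAt_of_mem_maximalAtlas (G.c_mem i) hx)).congr_of_eventuallyEq ?_
    exact eventually_of_mem ((G.c i).open_source.mem_nhds hx) fun z hz => push0_pos G i g hz
  · have hn : x ∉ Base.K G i 3 := fun h' => hx ((Base.mem_K G (by norm_num)).1 h').1
    refine (contMDiffAt_const (c := (0 : ℝ))).congr_of_eventuallyEq ?_
    refine eventually_of_mem ((Base.isClosed_K G i (by norm_num)).isOpen_compl.mem_nhds hn)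
      fun z hz => ?_
    by_contra hne
    exact hz (push0_ne G i h hne)

lemma Fld.smooth2 {β : R4 → Bil} (h : Fld β) : Smooth2 (push2 (G.c i) β) :=
  (Base.push2_smooth (G.c_mem i) h.alt h.smooth h.supp.hcs (h.supp.subset_target G i)).1

lemma Fld.cont2 {β : R4 → Bil} (h : Fld β) : Cont2 (push2 (G.c i) β) :=
  Point.cont2_of_smooth2 (h.smooth2 G i)

/-- The fibre norm of a pushed field. -/
lemma nrm2_push : ∃ C : ℝ, 0 ≤ C ∧ ∀ (i : Fin G.n) (β : R4 → Bil), In3 β → ∀ x,
    G.nrm2 (push2 (G.c i) β) x ≤ C * push0 G i (fun y => ‖β y‖) x := by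
  obtain ⟨C, hC1, hC⟩ := Base.nrm2_view G
  refine ⟨C, by linarith, fun i β hβ x => ?_⟩
  have hz : push2 (G.c i) β x = 0 → G.nrm2 (push2 (G.c i) β) x = 0 := fun h => by
    rw [Point.nrm2_eq G, h]
    simp [Geo.nrmVal, Geo.nrm2, view2, pullBil_zero]
  have h0 : 0 ≤ C * push0 G i (fun y => ‖β y‖) x :=
    mul_nonneg (by linarith) (push0_nonneg G i (fun _ => norm_nonneg _) x)
  by_cases hx : x ∈ (G.c i).source
  · by_cases hn : ‖G.c i x‖ ≤ 3
    · have h := (hC i (push2 (G.c i) β) (G.c i x) hn).2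
      rw [(G.c i).left_inv hx, view2_push2 G i β ((G.c i).map_source hx)] at h
      rw [push0_pos G i _ hx]
      exact h
    · rw [hz (by rw [Base.push2_pos _ hx, hβ _ (not_le.1 hn), pullBil_zero])]
      exact h0
  · rw [hz (by rw [push2, if_neg hx])]
    exact h0

variable [CompactSpace X] [MeasurableSpace X] [BorelSpace X]

/-- The current on chart fields is bounded by the mass. -/
lemma P_bound : ∃ C : ℝ, 0 ≤ C ∧ ∀ (D : PosCur G) (i : Fin G.n) (β : R4 → Bil), Fld β →
    |D.P (push2 (G.c i) β)| ≤ C * ∫ x, push0 G i (fun y => ‖β y‖) x ∂D.mu := by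
  obtain ⟨C, hC⟩ := (Point.curFacts G).bound
  obtain ⟨N, hN0, hN⟩ := nrm2_push G
  refine ⟨|C| * N, by positivity, fun D i β hβ => ?_⟩
  have hi := hβ.cont2 G i
  calc |D.P (push2 (G.c i) β)| ≤ C * ∫ x, G.nrm2 (push2 (G.c i) β) x ∂D.mu := hC D _ hi
    _ ≤ |C| * ∫ x, G.nrm2 (push2 (G.c i) β) x ∂D.mu :=
        mul_le_mul_of_nonneg_right (le_abs_self C)
          (integral_nonneg fun x => Point.nrm2_nonneg G _ x)
    _ ≤ |C| * ∫ x, N * push0 G i (fun y => ‖β y‖) x ∂D.mu :=
        mul_le_mul_of_nonneg_left (integral_mono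
          (Point.integrable_of_cont G D (Point.continuous_nrm2 G hi))
          ((Point.integrable_of_cont G D (continuous_push0 G i
            hβ.smooth.continuous.norm hβ.supp.norm)).const_mul N)
          fun x => hN i β hβ.supp x) (abs_nonneg C)
    _ = |C| * N * ∫ x, push0 G i (fun y => ‖β y‖) x ∂D.mu := by
        rw [integral_const_mul, mul_assoc]

/-- The current is bounded below on nearly semipositive chart fields. -/
lemma P_lower : ∃ C : ℝ, 0 ≤ C ∧ ∀ (D : PosCur G) (i : Fin G.n) (β : R4 → Bil) (φ : R4 → ℝ),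
    Fld β → Continuous φ → In3 φ → (∀ y, 0 ≤ φ y) →
    (∀ y, ‖y‖ ≤ 3 → ∀ v : R4, -(φ y * ‖v‖ ^ 2) ≤ β y v (Jc G i y v)) →
      -(C * ∫ x, push0 G i φ x ∂D.mu) ≤ D.P (push2 (G.c i) β) := by
  obtain ⟨m, M, hm, -, hq⟩ :=
    Point.qform_compare_all G (Point.cont2_of_smooth2 G.omega_smooth) G.omega_pos
  refine ⟨m⁻¹, by positivity, fun D i β φ hβ hφ h3 h0 hb => ?_⟩
  have hint : Integrable (fun x => m⁻¹ * push0 G i φ x) D.mu :=
    (Point.integrable_of_cont G D (continuous_push0 G i hφ h3)).const_mul _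
  have h := (Point.curFacts G).lower D _ _ (hβ.cont2 G i) hint
    (fun x => mul_nonneg (by positivity) (push0_nonneg G i h0 x)) fun x w => ?_
  · rw [integral_const_mul] at h
    exact h
  · have hg : 0 ≤ G.metric x w w := (Point.omega_at G x).2 w
    by_cases hx : x ∈ (G.c i).source
    · rw [push0_pos G i φ hx, Base.push2_pos _ hx, pullBil_apply,
        Bridge.dchart_J G.J (G.c_mem i) hx]
      by_cases hn : ‖G.c i x‖ ≤ 3
      · refine le_trans ?_ (hb _ hn _)
        have h1 := (hq i _ hn (Base.dchart (G.c i) x w)).1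
        rw [Point.qform_omega] at h1
        have e : dsymm (G.c i) (G.c i x) (Base.dchart (G.c i) x w) = w :=
          DFunLike.congr_fun (Base.dsymm_comp_dchart (G.c_mem i) hx) w
        rw [e, (G.c i).left_inv hx] at h1
        rw [neg_le_neg_iff]
        calc φ (G.c i x) * ‖Base.dchart (G.c i) x w‖ ^ 2
            = φ (G.c i x) * (m⁻¹ * (m * ‖Base.dchart (G.c i) x w‖ ^ 2)) := by
              rw [inv_mul_cancel_left₀ hm.ne']
          _ ≤ φ (G.c i x) * (m⁻¹ * G.metric x w w) :=
              mul_le_mul_of_nonneg_left (mul_le_mul_of_nonneg_left h1 (by positivity)) (h0 _)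
          _ = m⁻¹ * φ (G.c i x) * G.metric x w w := by ring
      · rw [hβ.supp _ (not_le.1 hn), h3 _ (not_le.1 hn)]
        simp
    · rw [push0_neg G i φ hx, push2, if_neg hx]
      simp

end Vale.Agent.P204.Full.Split
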