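import Vale.Agent.P204.Full.Split.Data
import Vale.Agent.P204.Full.Split.Dual
import Vale.Agent.P204.Full.Split.Smoothing
import Vale.Agent.P204.Full.Split.Moll

/-!
# P204 Split: the smoothed current of a chart satisfies the hypotheses of the potential theory
-/

open scoped Manifold ContDiff Topology
open MeasureTheory Set Filter Vale.Agent.P204.Full.Potential

noncomputable section

namespace Vale.Agent.P204.Full.Split

universe u

/-! ### Pointwise -/

lemma pull_sub_le (A A' : Endo) (b : Bil) :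
    ‖pullBil A b - pullBil A' b‖ ≤ (‖A‖ + ‖A'‖) * ‖A - A'‖ * ‖b‖ := by
  refine ContinuousLinearMap.opNorm_le_bound₂ _ (by positivity) fun u v => ?_
  have e : (pullBil A b - pullBil A' b) u v = b ((A - A') u) (A v) + b (A' u) ((A - A') v) := by
    simp only [sub_apply, pullBil_apply, map_sub]
    ring
  rw [e]
  refine (norm_add_le _ _).trans ?_
  have h1 : ‖b ((A - A') u) (A v)‖ ≤ ‖b‖ * (‖A - A'‖ * ‖u‖) * (‖A‖ * ‖v‖) :=
    (b.le_opNorm₂ _ _).trans (by gcongr <;> exact ContinuousLinearMap.le_opNorm _ _)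
  have h2 : ‖b (A' u) ((A - A') v)‖ ≤ ‖b‖ * (‖A'‖ * ‖u‖) * (‖A - A'‖ * ‖v‖) :=
    (b.le_opNorm₂ _ _).trans (by gcongr <;> exact ContinuousLinearMap.le_opNorm _ _)
  linarith

lemma norm_inv11_le (A : Endo) (b : Bil) : ‖inv11 A b‖ ≤ (1 + ‖A‖ ^ 2) * ‖b‖ := by
  rw [inv11, norm_smul, Real.norm_eq_abs, abs_of_nonneg (by positivity)]
  nlinarith [norm_add_le b (pullBil A b), Base.norm_pullBil_le A b, norm_nonneg b,
    norm_nonneg (pullBil A b), mul_nonneg (sq_nonneg ‖A‖) (norm_nonneg b)]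

lemma norm_anti20_le (A : Endo) (b : Bil) : ‖anti20 A b‖ ≤ (1 + ‖A‖ ^ 2) * ‖b‖ := by
  rw [anti20, norm_smul, Real.norm_eq_abs, abs_of_nonneg (by positivity)]
  nlinarith [norm_sub_le b (pullBil A b), Base.norm_pullBil_le A b, norm_nonneg b,
    norm_nonneg (pullBil A b), mul_nonneg (sq_nonneg ‖A‖) (norm_nonneg b)]

lemma inv11_anti20 {J : Endo} (hJ : ∀ v, J (J v) = -v) (b : Bil) : inv11 J (anti20 J b) = 0 := by
  simp only [inv11, anti20, Base.pullBil_smul, Base.pullBil_sub, pull_pull hJ]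
  module

lemma dual22_expand (p q : R4) :
    dual22 p q = ∑ a, ∑ b, (p a * q b) • dual22 (bvec a) (bvec b) := by
  refine ContinuousLinearMap.ext fun u => ContinuousLinearMap.ext fun v => ?_
  simp [dual22_apply, pl, bvec, Fin.sum_univ_four]
  ring

lemma dual22_bound : ∃ C : ℝ, 0 ≤ C ∧ ∀ p q, ‖dual22 p q‖ ≤ C * (‖p‖ * ‖q‖) := by
  refine ⟨∑ a, ∑ b, ‖dual22 (bvec a) (bvec b)‖,
    Finset.sum_nonneg fun _ _ => Finset.sum_nonneg fun _ _ => norm_nonneg _, fun p q => ?_⟩
  rw [dual22_expand p q, Finset.sum_mul]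
  refine (norm_sum_le _ _).trans (Finset.sum_le_sum fun a _ => ?_)
  rw [Finset.sum_mul]
  refine (norm_sum_le _ _).trans (Finset.sum_le_sum fun b _ => ?_)
  rw [norm_smul, norm_mul, mul_comm ‖dual22 (bvec a) (bvec b)‖]
  exact mul_le_mul_of_nonneg_right
    (mul_le_mul (PiLp.norm_apply_le p a) (PiLp.norm_apply_le q b) (norm_nonneg _) (norm_nonneg _))
    (norm_nonneg _)

lemma alt_as_dual {B : Bil} (hB : IsAlt B) : B =
    B (bvec 2) (bvec 3) • dual22 (bvec 0) (bvec 1) - B (bvec 1) (bvec 3) • dual22 (bvec 0) (bvec 2) +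
      B (bvec 1) (bvec 2) • dual22 (bvec 0) (bvec 3) +
      B (bvec 0) (bvec 3) • dual22 (bvec 1) (bvec 2) -
      B (bvec 0) (bvec 2) • dual22 (bvec 1) (bvec 3) +
      B (bvec 0) (bvec 1) • dual22 (bvec 2) (bvec 3) := by
  refine ContinuousLinearMap.ext fun u => ContinuousLinearMap.ext fun v => ?_
  rw [Base.alt_expand hB u v]
  simp [dual22_apply, pl, bvec]
  ring

variable {X : Type u} [TopologicalSpace X] [T2Space X] [CompactSpace X] [ChartedSpace R4 X]
  [IsManifold 𝓘(ℝ, R4) ∞ X]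

/-- The coefficients of a chart. -/
def coef (G : Geo X) (i : Fin G.n) : Coef where
  J := Jc G i
  om := omc G i
  J_smooth := by
    rw [← G.c_target i]
    exact Base.smooth_viewJ G.J_acs (G.c_mem i)
  om_smooth := by
    rw [← G.c_target i]
    exact Base.smooth_view2 G.omega_smooth (G.c_mem i)
  J_sq x hx v := Bridge.viewJ_sq G.J_acs (G.c_mem i) (by rwa [G.c_target i]) v
  om_alt x _ := Base.isAlt_view2 G.omega_smooth.1 _ _
  om_inv x hx := by
    show pullBil (Jc G i x) (omc G i x) = omc G i x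
    rw [← Base.view2_pullJ G.J G.omega (G.c_mem i) (by rwa [G.c_target i])]
    exact congrArg (fun θ => view2 (G.c i) θ x) (funext fun z => G.inv_pull G.omega_inv z)
  om_pos x hx v hv := by
    have hx' : x ∈ (G.c i).target := by rwa [G.c_target i]
    show 0 < G.omega _ (dsymm (G.c i) x v) (dsymm (G.c i) x (Jc G i x v))
    rw [show dsymm (G.c i) x (Jc G i x v) = G.J ((G.c i).symm x) (dsymm (G.c i) x v) from
      DFunLike.congr_fun (Base.dsymm_viewJ G.J (G.c_mem i) hx') v]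
    exact G.omega_pos _ _ (Bridge.dsymm_ne_zero (G.c_mem i) hx' hv)
  om_top x hx := G.c_oriented i x (by rwa [G.c_target i])

variable {G : Geo X}

omit [T2Space X] [CompactSpace X] in
/-- Bounds and Lipschitz bounds of the coefficients on the ball of radius three. -/
lemma coef_bounds : ∃ L : ℝ, 0 ≤ L ∧ ∀ i (x z : R4), ‖x‖ ≤ 3 → ‖z‖ ≤ 3 →
    ‖Jc G i x‖ ≤ L ∧ ‖omc G i x‖ ≤ L ∧ ‖Jc G i x - Jc G i z‖ ≤ L * ‖x - z‖ ∧
      ‖omc G i x - omc G i z‖ ≤ L * ‖x - z‖ := by
  have hs : ∀ i, Metric.closedBall (0 : R4) 3 ⊆ (G.c i).target := fun i y hy =>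
    ball3_target G i (mem_closedBall_zero_iff.1 hy)
  have hJ : ∀ i, ContDiffOn ℝ ∞ (Jc G i) (Metric.closedBall 0 3) := fun i =>
    (Base.smooth_viewJ G.J_acs (G.c_mem i)).mono (hs i)
  have hom : ∀ i, ContDiffOn ℝ ∞ (omc G i) (Metric.closedBall 0 3) := fun i =>
    (Base.smooth_view2 G.omega_smooth (G.c_mem i)).mono (hs i)
  choose a ha using fun i => (isCompact_closedBall (0 : R4) 3).exists_bound_of_continuousOn
    (hJ i).continuousOn
  choose b hb using fun i => (isCompact_closedBall (0 : R4) 3).exists_bound_of_continuousOn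
    (hom i).continuousOn
  choose k hk using fun i => (hJ i).exists_lipschitzOnWith (by simp) (convex_closedBall _ _)
    (isCompact_closedBall _ _)
  choose l hl using fun i => (hom i).exists_lipschitzOnWith (by simp) (convex_closedBall _ _)
    (isCompact_closedBall _ _)
  obtain ⟨N, hN⟩ := Finite.exists_le fun i => max (max (a i) (b i)) (max (k i : ℝ) (l i))
  refine ⟨max N 0, le_max_right _ _, fun i x z hx hz => ?_⟩
  have h := max_le_iff.1 ((hN i).trans (le_max_left N 0))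
  obtain ⟨h1, h2⟩ := max_le_iff.1 h.1
  obtain ⟨h3, h4⟩ := max_le_iff.1 h.2
  have hx' := mem_closedBall_zero_iff.2 hx
  have hz' := mem_closedBall_zero_iff.2 hz
  exact ⟨(ha i x hx').trans h1, (hb i x hx').trans h2,
    ((hk i).norm_sub_le hx' hz').trans (mul_le_mul_of_nonneg_right h3 (norm_nonneg _)),
    ((hl i).norm_sub_le hx' hz').trans (mul_le_mul_of_nonneg_right h4 (norm_nonneg _))⟩

variable [MeasurableSpace X] [BorelSpace X]

/-- The two functionals against a weight. -/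
lemma psi_est : ∃ C : ℝ, 0 ≤ C ∧ ∀ (D : Pair G) (h : X → ℝ), QData D h →
    ∀ (i : Fin G.n) (β : R4 → Bil) (g : R4 → ℝ) (a b : ℝ), Fld β → Continuous g →
      (∀ z, 0 ≤ g z) → 0 ≤ a → 0 ≤ b →
      (∀ z, ‖inv11 (Jc G i z) (β z)‖ ≤ a * (cutB z * g z) ∧
        ‖anti20 (Jc G i z) (β z)‖ ≤ b * (cutB z * g z)) →
        |psi D (push2 (G.c i) β)| ≤
          C * (a * (∫ z, g z ∂nuC i D.mu) + b * ∫ z, hloc i h z * g z) := by
  obtain ⟨CP, hCP0, hCP⟩ := P_bound' (G := G)
  obtain ⟨CQ, hCQ0, hCQ⟩ := Q_bound (G := G)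
  refine ⟨CP + CQ, by positivity, fun D h hh i β g a b hβ hg hg0 ha hb hβg => ?_⟩
  have h3 : In3 fun z => cutB z * g z := fun z hz => by simp [cut_in3 z hz]
  have hc : Continuous fun z => cutB z * g z := cutB.continuous.mul hg
  have h1 : ∫ x, push0 G i (fun z => ‖inv11 (Jc G i z) (β z)‖) x ∂D.mu ≤
      a * ∫ z, g z ∂nuC i D.mu := by
    rw [integral_nuC i D.mu hg, ← integral_const_mul]
    obtain ⟨hci, h3i⟩ := hβ.inv i
    refine integral_mono (Point.integrable_of_cont G D.toPosCur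
      (continuous_push0 G i hci.norm h3i.norm)) ((Point.integrable_of_cont G D.toPosCur
      (continuous_push0 G i hc h3)).const_mul a) fun x => ?_
    by_cases hx : x ∈ (G.c i).source
    · simp only [push0_pos G i _ hx]; exact (hβg _).1
    · simp only [push0_neg G i _ hx, mul_zero, le_refl]
  have h2 : ∫ y, hloc i h y * ‖anti20 (Jc G i y) (β y)‖ ≤ b * ∫ z, hloc i h z * g z := by
    rw [← integral_const_mul]
    obtain ⟨hca, h3a⟩ := hβ.anti i
    refine integral_mono (integrable_hloc_mul i hh.meas hh.memLp hca.norm h3a.norm) ?_ fun z => ?_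
    · exact (integrable_hloc_cont i hh.meas hh.memLp hg).const_mul b
    · have := hloc_nonneg i hh.nonneg z
      calc hloc i h z * ‖anti20 (Jc G i z) (β z)‖ ≤ hloc i h z * (b * (cutB z * g z)) := by
            gcongr; exact (hβg z).2
        _ ≤ hloc i h z * (b * (1 * g z)) := by gcongr; exact hg0 z; exact cutB.le_one
        _ = b * (hloc i h z * g z) := by ring
  rw [psi_apply]
  refine (abs_add_le _ _).trans ?_
  have h4 := (hCP D.toPosCur i β hβ).trans (mul_le_mul_of_nonneg_left h1 hCP0)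
  have h5 := (hCQ D h hh i β hβ).trans (mul_le_mul_of_nonneg_left h2 hCQ0)
  have h6 : 0 ≤ ∫ z, g z ∂nuC i D.mu := integral_nonneg hg0
  have h7 : 0 ≤ ∫ z, hloc i h z * g z :=
    integral_nonneg fun z => mul_nonneg (hloc_nonneg i hh.nonneg z) (hg0 z)
  nlinarith [mul_nonneg hCQ0 (mul_nonneg ha h6), mul_nonneg hCP0 (mul_nonneg hb h7)]

end Vale.Agent.P204.Full.Split
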