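import Vale.Agent.P204.Full.Split.Wedge

/-!
# P204 Split: the exponential test form bounds the gradient of the potential
-/

open scoped Manifold ContDiff Topology
open MeasureTheory Set Filter Vale.Agent.P204.Full.Potential

noncomputable section

namespace Vale.Agent.P204.Full.Split

universe u

/-- One on the ball of radius two, zero outside radius `5/2`. -/
def chi : ContDiffBump (0 : R4) := ⟨2, 5 / 2, by norm_num, by norm_num⟩

lemma chi_zero {z : R4} (hz : 5 / 2 < ‖z‖) : chi z = 0 :=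
  chi.zero_of_le_dist (by rw [dist_zero_right]; exact hz.le)

lemma fderiv_chi_zero {z : R4} (hz : 5 / 2 < ‖z‖) : fderiv ℝ chi z = 0 := by
  by_contra hne
  have h := support_fderiv_subset ℝ hne
  rw [chi.tsupport_eq] at h
  exact absurd (mem_closedBall_zero_iff.1 h) (not_le.2 hz)

lemma fderiv_chi_bound : ∃ K : ℝ, 0 ≤ K ∧ ∀ z, ‖fderiv ℝ chi z‖ ≤ K := by
  obtain ⟨K, hK⟩ := (chi.contDiff (n := 1)).continuous_fderiv one_ne_zero
    |>.bounded_above_of_compact_support (chi.hasCompactSupport.fderiv ℝ)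
  exact ⟨max K 0, le_max_right _ _, fun z => (hK z).trans (le_max_left _ _)⟩

variable {X : Type u} [TopologicalSpace X] [ChartedSpace R4 X] [IsManifold 𝓘(ℝ, R4) ∞ X]
  [MeasurableSpace X] {G : Geo X} {D : Pair G} {h : X → ℝ} {i : Fin G.n} {C d : ℝ}

/-- The bound of the partner term. -/
def phiT (D : Pair G) (h : X → ℝ) (i : Fin G.n) (d k : ℝ) (z : R4) : ℝ :=
  (1 + potT D i d z + potU D i d z + potH h i d z + smH h i d z) / k +
    potT D i d z * potH h i d z / k ^ 2

namespace Loc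

variable (Q : Loc D h i C d) (k : ℝ)

/-- Half of the exponential weight. -/
def e2 (z : R4) : ℝ := Real.exp (Q.u z / (2 * k))

/-- The coefficient of the test fields. -/
def xi (z : R4) : ℝ := chi z * Q.e2 k z / k

/-- The gradient test field. -/
def ta (z : R4) : Cov := Q.xi k z • fderiv ℝ Q.u z

/-- The error test field. -/
def tb (z : R4) : Cov :=
  Q.xi k z • ((Q.al z + (fderiv ℝ Q.u z).comp (Jc G i z)).comp (Jc G i z))

/-- The cut-off test field. -/
def tc (z : R4) : Cov := Q.e2 k z • fderiv ℝ chi z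

/-- The curvature term. -/
def t4 (z : R4) : Bil := (chi z ^ 2 * Q.e2 k z ^ 2 / k) • d1At Q.al z

/-- The primitive of the test. -/
def tbeta (z : R4) : Cov := (chi z ^ 2 * Q.e2 k z ^ 2 / k) • Q.al z

lemma e2_cd : ContDiffOn ℝ ∞ (Q.e2 k) (Metric.ball 0 (21 / 8)) :=
  (Q.u_smooth.div_const _).exp

lemma xi_cd : ContDiffOn ℝ ∞ (Q.xi k) (Metric.ball 0 (21 / 8)) :=
  (chi.contDiff.contDiffOn.mul (Q.e2_cd k)).div_const _

lemma du_cd : ContDiffOn ℝ ∞ (fderiv ℝ Q.u) (Metric.ball 0 (21 / 8)) :=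
  Q.u_smooth.fderiv_of_isOpen Metric.isOpen_ball (by simp)

omit [MeasurableSpace X] in
lemma jc_cd : ContDiffOn ℝ ∞ (Jc G i) (Metric.ball 0 (21 / 8)) :=
  (Base.smooth_viewJ G.J_acs (G.c_mem i)).mono fun z hz =>
    ball3_target G i (by rw [mem_ball_zero_iff] at hz; linarith)

lemma xi_zero {z : R4} (hz : 5 / 2 < ‖z‖) : Q.xi k z = 0 := by simp [xi, chi_zero hz]

lemma ta_fld : CFld (Q.ta k) :=
  ⟨smooth_extend52 ((Q.xi_cd k).smul Q.du_cd) fun z hz => by simp [ta, Q.xi_zero k hz],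
    fun z hz => by simp [ta, Q.xi_zero k (show 5 / 2 < ‖z‖ by linarith)]⟩

lemma tb_fld : CFld (Q.tb k) :=
  ⟨smooth_extend52 ((Q.xi_cd k).smul
      ((Q.al_smooth.add (Q.du_cd.clm_comp jc_cd)).clm_comp jc_cd))
      fun z hz => by simp [tb, Q.xi_zero k hz],
    fun z hz => by simp [tb, Q.xi_zero k (show 5 / 2 < ‖z‖ by linarith)]⟩

lemma tc_fld : CFld (Q.tc k) :=
  ⟨smooth_extend52 ((Q.e2_cd k).smul
      ((chi.contDiff (n := (⊤ : ℕ∞))).fderiv_right (by simp)).contDiffOn)
      fun z hz => by simp [tc, fderiv_chi_zero hz],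
    fun z hz => by simp [tc, fderiv_chi_zero (show 5 / 2 < ‖z‖ by linarith)]⟩

lemma coef_cd : ContDiffOn ℝ ∞ (fun z => chi z ^ 2 * Q.e2 k z ^ 2 / k) (Metric.ball 0 (21 / 8)) :=
  ((chi.contDiff.contDiffOn.pow 2).mul ((Q.e2_cd k).pow 2)).div_const _

lemma t4_fld : Fld (Q.t4 k) :=
  ⟨fun z => (Base.isAlt_d1At _ _).smul _,
    smooth_extend52 ((Q.coef_cd k).smul (Base.d1At_contDiffOn
      (Q.al_smooth.fderiv_of_isOpen Metric.isOpen_ball (by simp))))
      fun z hz => by simp [t4, chi_zero hz],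
    fun z hz => by simp [t4, chi_zero (show 5 / 2 < ‖z‖ by linarith)]⟩

lemma tbeta_fld : CFld (Q.tbeta k) :=
  ⟨smooth_extend52 ((Q.coef_cd k).smul Q.al_smooth) fun z hz => by simp [tbeta, chi_zero hz],
    fun z hz => by simp [tbeta, chi_zero (show 5 / 2 < ‖z‖ by linarith)]⟩

lemma d1At_tbeta (z : R4) :
    d1At (Q.tbeta k) z = wfld i (Q.ta k) (Q.ta k) z + wfld i (Q.ta k) (Q.tb k) z +
      (2 : ℝ) • wfld i (Q.tc k) (Q.ta k) z + (2 : ℝ) • wfld i (Q.tc k) (Q.tb k) z + Q.t4 k z := by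
  by_cases hz : z ∈ Metric.ball (0 : R4) (21 / 8)
  · have hnh := Metric.isOpen_ball.mem_nhds hz
    have hz3 : ‖z‖ ≤ 3 := by rw [mem_ball_zero_iff] at hz; linarith
    have hJ : ∀ v, Jc G i z (Jc G i z v) = -v := fun v =>
      Bridge.viewJ_sq G.J_acs (G.c_mem i) (ball3_target G i hz3) v
    have hu := (Q.u_smooth.contDiffAt hnh).differentiableAt (by simp)
    have hal := (Q.al_smooth.contDiffAt hnh).differentiableAt (by simp)
    have hchi := ((chi.contDiff (n := 1)).differentiable one_ne_zero) z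
    have he : HasFDerivAt (Q.e2 k) (Q.e2 k z • ((2 * k)⁻¹ • fderiv ℝ Q.u z)) z :=
      ((hu.hasFDerivAt.const_smul (2 * k)⁻¹).exp).congr_of_eventuallyEq
        (Eventually.of_forall fun w => by simp [e2, div_eq_inv_mul]) |>.congr_fderiv (by
          simp [e2, div_eq_inv_mul])
    have hg : HasFDerivAt (fun w => chi w ^ 2 * Q.e2 k w ^ 2 / k)
        ((Q.xi k z * Q.xi k z) • fderiv ℝ Q.u z +
          (2 * Q.e2 k z * Q.xi k z) • fderiv ℝ chi z) z := by
      have h1 := (((hchi.hasFDerivAt.mul he).pow 2).const_smul k⁻¹)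
      refine (h1.congr_of_eventuallyEq (Eventually.of_forall fun w => ?_)).congr_fderiv ?_
      · simp only [Pi.mul_apply, Pi.smul_apply, smul_eq_mul, div_eq_inv_mul]; ring
      · ext v
        simp [xi, div_eq_inv_mul]
        ring
    have hd : d1At (Q.tbeta k) z = wedgeCov
        ((Q.xi k z * Q.xi k z) • fderiv ℝ Q.u z + (2 * Q.e2 k z * Q.xi k z) • fderiv ℝ chi z)
        (Q.al z) + Q.t4 k z := by
      have h2 := hg.smul hal.hasFDerivAt
      rw [d1At, show fderiv ℝ (Q.tbeta k) z = _ from h2.fderiv]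
      ext s t
      simp [t4, d1At, Base.wedgeCov_apply]
      ring
    rw [hd]
    congr 1
    ext s t
    simp only [wfld, ta, tb, tc, Base.wedgeCov_apply, add_apply, smul_apply, neg_apply,
      ContinuousLinearMap.comp_apply, smul_eq_mul, map_neg, hJ]
    ring
  · have h5 : 5 / 2 < ‖z‖ := by rw [mem_ball_zero_iff, not_lt] at hz; linarith
    rw [Base.d1At_zero_of_eventually]
    · simp [wfld, ta, tb, tc, t4, Q.xi_zero k h5, chi_zero h5, fderiv_chi_zero h5, wedgeCov]
    · refine eventually_of_mem ((Metric.isClosed_closedBall (x := (0 : R4))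
        (ε := 5 / 2)).isOpen_compl.mem_nhds (fun hm => ?_)) fun w hw => ?_
      · exact absurd (mem_closedBall_zero_iff.1 hm) (not_le.2 h5)
      · simp [tbeta, chi_zero (not_le.1 fun h' => hw (mem_closedBall_zero_iff.2 h'))]

end Loc

end Vale.Agent.P204.Full.Split
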