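import Vale.Agent.P204.Full.Split.Test

/-!
# P204 Split: bounds of the test fields
-/

open scoped Manifold ContDiff Topology
open MeasureTheory Set Filter Vale.Agent.P204.Full.Potential

noncomputable section

namespace Vale.Agent.P204.Full.Split

universe u

lemma norm_combo (a b c e : Bil) :
    ‖a + (2 : ℝ) • b + (2 : ℝ) • c + e‖ ≤ ‖a‖ + 2 * ‖b‖ + 2 * ‖c‖ + ‖e‖ := by
  have h1 := norm_add_le (a + (2 : ℝ) • b + (2 : ℝ) • c) e
  have h2 := norm_add_le (a + (2 : ℝ) • b) ((2 : ℝ) • c)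
  have h3 := norm_add_le a ((2 : ℝ) • b)
  rw [norm_smul, Real.norm_two] at h2 h3
  linarith

/-- The arithmetic of the weights. -/
lemma weight_arith {E e U T H q k : ℝ} (hE : 0 ≤ E) (he : 0 ≤ e) (hU : 0 ≤ U) (hT : 0 ≤ T)
    (hH : 0 ≤ H) (hq : 0 ≤ q) (hk : 1 ≤ k) (h1 : e ≤ E) (h2 : e * U ≤ E * k)
    (h3 : e * U ^ 2 ≤ E * k ^ 2) :
    e / k ^ 2 * ((1 + T + U) * (1 + U + H)) ≤
        2 * E * ((1 + T + U + H + q) / k + T * H / k ^ 2) ∧
      e / k * (1 + T + U) ≤ E * ((1 + T + U + H + q) / k + T * H / k ^ 2) ∧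
      e / k * (1 + U + H) ≤ E * ((1 + T + U + H + q) / k + T * H / k ^ 2) ∧
      e / k * (1 + T + q) ≤ E * ((1 + T + U + H + q) / k + T * H / k ^ 2) ∧
      e / k ^ 2 * (1 + U + H) ^ 2 ≤ 6 * E * (1 + H ^ 2 / k ^ 2) ∧
      e / k * (1 + U + H) ≤ 3 * E * (1 + H ^ 2 / k ^ 2) := by
  have hk0 : 0 < k := by linarith
  have hTH : 0 ≤ T * H / k ^ 2 := by positivity
  have key : ∀ a, 0 ≤ a → a ≤ 1 + T + U + H + q →
      e / k * a ≤ E * ((1 + T + U + H + q) / k + T * H / k ^ 2) := fun a ha hle => by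
    calc e / k * a ≤ E / k * (1 + T + U + H + q) :=
          mul_le_mul (div_le_div_of_nonneg_right h1 hk0.le) hle ha (by positivity)
      _ = E * ((1 + T + U + H + q) / k) := by ring
      _ ≤ _ := mul_le_mul_of_nonneg_left (by linarith) hE
  refine ⟨?_, key _ (by positivity) (by linarith), key _ (by positivity) (by linarith),
    key _ (by positivity) (by linarith), ?_, ?_⟩
  · have a1 : e * (1 + T + U) ≤ E * (1 + T + U) * k := by
      calc e * (1 + T + U) ≤ E * (1 + T + U) * 1 := by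
            rw [mul_one]; gcongr
        _ ≤ _ := by gcongr
    have a2 : e * U * (1 + T + U) ≤ E * k * (1 + T + U) :=
      mul_le_mul_of_nonneg_right h2 (by positivity)
    have a3 : e * H ≤ E * k * H := by
      calc e * H ≤ E * 1 * H := by rw [mul_one]; gcongr
        _ ≤ _ := by gcongr
    have a4 : e * (T * H) ≤ E * (T * H) := mul_le_mul_of_nonneg_right h1 (by positivity)
    have a5 : e * U * H ≤ E * k * H := mul_le_mul_of_nonneg_right h2 hH
    have a6 : 0 ≤ E * k * q := by positivity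
    have a7 : 0 ≤ E * (T * H) := by positivity
    calc e / k ^ 2 * ((1 + T + U) * (1 + U + H))
        = (e * (1 + T + U) + e * U * (1 + T + U) + e * H + e * (T * H) + e * U * H) / k ^ 2 := by
          ring
      _ ≤ (2 * E * k * (1 + T + U + H + q) + 2 * E * (T * H)) / k ^ 2 :=
          div_le_div_of_nonneg_right (by linarith) (by positivity)
      _ = _ := by field_simp
  · have a1 : e ≤ E * k ^ 2 := h1.trans (le_mul_of_one_le_right hE (one_le_pow₀ hk))
    have a2 : e * H ^ 2 ≤ E * H ^ 2 := mul_le_mul_of_nonneg_right h1 (sq_nonneg H)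
    have a3 : e * (1 + U + H) ^ 2 ≤ e * (3 * (1 + U ^ 2 + H ^ 2)) := by
      refine mul_le_mul_of_nonneg_left ?_ he
      nlinarith [sq_nonneg (1 - U), sq_nonneg (1 - H), sq_nonneg (U - H)]
    have a4 : 0 ≤ E * H ^ 2 := by positivity
    calc e / k ^ 2 * (1 + U + H) ^ 2 = e * (1 + U + H) ^ 2 / k ^ 2 := by ring
      _ ≤ 6 * E * (k ^ 2 + H ^ 2) / k ^ 2 :=
          div_le_div_of_nonneg_right (by linarith) (by positivity)
      _ = _ := by field_simp
  · have a1 : e ≤ E * k := h1.trans (le_mul_of_one_le_right hE hk)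
    have a2 : e * H ≤ E * H := mul_le_mul_of_nonneg_right h1 hH
    have a3 : H / k ≤ 1 + (H / k) ^ 2 := by nlinarith [sq_nonneg (H / k - 1)]
    calc e / k * (1 + U + H) = (e + e * U + e * H) / k := by ring
      _ ≤ (2 * E * k + E * H) / k := div_le_div_of_nonneg_right (by linarith) hk0.le
      _ = E * (2 + H / k) := by field_simp
      _ ≤ E * (3 * (1 + H ^ 2 / k ^ 2)) := by
          refine mul_le_mul_of_nonneg_left ?_ hE
          rw [← div_pow]
          nlinarith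
      _ = _ := by ring

variable {X : Type u} [TopologicalSpace X] [T2Space X] [CompactSpace X] [ChartedSpace R4 X]
  [IsManifold 𝓘(ℝ, R4) ∞ X] [MeasurableSpace X] [BorelSpace X] {G : Geo X}

omit [T2Space X] [CompactSpace X] [BorelSpace X] [MeasurableSpace X] in
lemma norm_anti_wfld_le (i : Fin G.n) (x y : R4 → Cov) (z : R4) :
    ‖anti20 (Jc G i z) (wfld i x y z)‖ ≤
      (1 + ‖Jc G i z‖ ^ 2) * (2 * ‖Jc G i z‖) * (‖x z‖ * ‖y z‖) := by
  refine (norm_anti20_le _ _).trans ?_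
  rw [mul_assoc (1 + ‖Jc G i z‖ ^ 2)]
  refine mul_le_mul_of_nonneg_left ((norm_wedgeCov_le _ _).trans ?_) (by positivity)
  rw [norm_neg]
  calc 2 * ‖x z‖ * ‖(y z).comp (Jc G i z)‖ ≤ 2 * ‖x z‖ * (‖y z‖ * ‖Jc G i z‖) := by
        gcongr; exact (y z).opNorm_comp_le _
    _ = _ := by ring

omit [T2Space X] [CompactSpace X] [BorelSpace X] [MeasurableSpace X] in
lemma anti_wfld_self (i : Fin G.n) (x : R4 → Cov) {z : R4} (hz : ‖z‖ ≤ 3) :
    anti20 (Jc G i z) (wfld i x x z) = 0 := by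
  refine anti20_of_inv _ ?_
  ext u v
  have hJ : ∀ w, Jc G i z (Jc G i z w) = -w := fun w =>
    Bridge.viewJ_sq G.J_acs (G.c_mem i) (ball3_target G i hz) w
  simp only [pullBil_apply, wfld, Base.wedgeCov_apply, neg_apply, ContinuousLinearMap.comp_apply,
    hJ, map_neg]
  ring

omit [BorelSpace X] [T2Space X] [CompactSpace X] in
/-- Pointwise bounds of all the test fields. -/
lemma test_pointwise (C : ℝ) : ∃ B : ℝ, 0 ≤ B ∧ ∀ (D : Pair G) (h : X → ℝ), QData D h →
    ∀ (i : Fin G.n) (d : ℝ) (Q : Loc D h i C d) (k : ℝ), 1 ≤ k → ∀ z,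
      0 ≤ phiT D h i d k z ∧
      ‖Q.tb k z‖ ^ 2 ≤ B * (1 + potH h i d z ^ 2 / k ^ 2) ∧ ‖Q.tc k z‖ ^ 2 ≤ B ∧
      ‖anti20 (Jc G i z) (d1At (Q.tbeta k) z)‖ ≤ B * phiT D h i d k z ∧
      (5 / 2 < ‖z‖ → Q.tb k z = 0 ∧ Q.tc k z = 0) ∧
      (‖z‖ ≤ 5 / 2 → chi z ^ 2 * Q.e2 k z ^ 2 / k * (C * (1 + potU D i d z + potH h i d z)) ≤
        B * (1 + potH h i d z ^ 2 / k ^ 2)) := by
  rcases lt_or_ge C 1 with hC | hC
  · refine ⟨0, le_rfl, fun D h hh i d Q => absurd Q.one_le (not_le.2 hC)⟩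
  obtain ⟨E, hE1, hE⟩ := exp_bound (c := C⁻¹) (inv_pos.2 (by linarith)) C
  obtain ⟨L, hL0, hL⟩ := coef_bounds (G := G)
  obtain ⟨K, hK0, hK⟩ := fderiv_chi_bound
  set N := (1 + L ^ 2) * (2 * L) with hN
  set B : ℝ := L ^ 2 * C ^ 2 * (6 * E) + K ^ 2 * E + C * (3 * E) +
    (N * (L * C * C) * (2 * E) + 2 * N * (K * C) * E + 2 * N * (K * L * C) * E + C * E) with hB
  have hN0 : 0 ≤ N := by positivity
  have b1 : 0 ≤ L ^ 2 * C ^ 2 * (6 * E) := by positivity
  have b2 : 0 ≤ K ^ 2 * E := by positivity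
  have b3 : 0 ≤ C * (3 * E) := by positivity
  have b4 : 0 ≤ N * (L * C * C) * (2 * E) := by positivity
  have b5 : 0 ≤ 2 * N * (K * C) * E := by positivity
  have b6 : 0 ≤ 2 * N * (K * L * C) * E := by positivity
  have b7 : 0 ≤ C * E := by positivity
  refine ⟨B, by rw [hB]; linarith, fun D h hh i d Q k hk z => ?_⟩
  have := D.finite_mu
  have hd := Q.d_pos
  have hk0 : 0 < k := by linarith
  set U := potU D i d z with hUdef
  set T := potT D i d z with hTdef
  set H := potH h i d z with hHdef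
  set q := smH h i d z with hqdef
  have hU : 0 ≤ U := potM_nonneg hd 2 _ z
  have hT : 0 ≤ T := potM_nonneg hd 3 _ z
  have hH : 0 ≤ H := potF_nonneg hd 3 (hloc_nonneg i hh.nonneg) z
  have hq : 0 ≤ q :=
    integral_nonneg fun w => mul_nonneg (hloc_nonneg i hh.nonneg w) (moll_nonneg _ _)
  have hPhi : 0 ≤ phiT D h i d k z := by simp only [phiT]; positivity
  refine ⟨hPhi, ?_⟩
  rcases lt_or_ge (5 / 2) ‖z‖ with hz | hz
  · have e0 : d1At (Q.tbeta k) z = 0 := by
      rw [Q.d1At_tbeta k z]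
      simp [wfld, Loc.ta, Loc.tb, Loc.tc, Loc.t4, Q.xi_zero k hz, chi_zero hz,
        fderiv_chi_zero hz, wedgeCov]
    have hb0 : Q.tb k z = 0 := by simp [Loc.tb, Q.xi_zero k hz]
    have hc0 : Q.tc k z = 0 := by simp [Loc.tc, fderiv_chi_zero hz]
    have hB0 : 0 ≤ B := by rw [hB]; linarith
    refine ⟨?_, ?_, ?_, fun _ => ⟨hb0, hc0⟩, fun h' => absurd h' (not_le.2 hz)⟩
    · rw [hb0, norm_zero, zero_pow two_ne_zero]; positivity
    · rw [hc0, norm_zero, zero_pow two_ne_zero]; exact hB0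
    · rw [e0]; simp only [anti20, pullBil_zero, sub_self, smul_zero, norm_zero]; positivity
  have hz3 : ‖z‖ ≤ 3 := by linarith
  set e := Q.e2 k z ^ 2 with hedef
  have he : e = Real.exp (Q.u z / k) := by
    rw [hedef, Loc.e2, sq, ← Real.exp_add]; congr 1; field_simp; ring
  have he0 : 0 ≤ e := sq_nonneg _
  obtain ⟨h1, h2, h3⟩ := hE k U (Q.u z) hk hU (Q.upper z hz)
  rw [← he] at h1 h2 h3
  obtain ⟨w1, w2, w3, w4, w5, w6⟩ :=
    weight_arith (by linarith) he0 hU hT hH hq hk h1 h2 h3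
  have hJ := (hL i z z hz3 hz3).1
  set η := Q.e2 k z with hη
  have hη0 : 0 < η := Real.exp_pos _
  have hxi : |Q.xi k z| ≤ η / k := by
    rw [Loc.xi, abs_div, abs_mul, abs_of_pos hk0, abs_of_nonneg chi.nonneg, ← hη, abs_of_pos hη0]
    exact div_le_div_of_nonneg_right (mul_le_of_le_one_left hη0.le chi.le_one) hk0.le
  have na : ‖Q.ta k z‖ ≤ η / k * (C * (1 + T + U)) := by
    rw [Loc.ta, norm_smul, Real.norm_eq_abs]
    exact mul_le_mul hxi (Q.grad z hz) (norm_nonneg _) (by positivity)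
  have nb : ‖Q.tb k z‖ ≤ η / k * (L * (C * (1 + U + H))) := by
    rw [Loc.tb, norm_smul, Real.norm_eq_abs]
    refine mul_le_mul hxi ?_ (norm_nonneg _) (by positivity)
    refine (ContinuousLinearMap.opNorm_comp_le _ _).trans ?_
    rw [mul_comm L]
    exact mul_le_mul (Q.conj z hz) hJ (norm_nonneg _) (by positivity)
  have nc : ‖Q.tc k z‖ ≤ η * K := by
    rw [Loc.tc, norm_smul, Real.norm_eq_abs, abs_of_pos hη0]
    exact mul_le_mul_of_nonneg_left (hK z) hη0.le
  have hchi : chi z ^ 2 ≤ 1 := pow_le_one₀ chi.nonneg chi.le_one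
  have hB0 : 0 ≤ B := by rw [hB]; linarith
  refine ⟨?_, ?_, ?_, fun h' => absurd h' (not_lt.2 hz), fun _ => ?_⟩
  · calc ‖Q.tb k z‖ ^ 2 ≤ (η / k * (L * (C * (1 + U + H)))) ^ 2 := by gcongr
      _ = L ^ 2 * C ^ 2 * (e / k ^ 2 * (1 + U + H) ^ 2) := by rw [hedef]; ring
      _ ≤ L ^ 2 * C ^ 2 * (6 * E * (1 + H ^ 2 / k ^ 2)) := by gcongr
      _ = L ^ 2 * C ^ 2 * (6 * E) * (1 + H ^ 2 / k ^ 2) := by ring
      _ ≤ _ := mul_le_mul_of_nonneg_right (by rw [hB]; linarith) (by positivity)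
  · calc ‖Q.tc k z‖ ^ 2 ≤ (η * K) ^ 2 := by gcongr
      _ = K ^ 2 * e := by rw [hedef]; ring
      _ ≤ K ^ 2 * E := by gcongr
      _ ≤ _ := by rw [hB]; linarith
  · rw [Q.d1At_tbeta k z, anti20_add, anti20_add, anti20_add, anti20_add, anti20_smul, anti20_smul,
      anti_wfld_self i _ hz3, zero_add]
    have hw : ∀ (x y : R4 → Cov), ‖anti20 (Jc G i z) (wfld i x y z)‖ ≤ N * (‖x z‖ * ‖y z‖) :=
      fun x y => (norm_anti_wfld_le i x y z).trans
        (mul_le_mul_of_nonneg_right (by rw [hN]; gcongr) (by positivity))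
    have t1 : ‖anti20 (Jc G i z) (wfld i (Q.ta k) (Q.tb k) z)‖ ≤
        N * (L * C * C) * (2 * E) * phiT D h i d k z := by
      refine (hw _ _).trans ?_
      calc N * (‖Q.ta k z‖ * ‖Q.tb k z‖)
          ≤ N * (η / k * (C * (1 + T + U)) * (η / k * (L * (C * (1 + U + H))))) := by gcongr
        _ = N * (L * C * C) * (e / k ^ 2 * ((1 + T + U) * (1 + U + H))) := by rw [hedef]; ring
        _ ≤ N * (L * C * C) * (2 * E * phiT D h i d k z) := mul_le_mul_of_nonneg_left w1 (by positivity)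
        _ = _ := by ring
    have t2 : ‖anti20 (Jc G i z) (wfld i (Q.tc k) (Q.ta k) z)‖ ≤
        N * (K * C) * E * phiT D h i d k z := by
      refine (hw _ _).trans ?_
      calc N * (‖Q.tc k z‖ * ‖Q.ta k z‖) ≤ N * (η * K * (η / k * (C * (1 + T + U)))) := by gcongr
        _ = N * (K * C) * (e / k * (1 + T + U)) := by rw [hedef]; ring
        _ ≤ N * (K * C) * (E * phiT D h i d k z) := mul_le_mul_of_nonneg_left w2 (by positivity)
        _ = _ := by ring
    have t3 : ‖anti20 (Jc G i z) (wfld i (Q.tc k) (Q.tb k) z)‖ ≤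
        N * (K * L * C) * E * phiT D h i d k z := by
      refine (hw _ _).trans ?_
      calc N * (‖Q.tc k z‖ * ‖Q.tb k z‖) ≤ N * (η * K * (η / k * (L * (C * (1 + U + H))))) := by
            gcongr
        _ = N * (K * L * C) * (e / k * (1 + U + H)) := by rw [hedef]; ring
        _ ≤ N * (K * L * C) * (E * phiT D h i d k z) := mul_le_mul_of_nonneg_left w3 (by positivity)
        _ = _ := by ring
    have t4 : ‖anti20 (Jc G i z) (Q.t4 k z)‖ ≤ C * E * phiT D h i d k z := by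
      rw [Loc.t4, anti20_smul, norm_smul, Real.norm_eq_abs,
        abs_of_nonneg (by positivity)]
      calc chi z ^ 2 * η ^ 2 / k * ‖anti20 (Jc G i z) (d1At Q.al z)‖
          ≤ 1 * η ^ 2 / k * (C * (1 + T + q)) := by
            gcongr
            exact Q.anti z hz
        _ = C * (e / k * (1 + T + q)) := by rw [hedef]; ring
        _ ≤ C * (E * phiT D h i d k z) := mul_le_mul_of_nonneg_left w4 (by positivity)
        _ = _ := by ring
    refine (norm_combo _ _ _ _).trans ((add_le_add (add_le_add (add_le_add t1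
      (mul_le_mul_of_nonneg_left t2 zero_le_two)) (mul_le_mul_of_nonneg_left t3 zero_le_two))
      t4).trans ?_)
    rw [hB]
    have : 0 ≤ (L ^ 2 * C ^ 2 * (6 * E) + K ^ 2 * E + C * (3 * E)) * phiT D h i d k z := by
      positivity
    linarith
  · calc chi z ^ 2 * e / k * (C * (1 + U + H)) ≤ 1 * e / k * (C * (1 + U + H)) := by gcongr
      _ = C * (e / k * (1 + U + H)) := by ring
      _ ≤ C * (3 * E * (1 + H ^ 2 / k ^ 2)) := mul_le_mul_of_nonneg_left w6 (by positivity)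
      _ = C * (3 * E) * (1 + H ^ 2 / k ^ 2) := by ring
      _ ≤ _ := mul_le_mul_of_nonneg_right (by rw [hB]; linarith) (by positivity)

end Vale.Agent.P204.Full.Split
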