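import Vale.Agent.P204.Full.Split.TestBound

/-!
# P204 Split: the test inequality
-/

open scoped Manifold ContDiff Topology
open MeasureTheory Set Filter Vale.Agent.P204.Full.Potential

noncomputable section

namespace Vale.Agent.P204.Full.Split

universe u

variable {X : Type u} [TopologicalSpace X] [T2Space X] [CompactSpace X] [ChartedSpace R4 X]
  [IsManifold 𝓘(ℝ, R4) ∞ X] [MeasurableSpace X] [BorelSpace X] {G : Geo X}

/-- The indicator of the ball of radius four. -/
def ind4 (F : R4 → ℝ) : R4 → ℝ := (Metric.ball (0 : R4) 4).indicator F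

lemma integrable_ind4 {F : R4 → ℝ} (hF : Continuous F) : Integrable (ind4 F) :=
  ((hF.continuousOn.integrableOn_compact (isCompact_closedBall (0 : R4) 4)).mono_set
    Metric.ball_subset_closedBall).integrable_indicator measurableSet_ball

lemma integral_ind4 (F : R4 → ℝ) : ∫ z, ind4 F z = ∫ z in Metric.ball (0 : R4) 4, F z :=
  integral_indicator measurableSet_ball

omit [T2Space X] [CompactSpace X] [MeasurableSpace X] [BorelSpace X] in
lemma hloc_mul_le (i : Fin G.n) (h : X → ℝ) (F : R4 → ℝ) (z : R4) :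
    hloc i h z * F z ≤ hloc i h z ^ 2 + ind4 (fun w => F w ^ 2) z := by
  rcases le_or_gt ‖z‖ 3 with hz | hz
  · rw [ind4, indicator_of_mem (mem_ball_zero_iff.2 (show ‖z‖ < 4 by linarith))]
    nlinarith [sq_nonneg (hloc i h z - F z), sq_nonneg (hloc i h z), sq_nonneg (F z)]
  · rw [hloc_zero i h hz, zero_mul]
    exact add_nonneg (sq_nonneg _) (indicator_nonneg (fun _ _ => sq_nonneg _) _)

lemma hloc_int_le {h : X → ℝ} {D : Pair G} (hh : QData D h) (i : Fin G.n) {F : R4 → ℝ}
    (hF : Continuous F) :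
    ∫ z, hloc i h z * F z ≤ (∫ z, hloc i h z ^ 2) + ∫ z in Metric.ball (0 : R4) 4, F z ^ 2 := by
  have h1 : Integrable fun z => hloc i h z ^ 2 := (hloc_memLp i hh.meas hh.memLp).integrable_sq
  have h2 : Integrable (ind4 fun w => F w ^ 2) := integrable_ind4 (hF.pow 2)
  refine (integral_mono (integrable_hloc_cont i hh.meas hh.memLp hF) (h1.add h2)
    fun z => hloc_mul_le i h F z).trans_eq ?_
  simp only [Pi.add_apply]
  rw [integral_add h1 h2, integral_ind4]

/-- The partner term is bounded. -/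
lemma phi_int_le (C : ℝ) : ∃ B : ℝ, ∀ (D : Pair G) (h : X → ℝ), QData D h →
    ∀ (i : Fin G.n) (d : ℝ), Loc D h i C d → ∀ k : ℝ, 1 ≤ k → logScale d ≤ k ^ 2 →
      Continuous (phiT D h i d k) ∧ ∫ z, hloc i h z * phiT D h i d k z ≤ B := by
  refine ⟨13 * |C| + volume.real (Metric.ball (0 : R4) 4), fun D h hh i d Q k hk hL => ?_⟩
  have hd := Q.d_pos
  have := D.finite_mu
  have := isFinite_nuC (G := G) i D.mu
  have hi := integrable_hloc i hh.meas hh.memLp
  have hT : Continuous (potT D i d) := continuous_potM hd 3 _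
  have hU : Continuous (potU D i d) := continuous_potM hd 2 _
  have hH : Continuous (potH h i d) := continuous_potF hd 3 hi
  have hq : Continuous (smH h i d) := continuous_moll_mul hd hi
  have hC0 : 0 ≤ C := by linarith [Q.one_le]
  have hk0 : 0 < k := by linarith
  have hcont : Continuous (phiT D h i d k) :=
    (((((continuous_const.add hT).add hU).add hH).add hq).div_const k).add
      ((hT.mul hH).div_const (k ^ 2))
  refine ⟨hcont, ?_⟩
  have hmul : ∀ {F : R4 → ℝ}, Continuous F → Integrable fun z => hloc i h z * F z :=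
    fun hF => integrable_hloc_cont i hh.meas hh.memLp hF
  have i1 := hmul (continuous_const (y := (1 / k : ℝ)))
  have i2 := hmul (hT.div_const k)
  have i3 := hmul (hU.div_const k)
  have i4 := hmul (hH.div_const k)
  have i5 := hmul (hq.div_const k)
  have i6 := hmul ((hT.mul hH).div_const (k ^ 2))
  have e : (fun z => hloc i h z * phiT D h i d k z) = fun z =>
      hloc i h z * (1 / k) + hloc i h z * (potT D i d z / k) + hloc i h z * (potU D i d z / k) +
        hloc i h z * (potH h i d z / k) + hloc i h z * (smH h i d z / k) +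
        hloc i h z * (potT D i d z * potH h i d z / k ^ 2) := by
    funext z
    simp only [phiT]
    ring
  have j2 : Integrable fun z => hloc i h z * (1 / k) + hloc i h z * (potT D i d z / k) :=
    i1.add i2
  have j3 : Integrable fun z => hloc i h z * (1 / k) + hloc i h z * (potT D i d z / k) +
      hloc i h z * (potU D i d z / k) := j2.add i3
  have j4 : Integrable fun z => hloc i h z * (1 / k) + hloc i h z * (potT D i d z / k) +
      hloc i h z * (potU D i d z / k) + hloc i h z * (potH h i d z / k) := j3.add i4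
  have j5 : Integrable fun z => hloc i h z * (1 / k) + hloc i h z * (potT D i d z / k) +
      hloc i h z * (potU D i d z / k) + hloc i h z * (potH h i d z / k) +
      hloc i h z * (smH h i d z / k) := j4.add i5
  have i6' : Integrable fun z => hloc i h z * (potT D i d z * potH h i d z / k ^ 2) := i6
  rw [e, integral_add j5 i6', integral_add j4 i5, integral_add j3 i4, integral_add j2 i3,
    integral_add i1 i2]
  have hh2 := Q.int_h
  have hrat : logScale d / k ^ 2 ≤ 1 := (div_le_one (by positivity)).2 hL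
  have hk2 : 1 / k ^ 2 ≤ 1 := (div_le_one (by positivity)).2 (one_le_pow₀ hk)
  have b1 : ∫ z, hloc i h z * (1 / k) ≤ |C| + volume.real (Metric.ball (0 : R4) 4) := by
    refine (hloc_int_le hh i continuous_const).trans (add_le_add (hh2.trans (le_abs_self C)) ?_)
    rw [setIntegral_const, smul_eq_mul, div_pow, one_pow]
    exact mul_le_of_le_one_right measureReal_nonneg hk2
  have sq2 : ∀ (F : R4 → ℝ) (a : ℝ), (∫ z in Metric.ball (0 : R4) 4, F z ^ 2) ≤ C * logScale d →
      (∫ z in Metric.ball (0 : R4) 4, (F z / k) ^ 2) ≤ C := fun F _ hF => by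
    simp only [div_pow]
    rw [integral_div]
    calc (∫ z in Metric.ball (0 : R4) 4, F z ^ 2) / k ^ 2 ≤ C * logScale d / k ^ 2 :=
          div_le_div_of_nonneg_right hF (by positivity)
      _ = C * (logScale d / k ^ 2) := by ring
      _ ≤ C := mul_le_of_le_one_right hC0 hrat
  have b2 : ∫ z, hloc i h z * (potT D i d z / k) ≤ C + C :=
    (hloc_int_le hh i (hT.div_const k)).trans (add_le_add hh2 (sq2 _ 0 Q.int_T2))
  have b3 : ∫ z, hloc i h z * (potU D i d z / k) ≤ C + C :=
    (hloc_int_le hh i (hU.div_const k)).trans (add_le_add hh2 (sq2 _ 0 Q.int_U2))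
  have b4 : ∫ z, hloc i h z * (potH h i d z / k) ≤ C + C := by
    refine (hloc_int_le hh i (hH.div_const k)).trans (add_le_add hh2 ?_)
    simp only [div_pow]
    rw [integral_div]
    calc (∫ z in Metric.ball (0 : R4) 4, potH h i d z ^ 2) / k ^ 2 ≤ C / k ^ 2 :=
          div_le_div_of_nonneg_right Q.int_H2 (by positivity)
      _ ≤ C := div_le_self hC0 (one_le_pow₀ hk)
  have b5 : ∫ z, hloc i h z * (smH h i d z / k) ≤ C := by
    rw [show (fun z => hloc i h z * (smH h i d z / k)) = fun z => hloc i h z * smH h i d z / k from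
      funext fun z => by ring, integral_div]
    exact (div_le_div_of_nonneg_right Q.int_hq hk0.le).trans (div_le_self hC0 hk)
  have b6 : ∫ z, hloc i h z * (potT D i d z * potH h i d z / k ^ 2) ≤ C + C := by
    refine (hloc_int_le hh i ((hT.mul hH).div_const (k ^ 2))).trans (add_le_add hh2 ?_)
    simp only [div_pow]
    rw [integral_div]
    have h7 : (∫ z in Metric.ball (0 : R4) 4, (potT D i d z * potH h i d z) ^ 2) ≤
        C * logScale d ^ 2 := by
      simp only [mul_comm (potT D i d _)]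
      exact Q.int_HT
    calc (∫ z in Metric.ball (0 : R4) 4, (potT D i d z * potH h i d z) ^ 2) / (k ^ 2) ^ 2
        ≤ C * logScale d ^ 2 / (k ^ 2) ^ 2 := div_le_div_of_nonneg_right h7 (by positivity)
      _ = C * (logScale d / k ^ 2) ^ 2 := by rw [div_pow]; ring
      _ ≤ C := by
          refine mul_le_of_le_one_right hC0 (pow_le_one₀ ?_ hrat)
          have : 0 ≤ logScale d := by
            have h1 : 0 ≤ Real.log (1 / d) := Real.log_nonneg (by
              rw [le_div_iff₀ hd]; linarith [Q.d_le])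
            unfold logScale
            linarith
          positivity
  have hCabs := le_abs_self C
  linarith

/-- The test inequality. -/
theorem test_bound (C : ℝ) : ∃ B : ℝ, 0 ≤ B ∧ ∀ (D : Pair G) (h : X → ℝ), QData D h →
    ∀ (i : Fin G.n) (d : ℝ) (Q : Loc D h i C d) (k : ℝ), 1 ≤ k → logScale d ≤ k ^ 2 →
      PW D.toPosCur i (Q.ta k) (Q.ta k) ≤ B := by
  obtain ⟨B0, hB00, hB0⟩ := test_pointwise (G := G) C
  obtain ⟨B1, hB1⟩ := phi_int_le (G := G) C
  obtain ⟨CW, hCW0, hCW⟩ := PW_le (G := G)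
  obtain ⟨CP, hCP0, hCP⟩ := P_lower G
  obtain ⟨CQ, hCQ0, hCQ⟩ := Q_bound (G := G)
  refine ⟨max 0 (2 * (2 * (CW * (B0 * (2 * C))) + 5 * (CW * (B0 * C)) +
    CP * (B0 * (2 * C)) + CQ * (B0 * B1))), le_max_left _ _, fun D h hh i d Q k hk hL => ?_⟩
  refine le_trans ?_ (le_max_right _ _)
  obtain ⟨hPhic, hPhi⟩ := hB1 D h hh i d Q k hk hL
  have hd := Q.d_pos
  have := D.finite_mu
  have hfin := isFinite_nuC (G := G) i D.mu
  have hi := integrable_hloc i hh.meas hh.memLp
  have hC0 : 0 ≤ C := by linarith [Q.one_le]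
  have hk0 : 0 < k := by linarith
  set ν := nuC i D.mu with hν
  set Ψ : R4 → ℝ := fun z => 1 + potH h i d z ^ 2 / k ^ 2 with hΨ
  have hHb : ∀ z, |potH h i d z| ≤ (d ^ 3)⁻¹ * ∫ w, hloc i h w := fun z => by
    rw [abs_of_nonneg (potF_nonneg hd 3 (hloc_nonneg i hh.nonneg) z), ← integral_const_mul]
    exact integral_mono (integrable_ker_mul hd 3 hi z) (hi.const_mul _) fun w =>
      mul_le_mul_of_nonneg_right (ker_le hd 3 _) (hloc_nonneg i hh.nonneg w)
  have hH2 : Integrable (fun z => potH h i d z ^ 2) ν :=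
    Integrable.of_bound ((continuous_potF hd 3 hi).pow 2).aestronglyMeasurable
      (((d ^ 3)⁻¹ * ∫ w, hloc i h w) ^ 2) (Eventually.of_forall fun z => by
        rw [norm_pow, Real.norm_eq_abs]
        exact pow_le_pow_left₀ (abs_nonneg _) (hHb z) 2)
  have hΨi : Integrable Ψ ν := (integrable_const 1).add (hH2.div_const _)
  have hΨb : ∫ z, Ψ z ∂ν ≤ 2 * C := by
    rw [hΨ, integral_add (integrable_const 1) (hH2.div_const _), integral_const, integral_div,
      smul_eq_mul, mul_one]
    have h5 : (∫ z, potH h i d z ^ 2 ∂ν) / k ^ 2 ≤ C :=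
      calc (∫ z, potH h i d z ^ 2 ∂ν) / k ^ 2 ≤ C * logScale d / k ^ 2 :=
            div_le_div_of_nonneg_right Q.int_H2ν (by positivity)
        _ = C * (logScale d / k ^ 2) := by ring
        _ ≤ C := mul_le_of_le_one_right hC0 ((div_le_one (by positivity)).2 hL)
    linarith [Q.int_mass]
  have ha := Q.ta_fld k
  have hb := Q.tb_fld k
  have hc := Q.tc_fld k
  have hbb : PW D.toPosCur i (Q.tb k) (Q.tb k) ≤ CW * (B0 * (2 * C)) := by
    refine (hCW _ i _ hb fun z hz => ((hB0 D h hh i d Q k hk z).2.2.2.2.1 hz).1).trans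
      (mul_le_mul_of_nonneg_left ?_ hCW0)
    refine le_trans (integral_mono_of_nonneg (Eventually.of_forall fun z => sq_nonneg _)
      (hΨi.const_mul B0) (Eventually.of_forall fun z => (hB0 D h hh i d Q k hk z).2.1)) ?_
    rw [integral_const_mul]
    exact mul_le_mul_of_nonneg_left hΨb hB00
  have hcc : PW D.toPosCur i (Q.tc k) (Q.tc k) ≤ CW * (B0 * C) := by
    refine (hCW _ i _ hc fun z hz => ((hB0 D h hh i d Q k hk z).2.2.2.2.1 hz).2).trans
      (mul_le_mul_of_nonneg_left ?_ hCW0)
    refine le_trans (integral_mono_of_nonneg (Eventually.of_forall fun z => sq_nonneg _)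
      (integrable_const B0) (Eventually.of_forall fun z => (hB0 D h hh i d Q k hk z).2.2.1)) ?_
    rw [integral_const, smul_eq_mul, mul_comm]
    exact mul_le_mul_of_nonneg_left Q.int_mass hB00
  -- the curvature term
  set φ : R4 → ℝ := fun z =>
    chi z ^ 2 * Q.e2 k z ^ 2 / k * (C * (1 + potU D i d z + potH h i d z)) with hφ
  have hφ52 : ∀ z, 5 / 2 < ‖z‖ → φ z = 0 := fun z hz => by simp [hφ, chi_zero hz]
  have hφc : Continuous φ := continuous_extend52
    ((Q.coef_cd k).continuousOn.mul (continuous_const.mul ((continuous_const.add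
      (continuous_potM hd 2 _)).add (continuous_potF hd 3 hi))).continuousOn) hφ52
  have hφ0 : ∀ z, 0 ≤ φ z := fun z => mul_nonneg (by positivity) (mul_nonneg hC0 (by
    have h1 : 0 ≤ potU D i d z := potM_nonneg hd 2 _ z
    have h2 : 0 ≤ potH h i d z := potF_nonneg hd 3 (hloc_nonneg i hh.nonneg) z
    linarith))
  have h4 : -(CP * (B0 * (2 * C))) ≤ D.P (push2 (G.c i) (Q.t4 k)) := by
    refine le_trans (neg_le_neg (mul_le_mul_of_nonneg_left ?_ hCP0)) (hCP D.toPosCur i _ φ
      (Q.t4_fld k) hφc (fun z hz => hφ52 z (by linarith)) hφ0 fun z hz v => ?_)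
    · have e : ∫ x, push0 G i φ x ∂D.mu = ∫ z, φ z ∂ν := by
        rw [hν, integral_nuC i D.mu hφc]
        refine congrArg (integral D.mu) (congrArg (push0 G i) (funext fun z => ?_))
        rcases le_or_gt ‖z‖ (5 / 2) with h' | h'
        · rw [cut_one (h'.trans (by norm_num)), one_mul]
        · rw [hφ52 z h', mul_zero]
      rw [e]
      refine (integral_mono_of_nonneg (Eventually.of_forall hφ0) (hΨi.const_mul B0)
        (Eventually.of_forall fun z => ?_)).trans ?_
      · rcases le_or_gt ‖z‖ (5 / 2) with h' | h'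
        · exact (hB0 D h hh i d Q k hk z).2.2.2.2.2 h'
        · rw [hφ52 z h']
          exact mul_nonneg hB00 (by positivity)
      · rw [integral_const_mul]
        exact mul_le_mul_of_nonneg_left hΨb hB00
    · rcases le_or_gt ‖z‖ (5 / 2) with h' | h'
      · have hp := mul_le_mul_of_nonneg_left (Q.pos z h' v)
          (show 0 ≤ chi z ^ 2 * Q.e2 k z ^ 2 / k by positivity)
        rw [Loc.t4, smul_apply, smul_apply, smul_eq_mul, hφ]
        linarith
      · rw [hφ52 z h', Loc.t4, chi_zero h']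
        simp
  -- the partner term
  obtain ⟨hs, he⟩ := extD1_push1 i (Q.tbeta_fld k).smooth (Q.tbeta_fld k).supp
  have h0 := psi_closed D (Base.exact_closed hs)
  rw [he, psi_apply] at h0
  have hFld : Fld fun z => d1At (Q.tbeta k) z := by
    refine ⟨fun z => Base.isAlt_d1At _ _, ?_, fun z hz => ?_⟩
    · exact contDiffOn_univ.1 (Base.d1At_contDiffOn
        ((Q.tbeta_fld k).smooth.fderiv_right (by simp)).contDiffOn)
    · have hz5 : 5 / 2 < ‖z‖ := by linarith
      rw [Q.d1At_tbeta k z]
      simp [wfld, Loc.ta, Loc.tb, Loc.tc, Loc.t4, Q.xi_zero k hz5, chi_zero hz5,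
        fderiv_chi_zero hz5, wedgeCov]
  have hQ : |D.Q (G.p20 (push2 (G.c i) fun z => d1At (Q.tbeta k) z))| ≤ CQ * (B0 * B1) := by
    refine (hCQ D h hh i _ hFld).trans (mul_le_mul_of_nonneg_left ?_ hCQ0)
    obtain ⟨hca, h3a⟩ := hFld.anti i
    refine (integral_mono (integrable_hloc_mul i hh.meas hh.memLp hca.norm h3a.norm)
      ((integrable_hloc_cont i hh.meas hh.memLp hPhic).const_mul B0) fun z => ?_).trans ?_
    · rw [mul_left_comm B0]
      exact mul_le_mul_of_nonneg_left (hB0 D h hh i d Q k hk z).2.2.2.1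
        (hloc_nonneg i hh.nonneg z)
    · rw [integral_const_mul]
      exact mul_le_mul_of_nonneg_left hPhi hB00
  have hsum : (fun z => d1At (Q.tbeta k) z) = wfld i (Q.ta k) (Q.ta k) +
      wfld i (Q.ta k) (Q.tb k) + (2 : ℝ) • wfld i (Q.tc k) (Q.ta k) +
      (2 : ℝ) • wfld i (Q.tc k) (Q.tb k) + Q.t4 k := funext fun z => Q.d1At_tbeta k z
  have hP : D.P (push2 (G.c i) fun z => d1At (Q.tbeta k) z) =
      PW D.toPosCur i (Q.ta k) (Q.ta k) + PW D.toPosCur i (Q.ta k) (Q.tb k) +
        2 * PW D.toPosCur i (Q.tc k) (Q.ta k) + 2 * PW D.toPosCur i (Q.tc k) (Q.tb k) +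
        D.P (push2 (G.c i) (Q.t4 k)) := by
    rw [hsum, ← pushL_apply]
    simp only [map_add, map_smul, smul_eq_mul]
    rfl
  have c1 := PW_cauchy D.toPosCur i ha hb (s := 1 / 2) (by norm_num)
  have c2 := PW_cauchy D.toPosCur i hc ha (s := 4) (by norm_num)
  have c3 := PW_cauchy D.toPosCur i hc hb (s := 1) (by norm_num)
  norm_num at c1 c2 c3
  linarith [(abs_le.1 hQ).1, neg_abs_le (PW D.toPosCur i (Q.ta k) (Q.tb k)),
    neg_abs_le (PW D.toPosCur i (Q.tc k) (Q.ta k)), neg_abs_le (PW D.toPosCur i (Q.tc k) (Q.tb k)),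
    PW_nonneg D.toPosCur i hb]

end Vale.Agent.P204.Full.Split
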