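import Vale.Agent.P204.Full.Split.Chart

/-!
# P204 Split: the positive quadratic form of the current on covector fields of a chart
-/

open scoped Manifold ContDiff Topology
open MeasureTheory Set Filter Vale.Agent.P204.Full.Potential

noncomputable section

namespace Vale.Agent.P204.Full.Split

universe u

lemma norm_wedgeCov_le (a b : Cov) : ‖wedgeCov a b‖ ≤ 2 * ‖a‖ * ‖b‖ := by
  rw [wedgeCov]
  refine (norm_sub_le _ _).trans ?_
  rw [ContinuousLinearMap.norm_smulRight_apply, ContinuousLinearMap.norm_smulRight_apply]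
  linarith [mul_comm ‖a‖ ‖b‖]

lemma wedgeCov_add_left (a a' b : Cov) : wedgeCov (a + a') b = wedgeCov a b + wedgeCov a' b := by
  ext u v; simp [Base.wedgeCov_apply]; ring

lemma wedgeCov_smul_left (t : ℝ) (a b : Cov) : wedgeCov (t • a) b = t • wedgeCov a b := by
  ext u v; simp [Base.wedgeCov_apply]; ring

lemma wedgeCov_add_right (a b b' : Cov) : wedgeCov a (b + b') = wedgeCov a b + wedgeCov a b' := by
  ext u v; simp [Base.wedgeCov_apply]; ring

/-- Extension by zero of a function defined near the closed ball of radius `5/2`. -/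
lemma continuous_extend52 {E : Type*} [NormedAddCommGroup E] [NormedSpace ℝ E] {f : R4 → E}
    (hf : ContinuousOn f (Metric.ball 0 (21 / 8))) (h0 : ∀ z, 5 / 2 < ‖z‖ → f z = 0) :
    Continuous f :=
  contDiff_zero.1 (Base.cd_extend (n := 0) Metric.isOpen_ball (contDiffOn_zero.2 hf)
    (Metric.isClosed_closedBall (x := (0 : R4)) (ε := 5 / 2)) ball52
    fun z hz => h0 z (not_le.1 fun h' => hz (mem_closedBall_zero_iff.2 h')))

/-- Extension by zero of a smooth function defined near the closed ball of radius `5/2`. -/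
lemma smooth_extend52 {E : Type*} [NormedAddCommGroup E] [NormedSpace ℝ E] {f : R4 → E}
    (hf : ContDiffOn ℝ ∞ f (Metric.ball 0 (21 / 8))) (h0 : ∀ z, 5 / 2 < ‖z‖ → f z = 0) :
    ContDiff ℝ ∞ f :=
  Base.cd_extend Metric.isOpen_ball hf (Metric.isClosed_closedBall (x := (0 : R4)) (ε := 5 / 2))
    ball52 fun z hz => h0 z (not_le.1 fun h' => hz (mem_closedBall_zero_iff.2 h'))

/-- Admissible covector fields. -/
structure CFld (x : R4 → Cov) : Prop where
  smooth : ContDiff ℝ ∞ x
  supp : In3 x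

lemma CFld.add {x y : R4 → Cov} (hx : CFld x) (hy : CFld y) : CFld fun z => x z + y z :=
  ⟨hx.smooth.add hy.smooth, fun z hz => by simp [hx.supp z hz, hy.supp z hz]⟩

lemma CFld.fun_smul {x : R4 → Cov} (hx : CFld x) {r : R4 → ℝ} (hr : ContDiff ℝ ∞ r) :
    CFld fun z => r z • x z :=
  ⟨hr.smul hx.smooth, fun z hz => by simp [hx.supp z hz]⟩

variable {X : Type u} [TopologicalSpace X] [ChartedSpace R4 X] [IsManifold 𝓘(ℝ, R4) ∞ X]
  {G : Geo X}

/-- The field `x ∧ (-(y ∘ J))` of a chart. -/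
def wfld (i : Fin G.n) (x y : R4 → Cov) (z : R4) : Bil :=
  wedgeCov (x z) (-((y z).comp (Jc G i z)))

lemma fld_wfld (i : Fin G.n) {x y : R4 → Cov} (hx : CFld x) (hy : CFld y) : Fld (wfld i x y) := by
  have h3 : In3 (wfld i x y) := fun z hz => by
    ext u v
    simp [wfld, Base.wedgeCov_apply, hx.supp z hz]
  refine ⟨fun z => Base.isAlt_wedgeCov _ _, ?_, h3⟩
  have hc : ContDiffOn ℝ ∞ (fun z => (y z).comp (Jc G i z)) (G.c i).target :=
    fun z hz => (Base.cdAt_pullCov ((Base.smooth_viewJ G.J_acs (G.c_mem i)).contDiffAt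
      ((G.c i).open_target.mem_nhds hz)) hy.smooth.contDiffAt).contDiffWithinAt
  exact Base.cd_extend (E := Bil) (G.c i).open_target
    (Base.cdOn_wedge hx.smooth.contDiffOn hc.neg) Metric.isClosed_closedBall
    (Base.closedBall_subset_target G i (r := 3) (by norm_num))
    (fun z hz => h3 z (not_le.1 fun h' => hz (mem_closedBall_zero_iff.2 h')))

lemma push2_wfld (i : Fin G.n) (x y : R4 → Cov) :
    push2 (G.c i) (wfld i x y) =
      fun p => wedgeCov (push1 (G.c i) x p) (-((push1 (G.c i) y p).comp (G.J p))) := by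
  funext p
  by_cases hp : p ∈ (G.c i).source
  · ext u v
    rw [Base.push2_pos _ hp, Base.push1_pos _ hp, Base.push1_pos _ hp]
    simp [wfld, Base.wedgeCov_apply, Bridge.dchart_J G.J (G.c_mem i) hp]
  · ext u v
    simp [push2, push1, if_neg hp, Base.wedgeCov_apply]

lemma wfld_self_nonneg (i : Fin G.n) (x : R4 → Cov) {z : R4} (hz : ‖z‖ ≤ 3) (v : R4) :
    0 ≤ wfld i x x z v (Jc G i z v) := by
  have hJ : Jc G i z (Jc G i z v) = -v :=
    Bridge.viewJ_sq G.J_acs (G.c_mem i) (ball3_target G i hz) v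
  simp only [wfld, Base.wedgeCov_apply, neg_apply, ContinuousLinearMap.comp_apply, hJ, map_neg]
  nlinarith [sq_nonneg (x z v), sq_nonneg (x z (Jc G i z v))]

variable [T2Space X] [CompactSpace X] [MeasurableSpace X] [BorelSpace X]

/-- The pairing of the current with `x ∧ (-(y ∘ J))`. -/
def PW (D : PosCur G) (i : Fin G.n) (x y : R4 → Cov) : ℝ := D.P (push2 (G.c i) (wfld i x y))

lemma PW_nonneg (D : PosCur G) (i : Fin G.n) {x : R4 → Cov} (hx : CFld x) : 0 ≤ PW D i x x := by
  obtain ⟨C, -, hC⟩ := P_lower G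
  have h := hC D i _ (fun _ => 0) (fld_wfld i hx hx) continuous_const (fun _ _ => rfl)
    (fun _ => le_rfl) fun z hz v => by simpa using wfld_self_nonneg i x hz v
  simpa [PW, push0] using h

lemma PW_cauchy (D : PosCur G) (i : Fin G.n) {x y : R4 → Cov} (hx : CFld x) (hy : CFld y)
    {s : ℝ} (hs : 0 < s) : 2 * |PW D i x y| ≤ s * PW D i x x + s⁻¹ * PW D i y y := by
  obtain ⟨hsx, -⟩ := Base.push1_smooth (G.c_mem i) hx.smooth hx.supp.hcs (hx.supp.subset_target G i)
  obtain ⟨hsy, -⟩ := Base.push1_smooth (G.c_mem i) hy.smooth hy.supp.hcs (hy.supp.subset_target G i)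
  have h : PW D i x y ^ 2 ≤ PW D i x x * PW D i y y := by
    have h := (Point.curFacts G).cauchy D _ _ hsx hsy
    simp only [PW, push2_wfld]
    exact h
  have h1 := PW_nonneg D i hx
  have h2 := PW_nonneg D i hy
  have e : 2 * |PW D i x y| = |2 * PW D i x y| := by rw [abs_mul, abs_two]
  rw [e]
  refine abs_le_of_sq_le_sq ?_ (by positivity)
  nlinarith [sq_nonneg (s * PW D i x x - s⁻¹ * PW D i y y), mul_inv_cancel₀ hs.ne']

lemma PW_le : ∃ C : ℝ, 0 ≤ C ∧ ∀ (D : PosCur G) (i : Fin G.n) (x : R4 → Cov), CFld x →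
    (∀ z, 5 / 2 < ‖z‖ → x z = 0) →
      PW D i x x ≤ C * ∫ z, ‖x z‖ ^ 2 ∂nuC i D.mu := by
  obtain ⟨CP, hCP0, hCP⟩ := P_bound G
  obtain ⟨L, hL0, hL⟩ := coef_bounds (G := G)
  refine ⟨CP * (2 * L), by positivity, fun D i x hx h5 => ?_⟩
  refine (le_abs_self _).trans ((hCP D i _ (fld_wfld i hx hx)).trans ?_)
  rw [mul_assoc]
  refine mul_le_mul_of_nonneg_left ?_ hCP0
  rw [integral_nuC i D.mu (g := fun z => ‖x z‖ ^ 2) (hx.smooth.continuous.norm.pow 2),
    ← integral_const_mul]
  have hc2 : Continuous fun z => cutB z * ‖x z‖ ^ 2 :=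
    cutB.continuous.mul (hx.smooth.continuous.norm.pow 2)
  refine integral_mono (Point.integrable_of_cont G D (continuous_push0 G i
    (fld_wfld i hx hx).smooth.continuous.norm (fld_wfld i hx hx).supp.norm))
    ((Point.integrable_of_cont G D (continuous_push0 G i hc2
      fun z hz => by simp [cut_in3 z hz])).const_mul _) fun p => ?_
  by_cases hp : p ∈ (G.c i).source
  · simp only [push0_pos G i _ hp]
    set z := G.c i p
    rcases le_or_gt ‖z‖ (5 / 2) with hz | hz
    · rw [cut_one (hz.trans (by norm_num)), one_mul]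
      have hJ := (hL i z z (by linarith) (by linarith)).1
      refine (norm_wedgeCov_le _ _).trans ?_
      rw [norm_neg]
      calc 2 * ‖x z‖ * ‖(x z).comp (Jc G i z)‖ ≤ 2 * ‖x z‖ * (‖x z‖ * L) := by
            gcongr
            exact ((x z).opNorm_comp_le _).trans (by gcongr)
        _ = _ := by ring
    · have : wfld i x x z = 0 := by
        ext u v
        simp [wfld, Base.wedgeCov_apply, h5 z hz]
      rw [this, norm_zero]
      have := cutB.nonneg (x := z)
      positivity
  · simp only [push0_neg G i _ hp, mul_zero, le_refl]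

lemma PW_mono (D : PosCur G) (i : Fin G.n) {x : R4 → Cov} (hx : CFld x) {r : R4 → ℝ}
    (hr : ContDiff ℝ ∞ r) {s : ℝ} (hs : ∀ z, |r z| ≤ s) :
    PW D i (fun z => r z • x z) (fun z => r z • x z) ≤ s ^ 2 * PW D i x x := by
  obtain ⟨C, -, hC⟩ := P_lower G
  set β : R4 → Bil := fun z => (s ^ 2 - r z ^ 2) • wfld i x x z with hβ
  have hF := fld_wfld i hx hx
  have hβF : Fld β := ⟨fun z => (hF.alt z).smul _, (contDiff_const.sub (hr.pow 2)).smul hF.smooth,
    fun z hz => by simp [hβ, hF.supp z hz]⟩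
  have h := hC D i β (fun _ => 0) hβF continuous_const (fun _ _ => rfl) (fun _ => le_rfl)
    fun z hz v => by
      have hnn : 0 ≤ s ^ 2 - r z ^ 2 := sub_nonneg.2 (sq_le_sq' (abs_le.1 (hs z)).1 (abs_le.1 (hs z)).2)
      simpa [hβ] using mul_nonneg hnn (wfld_self_nonneg i x hz v)
  have e : β = (s ^ 2) • wfld i x x - wfld i (fun z => r z • x z) (fun z => r z • x z) := by
    funext z
    ext u v
    simp [hβ, wfld, Base.wedgeCov_apply]
    ring
  rw [e, ← pushL_apply, map_sub, map_smul, map_sub, map_smul, smul_eq_mul] at h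
  simpa [PW, push0, pushL_apply] using h

end Vale.Agent.P204.Full.Split
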